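import Crest.Agent.R163.BxV

/-! # Row 163: certificate leaves -/

set_option autoImplicit false
set_option Elab.async false

namespace Crest.Agent.R163.Bx.BxFf

open Kr

theorem lf0 : Cov [kKnot 9002 18027 (-348), kKnot 8603 16669 (-595), kKnot 8216 15368 (-908)]
    ⟨0, 1, 4⟩ ⟨0, 1, 2⟩ ⟨524287, 1, 1048576⟩ :=
  .leafU ⟨.mk 80 6 4 16, .mk 112 7 4 16, .mk 112 7 4 16, .mk 112 7 4 16, .mk 68 6 4 4, .mk 68 6 4 4, 540, 12, 8, 12⟩ (by decide +kernel)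

theorem lf1 : Cov [kKnot 9002 18027 (-348), kKnot 8603 16669 (-595), kKnot 8216 15368 (-908)]
    ⟨2, 1, 8⟩ ⟨0, 1, 4⟩ ⟨524287, 1, 1048576⟩ :=
  .leafU ⟨.mk 101 6 5 11, .mk 94 7 5 14, .mk 88 7 5 8, .mk 91 7 5 12, .mk 72 6 5 4, .mk 74 6 5 3, 644, 15, 10, 15⟩ (by decide +kernel)

theorem lf2 : Cov [kKnot 9002 18027 (-348), kKnot 8603 16669 (-595), kKnot 8216 15368 (-908)]
    ⟨3, 1, 8⟩ ⟨0, 1, 4⟩ ⟨524287, 1, 1048576⟩ :=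
  .leafU ⟨.mk 116 6 5 13, .mk 81 7 5 17, .mk 72 7 5 8, .mk 77 7 5 13, .mk 76 6 5 5, .mk 78 6 5 3, 645, 15, 10, 15⟩ (by decide +kernel)

theorem lf3 : Cov [kKnot 9002 18027 (-348), kKnot 8603 16669 (-595), kKnot 8216 15368 (-908)]
    ⟨1, 1, 4⟩ ⟨1, 1, 4⟩ ⟨524287, 1, 1048576⟩ :=
  .leafU ⟨.mk 100 6 5 16, .mk 104 7 5 16, .mk 80 7 5 16, .mk 92 7 5 17, .mk 70 6 5 5, .mk 76 6 5 5, 629, 15, 10, 15⟩ (by decide +kernel)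

theorem lf4 : Cov [kKnot 8603 16669 (-595), kKnot 8216 15368 (-908)]
    ⟨0, 1, 2⟩ ⟨1, 1, 2⟩ ⟨524287, 1, 1048576⟩ :=
  .leafU ⟨.mk 84 6 5 20, .mk 68 6 5 12, .mk 96 7 5 32, .mk 108 7 5 20, .mk 124 7 5 12, .mk 72 6 5 8, 603, 15, 10, 15⟩ (by decide +kernel)

theorem lf5 : Cov [kKnot 9002 18027 (-348)]
    ⟨0, 1, 4⟩ ⟨1, 1, 2⟩ ⟨524287, 1, 1048576⟩ :=
  .leafU ⟨.mk 74 6 4 10, .mk 66 6 4 6, .mk 112 7 4 16, .mk 118 7 4 10, .mk 126 7 4 6, .mk 68 6 4 4, 540, 12, 8, 12⟩ (by decide +kernel)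

theorem lf6 : Cov [kKnot 9002 18027 (-348)]
    ⟨1, 1, 4⟩ ⟨1, 1, 2⟩ ⟨524287, 1, 1048576⟩ :=
  .leafU ⟨.mk 88 6 4 16, .mk 68 6 4 12, .mk 80 7 4 16, .mk 104 7 4 17, .mk 124 7 4 12, .mk 76 6 4 5, 541, 12, 8, 12⟩ (by decide +kernel)

theorem lf7 : Cov [kKnot 9002 18027 (-348), kKnot 8603 16669 (-595)]
    ⟨4, 1, 8⟩ ⟨0, 1, 4⟩ ⟨524287, 1, 1048576⟩ :=
  .leafU ⟨.mk 65 5 5 7, .mk 68 7 5 20, .mk 112 8 5 16, .mk 124 8 5 29, .mk 79 6 5 6, .mk 82 6 5 3, 648, 15, 10, 15⟩ (by decide +kernel)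

theorem lf8 : Cov [kKnot 8216 15368 (-908)]
    ⟨4, 1, 8⟩ ⟨0, 1, 16⟩ ⟨524287, 1, 1048576⟩ :=
  .leafU ⟨.mk 67 5 4 5, .mk 118 8 4 22, .mk 112 8 4 16, .mk 115 8 4 20, .mk 81 6 4 3, .mk 82 6 4 3, 579, 12, 8, 12⟩ (by decide +kernel)

theorem lf9 : Cov [kKnot 8216 15368 (-908)]
    ⟨4, 1, 8⟩ ⟨1, 3, 16⟩ ⟨524287, 1, 1048576⟩ :=
  .leafU ⟨.mk 64 5 5 7, .mk 72 7 5 17, .mk 112 8 5 16, .mk 128 8 5 25, .mk 78 6 5 5, .mk 82 6 5 3, 667, 15, 10, 15⟩ (by decide +kernel)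

theorem lf10 : Cov [kKnot 9002 18027 (-348), kKnot 8603 16669 (-595), kKnot 8216 15368 (-908)]
    ⟨5, 1, 8⟩ ⟨0, 1, 16⟩ ⟨524287, 1, 1048576⟩ :=
  .leafU ⟨.mk 75 5 4 5, .mk 88 8 4 24, .mk 80 8 4 16, .mk 84 8 4 20, .mk 85 6 4 3, .mk 86 6 4 3, 582, 12, 8, 12⟩ (by decide +kernel)

theorem lf11 : Cov [kKnot 9002 18027 (-348), kKnot 8603 16669 (-595), kKnot 8216 15368 (-908)]
    ⟨5, 1, 8⟩ ⟨1, 3, 16⟩ ⟨524287, 1, 1048576⟩ :=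
  .leafU ⟨.mk 71 5 5 7, .mk 119 8 5 37, .mk 80 8 5 16, .mk 100 8 5 27, .mk 81 6 5 5, .mk 86 6 5 3, 671, 15, 10, 15⟩ (by decide +kernel)

theorem lf12 : Cov [kKnot 9002 18027 (-348), kKnot 8603 16669 (-595), kKnot 8216 15368 (-908)]
    ⟨4, 1, 8⟩ ⟨1, 1, 4⟩ ⟨524287, 1, 1048576⟩ :=
  .leafU ⟨.mk 117 6 4 13, .mk 95 7 4 17, .mk 112 8 4 16, .mk 76 7 4 13, .mk 72 6 4 5, .mk 82 6 4 3, 563, 12, 8, 12⟩ (by decide +kernel)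

theorem lf13 : Cov [kKnot 9002 18027 (-348), kKnot 8603 16669 (-595), kKnot 8216 15368 (-908)]
    ⟨5, 1, 8⟩ ⟨1, 1, 4⟩ ⟨524287, 1, 1048576⟩ :=
  .leafU ⟨.mk 64 5 4 7, .mk 88 7 4 20, .mk 80 8 4 16, .mk 64 7 4 15, .mk 74 6 4 6, .mk 86 6 4 3, 565, 12, 8, 12⟩ (by decide +kernel)

theorem lf14 : Cov [kKnot 8603 16669 (-595), kKnot 8216 15368 (-908)]
    ⟨2, 1, 4⟩ ⟨1, 1, 2⟩ ⟨524287, 1, 1048576⟩ :=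
  .leafU ⟨.mk 102 6 5 22, .mk 70 6 5 18, .mk 96 8 5 32, .mk 90 7 5 23, .mk 122 7 5 18, .mk 84 6 5 5, 623, 15, 10, 15⟩ (by decide +kernel)

theorem lf15 : Cov [kKnot 9002 18027 (-348)]
    ⟨4, 1, 8⟩ ⟨1, 1, 2⟩ ⟨524287, 1, 1048576⟩ :=
  .leafU ⟨.mk 97 6 4 17, .mk 69 6 4 15, .mk 112 8 4 16, .mk 95 7 4 18, .mk 123 7 4 15, .mk 82 6 4 3, 555, 12, 8, 12⟩ (by decide +kernel)

theorem lf16 : Cov [kKnot 9002 18027 (-348)]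
    ⟨5, 1, 8⟩ ⟨1, 1, 2⟩ ⟨524287, 1, 1048576⟩ :=
  .leafU ⟨.mk 104 6 5 20, .mk 70 6 5 18, .mk 80 8 5 16, .mk 88 7 5 21, .mk 122 7 5 18, .mk 86 6 5 3, 640, 15, 10, 15⟩ (by decide +kernel)

theorem lf17 : Cov [kKnot 9002 18027 (-348), kKnot 8603 16669 (-595), kKnot 8216 15368 (-908)]
    ⟨24, 3, 32⟩ ⟨0, 1, 16⟩ ⟨524287, 1, 1048576⟩ :=
  .leafU ⟨.mk 82 5 4 5, .mk 122 9 4 42, .mk 104 9 4 24, .mk 113 9 4 34, .mk 88 6 4 3, .mk 89 6 4 2, 610, 12, 8, 12⟩ (by decide +kernel)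

theorem lf18 : Cov [kKnot 9002 18027 (-348), kKnot 8603 16669 (-595), kKnot 8216 15368 (-908)]
    ⟨27, 3, 32⟩ ⟨0, 1, 16⟩ ⟨524287, 1, 1048576⟩ :=
  .leafU ⟨.mk 88 5 5 5, .mk 76 9 5 45, .mk 112 10 5 48, .mk 66 9 5 35, .mk 91 6 5 3, .mk 92 6 5 2, 714, 15, 10, 15⟩ (by decide +kernel)

theorem lf19 : Cov [kKnot 9002 18027 (-348), kKnot 8603 16669 (-595), kKnot 8216 15368 (-908)]
    ⟨24, 3, 32⟩ ⟨1, 3, 16⟩ ⟨524287, 1, 1048576⟩ :=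
  .leafU ⟨.mk 77 5 5 7, .mk 98 8 5 38, .mk 104 9 5 24, .mk 75 8 5 26, .mk 84 6 5 6, .mk 89 6 5 2, 705, 15, 10, 15⟩ (by decide +kernel)

theorem lf20 : Cov [kKnot 9002 18027 (-348), kKnot 8603 16669 (-595), kKnot 8216 15368 (-908)]
    ⟨27, 3, 32⟩ ⟨2, 3, 32⟩ ⟨524287, 1, 1048576⟩ :=
  .leafU ⟨.mk 84 5 5 6, .mk 65 8 5 27, .mk 112 10 5 48, .mk 93 9 5 39, .mk 88 6 5 4, .mk 92 6 5 2, 721, 15, 10, 15⟩ (by decide +kernel)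

theorem lf21 : Cov [kKnot 9002 18027 (-348), kKnot 8603 16669 (-595), kKnot 8216 15368 (-908)]
    ⟨27, 3, 32⟩ ⟨5, 3, 32⟩ ⟨524287, 1, 1048576⟩ :=
  .leafU ⟨.mk 80 5 4 5, .mk 97 8 4 25, .mk 112 10 4 48, .mk 125 9 4 37, .mk 84 6 4 4, .mk 92 6 4 2, 620, 12, 8, 12⟩ (by decide +kernel)

theorem lf22 : Cov [kKnot 9002 18027 (-348), kKnot 8603 16669 (-595), kKnot 8216 15368 (-908)]
    ⟨60, 3, 64⟩ ⟨0, 1, 64⟩ ⟨524287, 1, 1048576⟩ :=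
  .leafU ⟨.mk 93 5 5 2, .mk 103 11 5 71, .mk 80 11 5 48, .mk 91 11 5 60, .mk 94 6 5 2, .mk 95 6 5 2, 762, 15, 10, 15⟩ (by decide +kernel)

theorem lf23 : Cov [kKnot 9002 18027 (-348), kKnot 8603 16669 (-595), kKnot 8216 15368 (-908)]
    ⟨60, 3, 64⟩ ⟨1, 3, 64⟩ ⟨524287, 1, 1048576⟩ :=
  .leafU ⟨.mk 92 5 5 3, .mk 97 10 5 58, .mk 80 11 5 48, .mk 68 10 5 42, .mk 93 6 5 2, .mk 95 6 5 2, 758, 15, 10, 15⟩ (by decide +kernel)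

theorem lf24 : Cov [kKnot 9002 18027 (-348), kKnot 8603 16669 (-595), kKnot 8216 15368 (-908)]
    ⟨252, 3, 256⟩ ⟨0, 1, 256⟩ ⟨524287, 1, 1048576⟩ :=
  .leafU ⟨.mk 95 5 4 1, .mk 104 13 4 72, .mk 80 13 4 48, .mk 92 13 4 60, .mk 96 6 4 1, .mk 96 6 4 1, 709, 12, 8, 12⟩ (by decide +kernel)

theorem lf25 : Cov [kKnot 9002 18027 (-348), kKnot 8603 16669 (-595), kKnot 8216 15368 (-908)]
    ⟨252, 3, 256⟩ ⟨1, 3, 256⟩ ⟨524287, 1, 1048576⟩ :=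
  .leafU ⟨.mk 95 5 4 1, .mk 99 12 4 60, .mk 80 13 4 48, .mk 70 12 4 43, .mk 95 6 4 1, .mk 96 6 4 1, 705, 12, 8, 12⟩ (by decide +kernel)

theorem lf26 : Cov [kKnot 9002 18027 (-348), kKnot 8603 16669 (-595), kKnot 8216 15368 (-908)]
    ⟨1020, 3, 1024⟩ ⟨0, 1, 1024⟩ ⟨524287, 1, 1048576⟩ :=
  .leafU ⟨.mk 96 5 4 1, .mk 104 15 4 72, .mk 80 15 4 48, .mk 92 15 4 60, .mk 96 6 4 1, .mk 96 6 4 1, 763, 12, 8, 12⟩ (by decide +kernel)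

theorem lf27 : Cov [kKnot 9002 18027 (-348), kKnot 8603 16669 (-595), kKnot 8216 15368 (-908)]
    ⟨1020, 3, 1024⟩ ⟨1, 3, 1024⟩ ⟨524287, 1, 1048576⟩ :=
  .leafU ⟨.mk 96 5 4 1, .mk 100 14 4 61, .mk 80 15 4 48, .mk 70 14 4 43, .mk 96 6 4 1, .mk 96 6 4 1, 760, 12, 8, 12⟩ (by decide +kernel)

theorem lf28 : Cov [kKnot 9002 18027 (-348), kKnot 8603 16669 (-595), kKnot 8216 15368 (-908)]
    ⟨4092, 3, 4096⟩ ⟨0, 1, 4096⟩ ⟨524287, 1, 1048576⟩ :=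
  .leafU ⟨.mk 96 5 4 1, .mk 104 17 4 72, .mk 80 17 4 48, .mk 92 17 4 61, .mk 96 6 4 1, .mk 96 6 4 1, 818, 12, 8, 12⟩ (by decide +kernel)

theorem lf29 : Cov [kKnot 9002 18027 (-348), kKnot 8603 16669 (-595), kKnot 8216 15368 (-908)]
    ⟨4092, 3, 4096⟩ ⟨1, 3, 4096⟩ ⟨524287, 1, 1048576⟩ :=
  .leafU ⟨.mk 96 5 4 1, .mk 100 16 4 61, .mk 80 17 4 48, .mk 70 16 4 43, .mk 96 6 4 1, .mk 96 6 4 1, 814, 12, 8, 12⟩ (by decide +kernel)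

theorem lf30 : Cov [kKnot 9002 18027 (-348)]
    ⟨16380, 3, 16384⟩ ⟨0, 1, 4096⟩ ⟨524287, 1, 1048576⟩ :=
  .leafU ⟨.mk 96 5 5 1, .bot 80 17, .mk 80 19 5 48, .mk 64 18 5 49, .mk 96 6 5 1, .mk 96 6 5 1, 960, 15, 10, 15⟩ (by decide +kernel)

theorem lf31 : Cov [kKnot 8603 16669 (-595), kKnot 8216 15368 (-908)]
    ⟨16380, 3, 16384⟩ ⟨0, 1, 16384⟩ ⟨524287, 1, 1048576⟩ :=
  .leafU ⟨.mk 96 5 4 1, .mk 104 19 4 72, .mk 80 19 4 48, .mk 92 19 4 61, .mk 96 6 4 1, .mk 96 6 4 1, 872, 12, 8, 12⟩ (by decide +kernel)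

theorem lf32 : Cov [kKnot 8603 16669 (-595), kKnot 8216 15368 (-908)]
    ⟨16380, 3, 16384⟩ ⟨1, 3, 16384⟩ ⟨524287, 1, 1048576⟩ :=
  .leafU ⟨.mk 96 5 4 1, .mk 100 18 4 61, .mk 80 19 4 48, .mk 70 18 4 43, .mk 96 6 4 1, .mk 96 6 4 1, 869, 12, 8, 12⟩ (by decide +kernel)

theorem lf33 : Cov [kKnot 9002 18027 (-348), kKnot 8603 16669 (-595), kKnot 8216 15368 (-908)]
    ⟨65532, 3, 65536⟩ ⟨0, 1, 16384⟩ ⟨524287, 1, 1048576⟩ :=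
  .leafU ⟨.mk 96 5 4 1, .bot 80 19, .mk 80 21 4 48, .mk 65 20 4 49, .mk 96 6 4 1, .mk 96 6 4 1, 859, 12, 8, 12⟩ (by decide +kernel)

theorem lf34 : Cov [kKnot 9002 18027 (-348), kKnot 8603 16669 (-595), kKnot 8216 15368 (-908)]
    ⟨262140, 3, 262144⟩ ⟨0, 1, 65536⟩ ⟨524287, 1, 1048576⟩ :=
  .leafU ⟨.mk 96 5 4 1, .bot 80 21, .mk 80 23 4 48, .mk 68 22 4 52, .mk 96 6 4 1, .mk 96 6 4 1, 907, 12, 8, 12⟩ (by decide +kernel)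

theorem lf35 : Cov [kKnot 9002 18027 (-348)]
    ⟨262143, 1, 262144⟩ ⟨0, 1, 262144⟩ ⟨524287, 1, 1048576⟩ :=
  .leafU ⟨.mk 96 5 5 1, .bot 80 23, .bot 64 24, .bot 72 23, .mk 96 6 5 1, .mk 96 6 5 1, 728, 10, 5, 10⟩ (by decide +kernel)

theorem lf36 : Cov [kKnot 8603 16669 (-595)]
    ⟨1048572, 3, 1048576⟩ ⟨0, 1, 262144⟩ ⟨524287, 1, 1048576⟩ :=
  .leafU ⟨.mk 96 5 5 1, .bot 80 23, .mk 80 25 5 48, .bot 72 23, .mk 96 6 5 1, .mk 96 6 5 1, 828, 10, 5, 10⟩ (by decide +kernel)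

end Crest.Agent.R163.Bx.BxFf
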