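import Crest.Agent.R163.BxV

/-! # Row 163: certificate leaves -/

set_option autoImplicit false
set_option Elab.async false

namespace Crest.Agent.R163.Bx.BxFf

open Kr

theorem lf37 : Cov [kKnot 8216 15368 (-908)]
    ⟨1048572, 3, 1048576⟩ ⟨0, 1, 1048576⟩ ⟨524287, 1, 1048576⟩ :=
  .leafU ⟨.mk 96 5 4 1, .mk 104 25 4 72, .mk 80 25 4 48, .mk 124 25 4 92, .mk 96 6 4 1, .mk 96 6 4 1, 1036, 12, 8, 12⟩ (by decide +kernel)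

theorem lf38 : Cov [kKnot 8216 15368 (-908)]
    ⟨1048572, 3, 1048576⟩ ⟨1, 3, 1048576⟩ ⟨524287, 1, 1048576⟩ :=
  .leafU ⟨.mk 96 5 4 1, .mk 100 24 4 61, .mk 80 25 4 48, .mk 86 24 4 59, .mk 96 6 4 1, .mk 96 6 4 1, 1033, 12, 8, 12⟩ (by decide +kernel)

theorem lf39 : Cov [kKnot 8603 16669 (-595), kKnot 8216 15368 (-908)]
    ⟨1048575, 1, 1048576⟩ ⟨0, 1, 262144⟩ ⟨524287, 1, 1048576⟩ :=
  .leafU ⟨.mk 96 5 4 1, .bot 112 24, .bot 64 26, .bot 96 24, .mk 96 6 4 1, .mk 96 6 4 1, 644, 8, 4, 8⟩ (by decide +kernel)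

theorem lf40 : Cov [kKnot 9002 18027 (-348), kKnot 8603 16669 (-595), kKnot 8216 15368 (-908)]
    ⟨262143, 1, 262144⟩ ⟨1, 3, 262144⟩ ⟨524287, 1, 1048576⟩ :=
  .leafU ⟨.mk 96 5 4 1, .mk 68 22 4 44, .bot 64 24, .mk 84 23 4 60, .mk 96 6 4 1, .mk 96 6 4 1, 925, 12, 8, 12⟩ (by decide +kernel)

theorem lf41 : Cov [kKnot 9002 18027 (-348), kKnot 8603 16669 (-595), kKnot 8216 15368 (-908)]
    ⟨65535, 1, 65536⟩ ⟨1, 3, 65536⟩ ⟨524287, 1, 1048576⟩ :=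
  .leafU ⟨.mk 96 5 4 1, .mk 68 20 4 44, .bot 64 22, .mk 78 21 4 54, .mk 96 6 4 1, .mk 96 6 4 1, 878, 12, 8, 12⟩ (by decide +kernel)

theorem lf42 : Cov [kKnot 9002 18027 (-348), kKnot 8603 16669 (-595), kKnot 8216 15368 (-908)]
    ⟨16383, 1, 16384⟩ ⟨1, 3, 16384⟩ ⟨524287, 1, 1048576⟩ :=
  .leafU ⟨.mk 96 5 4 1, .mk 68 18 4 44, .bot 64 20, .mk 76 19 4 53, .mk 96 6 4 1, .mk 96 6 4 1, 831, 12, 8, 12⟩ (by decide +kernel)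

theorem lf43 : Cov [kKnot 9002 18027 (-348), kKnot 8603 16669 (-595), kKnot 8216 15368 (-908)]
    ⟨4095, 1, 4096⟩ ⟨1, 3, 4096⟩ ⟨524287, 1, 1048576⟩ :=
  .leafU ⟨.mk 96 5 5 1, .mk 68 16 5 44, .bot 64 18, .mk 76 17 5 53, .mk 96 6 5 1, .mk 96 6 5 1, 924, 15, 10, 15⟩ (by decide +kernel)

theorem lf44 : Cov [kKnot 9002 18027 (-348), kKnot 8603 16669 (-595), kKnot 8216 15368 (-908)]
    ⟨4092, 3, 4096⟩ ⟨1, 3, 1024⟩ ⟨524287, 1, 1048576⟩ :=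
  .leafU ⟨.mk 96 5 4 1, .mk 70 14 4 43, .mk 80 17 4 48, .mk 80 15 4 49, .mk 96 6 4 1, .mk 96 6 4 1, 793, 12, 8, 12⟩ (by decide +kernel)

theorem lf45 : Cov [kKnot 9002 18027 (-348), kKnot 8603 16669 (-595), kKnot 8216 15368 (-908)]
    ⟨4095, 1, 4096⟩ ⟨1, 3, 1024⟩ ⟨524287, 1, 1048576⟩ :=
  .leafU ⟨.mk 96 5 4 1, .mk 124 15 4 76, .bot 64 18, .mk 64 15 4 41, .mk 96 6 4 1, .mk 96 6 4 1, 762, 12, 8, 12⟩ (by decide +kernel)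

theorem lf46 : Cov [kKnot 9002 18027 (-348), kKnot 8603 16669 (-595), kKnot 8216 15368 (-908)]
    ⟨1020, 3, 1024⟩ ⟨1, 3, 256⟩ ⟨524287, 1, 1048576⟩ :=
  .leafU ⟨.mk 95 5 4 1, .mk 70 12 4 43, .mk 80 15 4 48, .mk 80 13 4 49, .mk 95 6 4 1, .mk 96 6 4 1, 738, 12, 8, 12⟩ (by decide +kernel)

theorem lf47 : Cov [kKnot 9002 18027 (-348)]
    ⟨1023, 1, 1024⟩ ⟨1, 3, 256⟩ ⟨524287, 1, 1048576⟩ :=
  .leafU ⟨.mk 96 5 5 1, .mk 124 13 5 76, .bot 64 16, .mk 128 14 5 80, .mk 96 6 5 1, .mk 96 6 5 1, 837, 15, 10, 15⟩ (by decide +kernel)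

theorem lf48 : Cov [kKnot 8603 16669 (-595), kKnot 8216 15368 (-908)]
    ⟨4092, 3, 4096⟩ ⟨1, 3, 256⟩ ⟨524287, 1, 1048576⟩ :=
  .leafU ⟨.mk 95 5 4 1, .mk 125 13 4 76, .mk 80 17 4 48, .mk 65 13 4 40, .mk 96 6 4 1, .mk 96 6 4 1, 770, 12, 8, 12⟩ (by decide +kernel)

theorem lf49 : Cov [kKnot 8603 16669 (-595), kKnot 8216 15368 (-908)]
    ⟨4095, 1, 4096⟩ ⟨1, 3, 256⟩ ⟨524287, 1, 1048576⟩ :=
  .leafU ⟨.mk 96 5 4 1, .mk 121 13 4 73, .bot 64 18, .mk 122 14 4 74, .mk 96 6 4 1, .mk 96 6 4 1, 738, 12, 8, 12⟩ (by decide +kernel)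

theorem lf50 : Cov [kKnot 9002 18027 (-348), kKnot 8603 16669 (-595), kKnot 8216 15368 (-908)]
    ⟨252, 3, 256⟩ ⟨1, 3, 64⟩ ⟨524287, 1, 1048576⟩ :=
  .leafU ⟨.mk 94 5 4 2, .mk 69 10 4 42, .mk 80 13 4 48, .mk 79 11 4 48, .mk 94 6 4 2, .mk 96 6 4 1, 684, 12, 8, 12⟩ (by decide +kernel)

theorem lf51 : Cov [kKnot 9002 18027 (-348), kKnot 8603 16669 (-595), kKnot 8216 15368 (-908)]
    ⟨1020, 3, 1024⟩ ⟨1, 3, 64⟩ ⟨524287, 1, 1048576⟩ :=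
  .leafU ⟨.mk 94 5 4 2, .mk 125 11 4 76, .mk 80 15 4 48, .mk 65 11 4 40, .mk 94 6 4 2, .mk 96 6 4 1, 715, 12, 8, 12⟩ (by decide +kernel)

theorem lf52 : Cov [kKnot 9002 18027 (-348), kKnot 8603 16669 (-595), kKnot 8216 15368 (-908)]
    ⟨4092, 3, 4096⟩ ⟨1, 3, 64⟩ ⟨524287, 1, 1048576⟩ :=
  .leafU ⟨.mk 94 5 4 2, .mk 121 11 4 73, .mk 80 17 4 48, .mk 122 12 4 74, .mk 94 6 4 2, .mk 96 6 4 1, 747, 12, 8, 12⟩ (by decide +kernel)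

theorem lf53 : Cov [kKnot 9002 18027 (-348)]
    ⟨4095, 1, 4096⟩ ⟨1, 3, 64⟩ ⟨524287, 1, 1048576⟩ :=
  .leafU ⟨.mk 94 5 5 2, .mk 120 11 5 73, .bot 64 18, .mk 120 12 5 73, .mk 94 6 5 2, .mk 96 6 5 1, 838, 15, 10, 15⟩ (by decide +kernel)

theorem lf54 : Cov [kKnot 8603 16669 (-595), kKnot 8216 15368 (-908)]
    ⟨16380, 3, 16384⟩ ⟨1, 3, 64⟩ ⟨524287, 1, 1048576⟩ :=
  .leafU ⟨.mk 94 5 4 2, .mk 120 11 4 73, .mk 80 19 4 48, .mk 121 12 4 73, .mk 94 6 4 2, .mk 96 6 4 1, 779, 12, 8, 12⟩ (by decide +kernel)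

theorem lf55 : Cov [kKnot 8603 16669 (-595), kKnot 8216 15368 (-908)]
    ⟨16383, 1, 16384⟩ ⟨1, 3, 64⟩ ⟨524287, 1, 1048576⟩ :=
  .leafU ⟨.mk 94 5 4 2, .mk 120 11 4 73, .bot 64 20, .mk 120 12 4 73, .mk 94 6 4 2, .mk 96 6 4 1, 739, 12, 8, 12⟩ (by decide +kernel)

theorem lf56 : Cov [kKnot 9002 18027 (-348), kKnot 8603 16669 (-595), kKnot 8216 15368 (-908)]
    ⟨60, 3, 64⟩ ⟨2, 3, 32⟩ ⟨524287, 1, 1048576⟩ :=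
  .leafU ⟨.mk 89 5 4 5, .mk 100 9 4 45, .mk 80 11 4 48, .mk 120 10 4 57, .mk 90 6 4 4, .mk 95 6 4 2, 640, 12, 8, 12⟩ (by decide +kernel)

theorem lf57 : Cov [kKnot 9002 18027 (-348), kKnot 8603 16669 (-595), kKnot 8216 15368 (-908)]
    ⟨60, 3, 64⟩ ⟨5, 3, 32⟩ ⟨524287, 1, 1048576⟩ :=
  .leafU ⟨.mk 84 5 4 4, .mk 85 8 4 22, .mk 80 11 4 48, .mk 95 9 4 28, .mk 85 6 4 4, .mk 95 6 4 2, 638, 12, 8, 12⟩ (by decide +kernel)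

theorem lf58 : Cov [kKnot 9002 18027 (-348), kKnot 8603 16669 (-595), kKnot 8216 15368 (-908)]
    ⟨252, 3, 256⟩ ⟨2, 3, 32⟩ ⟨524287, 1, 1048576⟩ :=
  .leafU ⟨.mk 90 5 4 3, .mk 88 9 4 39, .mk 80 13 4 48, .mk 93 10 4 42, .mk 91 6 4 3, .mk 96 6 4 1, 672, 12, 8, 12⟩ (by decide +kernel)

theorem lf59 : Cov [kKnot 9002 18027 (-348), kKnot 8603 16669 (-595), kKnot 8216 15368 (-908)]
    ⟨252, 3, 256⟩ ⟨5, 3, 32⟩ ⟨524287, 1, 1048576⟩ :=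
  .leafU ⟨.mk 86 5 4 3, .mk 80 8 4 20, .mk 80 13 4 48, .mk 82 9 4 21, .mk 86 6 4 3, .mk 96 6 4 1, 670, 12, 8, 12⟩ (by decide +kernel)

theorem lf60 : Cov [kKnot 9002 18027 (-348)]
    ⟨1020, 3, 1024⟩ ⟨1, 3, 16⟩ ⟨524287, 1, 1048576⟩ :=
  .leafU ⟨.mk 88 5 5 5, .mk 121 9 5 73, .mk 80 15 5 48, .mk 122 10 5 74, .mk 88 6 5 5, .mk 96 6 5 1, 812, 15, 10, 15⟩ (by decide +kernel)

theorem lf61 : Cov [kKnot 8603 16669 (-595), kKnot 8216 15368 (-908)]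
    ⟨1020, 3, 1024⟩ ⟨2, 3, 32⟩ ⟨524287, 1, 1048576⟩ :=
  .leafU ⟨.mk 91 5 4 3, .mk 85 9 4 37, .mk 80 15 4 48, .mk 86 10 4 38, .mk 91 6 4 3, .mk 96 6 4 1, 703, 12, 8, 12⟩ (by decide +kernel)

theorem lf62 : Cov [kKnot 8603 16669 (-595), kKnot 8216 15368 (-908)]
    ⟨1020, 3, 1024⟩ ⟨5, 3, 32⟩ ⟨524287, 1, 1048576⟩ :=
  .leafU ⟨.mk 86 5 4 3, .mk 78 8 4 19, .mk 80 15 4 48, .mk 79 9 4 19, .mk 86 6 4 3, .mk 96 6 4 1, 701, 12, 8, 12⟩ (by decide +kernel)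

theorem lf63 : Cov [kKnot 9002 18027 (-348), kKnot 8603 16669 (-595), kKnot 8216 15368 (-908)]
    ⟨4092, 3, 4096⟩ ⟨1, 3, 16⟩ ⟨524287, 1, 1048576⟩ :=
  .leafU ⟨.mk 88 5 5 5, .mk 120 9 5 73, .mk 80 17 5 48, .mk 121 10 5 73, .mk 88 6 5 5, .mk 96 6 5 1, 852, 15, 10, 15⟩ (by decide +kernel)

theorem lf64 : Cov [kKnot 9002 18027 (-348), kKnot 8603 16669 (-595), kKnot 8216 15368 (-908)]
    ⟨16380, 3, 16384⟩ ⟨2, 3, 32⟩ ⟨524287, 1, 1048576⟩ :=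
  .leafU ⟨.mk 91 5 4 3, .mk 84 9 4 37, .mk 80 19 4 48, .mk 84 10 4 37, .mk 91 6 4 3, .mk 96 6 4 1, 766, 12, 8, 12⟩ (by decide +kernel)

theorem lf65 : Cov [kKnot 9002 18027 (-348)]
    ⟨16383, 1, 16384⟩ ⟨2, 3, 32⟩ ⟨524287, 1, 1048576⟩ :=
  .leafU ⟨.mk 91 5 5 3, .mk 84 9 5 37, .bot 64 20, .mk 84 10 5 37, .mk 91 6 5 3, .mk 96 6 5 1, 851, 15, 10, 15⟩ (by decide +kernel)

theorem lf66 : Cov [kKnot 8603 16669 (-595), kKnot 8216 15368 (-908)]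
    ⟨65532, 3, 65536⟩ ⟨2, 3, 32⟩ ⟨524287, 1, 1048576⟩ :=
  .leafU ⟨.mk 91 5 4 3, .mk 84 9 4 37, .mk 80 21 4 48, .mk 84 10 4 37, .mk 91 6 4 3, .mk 96 6 4 1, 797, 12, 8, 12⟩ (by decide +kernel)

theorem lf67 : Cov [kKnot 8603 16669 (-595), kKnot 8216 15368 (-908)]
    ⟨65535, 1, 65536⟩ ⟨2, 3, 32⟩ ⟨524287, 1, 1048576⟩ :=
  .leafU ⟨.mk 91 5 4 3, .mk 84 9 4 37, .bot 64 22, .mk 84 10 4 37, .mk 91 6 4 3, .mk 96 6 4 1, 750, 12, 8, 12⟩ (by decide +kernel)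

theorem lf68 : Cov [kKnot 9002 18027 (-348), kKnot 8603 16669 (-595), kKnot 8216 15368 (-908)]
    ⟨16380, 3, 16384⟩ ⟨5, 3, 32⟩ ⟨524287, 1, 1048576⟩ :=
  .leafU ⟨.mk 86 5 4 3, .mk 78 8 4 19, .mk 80 19 4 48, .mk 78 9 4 19, .mk 86 6 4 3, .mk 96 6 4 1, 764, 12, 8, 12⟩ (by decide +kernel)

theorem lf69 : Cov [kKnot 9002 18027 (-348), kKnot 8603 16669 (-595), kKnot 8216 15368 (-908)]
    ⟨65532, 3, 65536⟩ ⟨5, 3, 32⟩ ⟨524287, 1, 1048576⟩ :=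
  .leafU ⟨.mk 86 5 4 3, .mk 78 8 4 19, .mk 80 21 4 48, .mk 78 9 4 19, .mk 86 6 4 3, .mk 96 6 4 1, 795, 12, 8, 12⟩ (by decide +kernel)

theorem lf70 : Cov [kKnot 9002 18027 (-348)]
    ⟨65535, 1, 65536⟩ ⟨5, 3, 32⟩ ⟨524287, 1, 1048576⟩ :=
  .leafU ⟨.mk 86 5 5 3, .mk 78 8 5 19, .bot 64 22, .mk 78 9 5 19, .mk 86 6 5 3, .mk 96 6 5 1, 878, 15, 10, 15⟩ (by decide +kernel)

theorem lf71 : Cov [kKnot 8603 16669 (-595), kKnot 8216 15368 (-908)]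
    ⟨262140, 3, 262144⟩ ⟨5, 3, 32⟩ ⟨524287, 1, 1048576⟩ :=
  .leafU ⟨.mk 86 5 4 3, .mk 78 8 4 19, .mk 80 23 4 48, .mk 78 9 4 19, .mk 86 6 4 3, .mk 96 6 4 1, 827, 12, 8, 12⟩ (by decide +kernel)

theorem lf72 : Cov [kKnot 8603 16669 (-595), kKnot 8216 15368 (-908)]
    ⟨262143, 1, 262144⟩ ⟨5, 3, 32⟩ ⟨524287, 1, 1048576⟩ :=
  .leafU ⟨.mk 86 5 4 3, .mk 78 8 4 19, .bot 64 24, .mk 78 9 4 19, .mk 86 6 4 3, .mk 96 6 4 1, 772, 12, 8, 12⟩ (by decide +kernel)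

theorem lf73 : Cov [kKnot 9002 18027 (-348), kKnot 8603 16669 (-595), kKnot 8216 15368 (-908)]
    ⟨24, 3, 32⟩ ⟨1, 1, 4⟩ ⟨524287, 1, 1048576⟩ :=
  .leafU ⟨.mk 69 5 4 7, .mk 82 7 4 22, .mk 104 9 4 24, .mk 108 8 4 29, .mk 75 6 4 6, .mk 89 6 4 2, 591, 12, 8, 12⟩ (by decide +kernel)

end Crest.Agent.R163.Bx.BxFf
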