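import Crest.Agent.R163.BxV

/-! # Row 163: certificate leaves -/

set_option autoImplicit false
set_option Elab.async false

namespace Crest.Agent.R163.Bx.BxFf

open Kr

theorem lf74 : Cov [kKnot 9002 18027 (-348), kKnot 8603 16669 (-595), kKnot 8216 15368 (-908)]
    ⟨27, 3, 32⟩ ⟨1, 1, 4⟩ ⟨524287, 1, 1048576⟩ :=
  .leafU ⟨.mk 73 5 5 8, .mk 77 7 5 24, .mk 112 10 5 48, .mk 91 8 5 31, .mk 77 6 5 7, .mk 92 6 5 2, 688, 15, 10, 15⟩ (by decide +kernel)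

theorem lf75 : Cov [kKnot 9002 18027 (-348), kKnot 8603 16669 (-595)]
    ⟨60, 3, 64⟩ ⟨1, 1, 4⟩ ⟨524287, 1, 1048576⟩ :=
  .leafU ⟨.mk 76 5 5 8, .mk 74 7 5 25, .mk 80 11 5 48, .mk 79 8 5 28, .mk 78 6 5 7, .mk 95 6 5 2, 710, 15, 10, 15⟩ (by decide +kernel)

theorem lf76 : Cov [kKnot 8216 15368 (-908)]
    ⟨120, 3, 128⟩ ⟨1, 1, 4⟩ ⟨524287, 1, 1048576⟩ :=
  .leafU ⟨.mk 76 5 4 7, .mk 75 7 4 24, .mk 104 11 4 24, .mk 81 8 4 26, .mk 77 6 4 7, .mk 94 6 4 1, 623, 12, 8, 12⟩ (by decide +kernel)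

theorem lf77 : Cov [kKnot 8216 15368 (-908)]
    ⟨123, 3, 128⟩ ⟨1, 1, 4⟩ ⟨524287, 1, 1048576⟩ :=
  .leafU ⟨.mk 77 5 4 7, .mk 73 7 4 25, .mk 112 12 4 48, .mk 77 8 4 26, .mk 78 6 4 7, .mk 95 6 4 1, 626, 12, 8, 12⟩ (by decide +kernel)

theorem lf78 : Cov [kKnot 9002 18027 (-348), kKnot 8603 16669 (-595), kKnot 8216 15368 (-908)]
    ⟨252, 3, 256⟩ ⟨1, 1, 4⟩ ⟨524287, 1, 1048576⟩ :=
  .leafU ⟨.mk 78 5 5 7, .mk 72 7 5 25, .mk 80 13 5 48, .mk 74 8 5 26, .mk 78 6 5 7, .mk 96 6 5 1, 750, 15, 10, 15⟩ (by decide +kernel)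

theorem lf79 : Cov [kKnot 9002 18027 (-348), kKnot 8603 16669 (-595), kKnot 8216 15368 (-908)]
    ⟨1020, 3, 1024⟩ ⟨1, 1, 4⟩ ⟨524287, 1, 1048576⟩ :=
  .leafU ⟨.mk 78 5 4 7, .mk 72 7 4 25, .mk 80 15 4 48, .mk 72 8 4 25, .mk 78 6 4 7, .mk 96 6 4 1, 675, 12, 8, 12⟩ (by decide +kernel)

theorem lf80 : Cov [kKnot 9002 18027 (-348), kKnot 8603 16669 (-595), kKnot 8216 15368 (-908)]
    ⟨4092, 3, 4096⟩ ⟨1, 1, 4⟩ ⟨524287, 1, 1048576⟩ :=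
  .leafU ⟨.mk 78 5 4 7, .mk 72 7 4 25, .mk 80 17 4 48, .mk 72 8 4 25, .mk 78 6 4 7, .mk 96 6 4 1, 707, 12, 8, 12⟩ (by decide +kernel)

theorem lf81 : Cov [kKnot 9002 18027 (-348), kKnot 8603 16669 (-595), kKnot 8216 15368 (-908)]
    ⟨16380, 3, 16384⟩ ⟨1, 1, 4⟩ ⟨524287, 1, 1048576⟩ :=
  .leafU ⟨.mk 78 5 4 7, .mk 72 7 4 25, .mk 80 19 4 48, .mk 72 8 4 25, .mk 78 6 4 7, .mk 96 6 4 1, 738, 12, 8, 12⟩ (by decide +kernel)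

theorem lf82 : Cov [kKnot 9002 18027 (-348), kKnot 8603 16669 (-595), kKnot 8216 15368 (-908)]
    ⟨65532, 3, 65536⟩ ⟨1, 1, 4⟩ ⟨524287, 1, 1048576⟩ :=
  .leafU ⟨.mk 78 5 4 7, .mk 72 7 4 25, .mk 80 21 4 48, .mk 72 8 4 25, .mk 78 6 4 7, .mk 96 6 4 1, 769, 12, 8, 12⟩ (by decide +kernel)

theorem lf83 : Cov [kKnot 9002 18027 (-348), kKnot 8603 16669 (-595), kKnot 8216 15368 (-908)]
    ⟨262140, 3, 262144⟩ ⟨1, 1, 4⟩ ⟨524287, 1, 1048576⟩ :=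
  .leafU ⟨.mk 78 5 4 7, .mk 72 7 4 25, .mk 80 23 4 48, .mk 72 8 4 25, .mk 78 6 4 7, .mk 96 6 4 1, 801, 12, 8, 12⟩ (by decide +kernel)

theorem lf84 : Cov [kKnot 9002 18027 (-348), kKnot 8603 16669 (-595), kKnot 8216 15368 (-908)]
    ⟨1048572, 3, 1048576⟩ ⟨1, 1, 4⟩ ⟨524287, 1, 1048576⟩ :=
  .leafU ⟨.mk 78 5 4 7, .mk 72 7 4 25, .mk 80 25 4 48, .mk 72 8 4 25, .mk 78 6 4 7, .mk 96 6 4 1, 832, 12, 8, 12⟩ (by decide +kernel)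

theorem lf85 : Cov [kKnot 9002 18027 (-348), kKnot 8603 16669 (-595), kKnot 8216 15368 (-908)]
    ⟨4194300, 3, 4194304⟩ ⟨1, 1, 4⟩ ⟨524287, 1, 1048576⟩ :=
  .leafU ⟨.mk 78 5 4 7, .mk 72 7 4 25, .mk 80 27 4 48, .mk 72 8 4 25, .mk 78 6 4 7, .mk 96 6 4 1, 864, 12, 8, 12⟩ (by decide +kernel)

theorem lf86 : Cov [kKnot 9002 18027 (-348), kKnot 8603 16669 (-595), kKnot 8216 15368 (-908)]
    ⟨4194303, 1, 4194304⟩ ⟨1, 1, 4⟩ ⟨524287, 1, 1048576⟩ :=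
  .leafU ⟨.mk 78 5 5 7, .mk 72 7 5 25, .bot 64 28, .mk 72 8 5 25, .mk 78 6 5 7, .mk 96 6 5 1, 935, 15, 10, 15⟩ (by decide +kernel)

theorem lf87 : Cov [kKnot 9002 18027 (-348), kKnot 8603 16669 (-595), kKnot 8216 15368 (-908)]
    ⟨24, 3, 32⟩ ⟨1, 1, 2⟩ ⟨524287, 1, 1048576⟩ :=
  .leafU ⟨.mk 110 6 5 22, .mk 71 6 5 21, .mk 104 9 5 24, .mk 82 7 5 23, .mk 121 7 5 21, .mk 89 6 5 2, 673, 15, 10, 15⟩ (by decide +kernel)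

theorem lf88 : Cov [kKnot 8603 16669 (-595), kKnot 8216 15368 (-908)]
    ⟨27, 3, 32⟩ ⟨1, 1, 2⟩ ⟨524287, 1, 1048576⟩ :=
  .leafU ⟨.mk 115 6 5 24, .mk 72 6 5 23, .mk 112 10 5 48, .mk 77 7 5 25, .mk 121 7 5 23, .mk 92 6 5 2, 677, 15, 10, 15⟩ (by decide +kernel)

theorem lf89 : Cov [kKnot 9002 18027 (-348)]
    ⟨54, 3, 64⟩ ⟨1, 1, 2⟩ ⟨524287, 1, 1048576⟩ :=
  .leafU ⟨.mk 113 6 5 23, .mk 71 6 5 22, .mk 68 9 5 12, .mk 79 7 5 23, .mk 121 7 5 22, .mk 92 6 5 2, 691, 15, 10, 15⟩ (by decide +kernel)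

theorem lf90 : Cov [kKnot 9002 18027 (-348)]
    ⟨57, 3, 64⟩ ⟨1, 1, 2⟩ ⟨524287, 1, 1048576⟩ :=
  .leafU ⟨.mk 116 6 5 24, .mk 72 6 5 23, .mk 88 10 5 24, .mk 76 7 5 24, .mk 121 7 5 23, .mk 93 6 5 1, 693, 15, 10, 15⟩ (by decide +kernel)

theorem lf91 : Cov [kKnot 9002 18027 (-348), kKnot 8603 16669 (-595), kKnot 8216 15368 (-908)]
    ⟨120, 3, 128⟩ ⟨1, 1, 2⟩ ⟨524287, 1, 1048576⟩ :=
  .leafU ⟨.mk 117 6 5 24, .mk 72 6 5 24, .mk 104 11 5 24, .mk 75 7 5 24, .mk 120 7 5 24, .mk 94 6 5 1, 712, 15, 10, 15⟩ (by decide +kernel)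

theorem lf92 : Cov [kKnot 8603 16669 (-595), kKnot 8216 15368 (-908)]
    ⟨123, 3, 128⟩ ⟨1, 1, 2⟩ ⟨524287, 1, 1048576⟩ :=
  .leafU ⟨.mk 119 6 5 25, .mk 72 6 5 24, .mk 112 12 5 48, .mk 73 7 5 25, .mk 120 7 5 24, .mk 95 6 5 1, 717, 15, 10, 15⟩ (by decide +kernel)

theorem lf93 : Cov [kKnot 9002 18027 (-348)]
    ⟨123, 3, 128⟩ ⟨2, 1, 4⟩ ⟨524287, 1, 1048576⟩ :=
  .leafU ⟨.mk 65 5 4 7, .mk 120 7 4 24, .mk 112 12 4 48, .mk 123 8 4 26, .mk 66 6 4 6, .mk 95 6 4 1, 625, 12, 8, 12⟩ (by decide +kernel)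

theorem lf94 : Cov [kKnot 9002 18027 (-348)]
    ⟨123, 3, 128⟩ ⟨3, 1, 4⟩ ⟨524287, 1, 1048576⟩ :=
  .leafU ⟨.mk 107 6 5 13, .mk 84 6 5 13, .mk 112 12 5 48, .mk 85 7 5 13, .mk 108 7 5 13, .mk 95 6 5 1, 727, 15, 10, 15⟩ (by decide +kernel)

theorem lf95 : Cov [kKnot 9002 18027 (-348), kKnot 8603 16669 (-595), kKnot 8216 15368 (-908)]
    ⟨504, 3, 512⟩ ⟨1, 1, 2⟩ ⟨524287, 1, 1048576⟩ :=
  .leafU ⟨.mk 119 6 5 25, .mk 72 6 5 24, .mk 104 13 5 24, .mk 73 7 5 25, .mk 120 7 5 24, .mk 96 6 5 1, 752, 15, 10, 15⟩ (by decide +kernel)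

theorem lf96 : Cov [kKnot 9002 18027 (-348), kKnot 8603 16669 (-595), kKnot 8216 15368 (-908)]
    ⟨507, 3, 512⟩ ⟨1, 1, 2⟩ ⟨524287, 1, 1048576⟩ :=
  .leafU ⟨.mk 120 6 5 25, .mk 72 6 5 24, .mk 112 14 5 48, .mk 72 7 5 25, .mk 120 7 5 24, .mk 96 6 5 1, 757, 15, 10, 15⟩ (by decide +kernel)

theorem lf97 : Cov [kKnot 9002 18027 (-348), kKnot 8603 16669 (-595), kKnot 8216 15368 (-908)]
    ⟨1020, 3, 1024⟩ ⟨1, 1, 2⟩ ⟨524287, 1, 1048576⟩ :=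
  .leafU ⟨.mk 120 6 5 25, .mk 72 6 5 24, .mk 80 15 5 48, .mk 72 7 5 25, .mk 120 7 5 24, .mk 96 6 5 1, 779, 15, 10, 15⟩ (by decide +kernel)

theorem lf98 : Cov [kKnot 9002 18027 (-348), kKnot 8603 16669 (-595), kKnot 8216 15368 (-908)]
    ⟨4092, 3, 4096⟩ ⟨1, 1, 2⟩ ⟨524287, 1, 1048576⟩ :=
  .leafU ⟨.mk 120 6 4 25, .mk 72 6 4 24, .mk 80 17 4 48, .mk 72 7 4 25, .mk 120 7 4 24, .mk 96 6 4 1, 698, 12, 8, 12⟩ (by decide +kernel)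

theorem lf99 : Cov [kKnot 9002 18027 (-348), kKnot 8603 16669 (-595), kKnot 8216 15368 (-908)]
    ⟨16380, 3, 16384⟩ ⟨1, 1, 2⟩ ⟨524287, 1, 1048576⟩ :=
  .leafU ⟨.mk 120 6 4 25, .mk 72 6 4 24, .mk 80 19 4 48, .mk 72 7 4 25, .mk 120 7 4 24, .mk 96 6 4 1, 729, 12, 8, 12⟩ (by decide +kernel)

theorem lf100 : Cov [kKnot 9002 18027 (-348), kKnot 8603 16669 (-595), kKnot 8216 15368 (-908)]
    ⟨65532, 3, 65536⟩ ⟨1, 1, 2⟩ ⟨524287, 1, 1048576⟩ :=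
  .leafU ⟨.mk 120 6 4 25, .mk 72 6 4 24, .mk 80 21 4 48, .mk 72 7 4 25, .mk 120 7 4 24, .mk 96 6 4 1, 760, 12, 8, 12⟩ (by decide +kernel)

theorem lf101 : Cov [kKnot 9002 18027 (-348), kKnot 8603 16669 (-595), kKnot 8216 15368 (-908)]
    ⟨262140, 3, 262144⟩ ⟨1, 1, 2⟩ ⟨524287, 1, 1048576⟩ :=
  .leafU ⟨.mk 120 6 4 25, .mk 72 6 4 24, .mk 80 23 4 48, .mk 72 7 4 25, .mk 120 7 4 24, .mk 96 6 4 1, 792, 12, 8, 12⟩ (by decide +kernel)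

theorem lf102 : Cov [kKnot 9002 18027 (-348), kKnot 8603 16669 (-595), kKnot 8216 15368 (-908)]
    ⟨1048572, 3, 1048576⟩ ⟨1, 1, 2⟩ ⟨524287, 1, 1048576⟩ :=
  .leafU ⟨.mk 120 6 4 25, .mk 72 6 4 24, .mk 80 25 4 48, .mk 72 7 4 25, .mk 120 7 4 24, .mk 96 6 4 1, 823, 12, 8, 12⟩ (by decide +kernel)

theorem lf103 : Cov [kKnot 9002 18027 (-348), kKnot 8603 16669 (-595), kKnot 8216 15368 (-908)]
    ⟨4194300, 3, 4194304⟩ ⟨1, 1, 2⟩ ⟨524287, 1, 1048576⟩ :=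
  .leafU ⟨.mk 120 6 4 25, .mk 72 6 4 24, .mk 80 27 4 48, .mk 72 7 4 25, .mk 120 7 4 24, .mk 96 6 4 1, 855, 12, 8, 12⟩ (by decide +kernel)

theorem lf104 : Cov [kKnot 9002 18027 (-348), kKnot 8603 16669 (-595), kKnot 8216 15368 (-908)]
    ⟨16777212, 3, 16777216⟩ ⟨1, 1, 2⟩ ⟨524287, 1, 1048576⟩ :=
  .leafU ⟨.mk 120 6 4 25, .mk 72 6 4 24, .mk 80 29 4 48, .mk 72 7 4 25, .mk 120 7 4 24, .mk 96 6 4 1, 886, 12, 8, 12⟩ (by decide +kernel)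

theorem lf105 : Cov [kKnot 8216 15368 (-908)]
    ⟨16777215, 1, 16777216⟩ ⟨1, 1, 2⟩ ⟨524287, 1, 1048576⟩ :=
  .leafU ⟨.mk 120 6 5 25, .mk 72 6 5 24, .bot 64 30, .mk 72 7 5 25, .mk 120 7 5 24, .mk 96 6 5 1, 954, 15, 10, 15⟩ (by decide +kernel)

theorem lf106 : Cov [kKnot 9002 18027 (-348), kKnot 8603 16669 (-595)]
    ⟨67108860, 3, 67108864⟩ ⟨1, 1, 2⟩ ⟨524287, 1, 1048576⟩ :=
  .leafU ⟨.mk 120 6 4 25, .mk 72 6 4 24, .mk 80 31 4 48, .mk 72 7 4 25, .mk 120 7 4 24, .mk 96 6 4 1, 917, 12, 8, 12⟩ (by decide +kernel)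

theorem lf107 : Cov [kKnot 8603 16669 (-595)]
    ⟨67108863, 1, 67108864⟩ ⟨1, 1, 2⟩ ⟨524287, 1, 1048576⟩ :=
  .leafU ⟨.mk 120 6 5 25, .mk 72 6 5 24, .bot 64 32, .mk 72 7 5 25, .mk 120 7 5 24, .mk 96 6 5 1, 984, 15, 10, 15⟩ (by decide +kernel)

theorem lf108 : Cov [kKnot 9002 18027 (-348)]
    ⟨67108863, 1, 67108864⟩ ⟨2, 1, 4⟩ ⟨524287, 1, 1048576⟩ :=
  .leafU ⟨.mk 66 5 4 7, .mk 120 7 4 24, .bot 64 32, .mk 120 8 4 25, .mk 66 6 4 6, .mk 96 6 4 1, 841, 12, 8, 12⟩ (by decide +kernel)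

theorem lf109 : Cov [kKnot 9002 18027 (-348)]
    ⟨67108863, 1, 67108864⟩ ⟨3, 1, 4⟩ ⟨524287, 1, 1048576⟩ :=
  .leafU ⟨.mk 108 6 4 13, .mk 84 6 4 13, .bot 64 32, .mk 84 7 4 13, .mk 108 7 4 13, .mk 96 6 4 1, 840, 12, 8, 12⟩ (by decide +kernel)

end Crest.Agent.R163.Bx.BxFf
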