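import Crest.Agent.R163.BxFf0
import Crest.Agent.R163.BxFf1
import Crest.Agent.R163.BxFf2

/-! # Row 163: certificate tree -/

set_option autoImplicit false
set_option Elab.async false

namespace Crest.Agent.R163.Bx.BxFf

open Kr

theorem nd0 : Cov [kKnot 9002 18027 (-348), kKnot 8603 16669 (-595), kKnot 8216 15368 (-908)]
    ⟨1, 1, 4⟩ ⟨0, 1, 4⟩ ⟨524287, 1, 1048576⟩ :=
  .sx lf1 lf2 (by decide +kernel)

theorem nd1 : Cov [kKnot 9002 18027 (-348), kKnot 8603 16669 (-595), kKnot 8216 15368 (-908)]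
    ⟨1, 1, 4⟩ ⟨0, 1, 2⟩ ⟨524287, 1, 1048576⟩ :=
  .sy nd0 lf3 (by decide +kernel)

theorem nd2 : Cov [kKnot 9002 18027 (-348), kKnot 8603 16669 (-595), kKnot 8216 15368 (-908)]
    ⟨0, 1, 2⟩ ⟨0, 1, 2⟩ ⟨524287, 1, 1048576⟩ :=
  .sx lf0 nd1 (by decide +kernel)

theorem nd3 : Cov [kKnot 9002 18027 (-348)]
    ⟨0, 1, 2⟩ ⟨1, 1, 2⟩ ⟨524287, 1, 1048576⟩ :=
  .sx lf5 lf6 (by decide +kernel)

theorem nd4 : Cov [kKnot 9002 18027 (-348), kKnot 8603 16669 (-595), kKnot 8216 15368 (-908)]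
    ⟨0, 1, 2⟩ ⟨1, 1, 2⟩ ⟨524287, 1, 1048576⟩ :=
  .un lf4 nd3 (by simp only [List.mem_cons, List.not_mem_nil, or_false]; tauto)

theorem nd5 : Cov [kKnot 9002 18027 (-348), kKnot 8603 16669 (-595), kKnot 8216 15368 (-908)]
    ⟨0, 1, 2⟩ ⟨0, 1, 1⟩ ⟨524287, 1, 1048576⟩ :=
  .sy nd2 nd4 (by decide +kernel)

theorem nd6 : Cov [kKnot 8216 15368 (-908)]
    ⟨4, 1, 8⟩ ⟨0, 1, 4⟩ ⟨524287, 1, 1048576⟩ :=
  .sy lf8 lf9 (by decide +kernel)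

theorem nd7 : Cov [kKnot 9002 18027 (-348), kKnot 8603 16669 (-595), kKnot 8216 15368 (-908)]
    ⟨4, 1, 8⟩ ⟨0, 1, 4⟩ ⟨524287, 1, 1048576⟩ :=
  .un lf7 nd6 (by simp only [List.mem_cons, List.not_mem_nil, or_false]; tauto)

theorem nd8 : Cov [kKnot 9002 18027 (-348), kKnot 8603 16669 (-595), kKnot 8216 15368 (-908)]
    ⟨5, 1, 8⟩ ⟨0, 1, 4⟩ ⟨524287, 1, 1048576⟩ :=
  .sy lf10 lf11 (by decide +kernel)

theorem nd9 : Cov [kKnot 9002 18027 (-348), kKnot 8603 16669 (-595), kKnot 8216 15368 (-908)]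
    ⟨2, 1, 4⟩ ⟨0, 1, 4⟩ ⟨524287, 1, 1048576⟩ :=
  .sx nd7 nd8 (by decide +kernel)

theorem nd10 : Cov [kKnot 9002 18027 (-348), kKnot 8603 16669 (-595), kKnot 8216 15368 (-908)]
    ⟨2, 1, 4⟩ ⟨1, 1, 4⟩ ⟨524287, 1, 1048576⟩ :=
  .sx lf12 lf13 (by decide +kernel)

theorem nd11 : Cov [kKnot 9002 18027 (-348), kKnot 8603 16669 (-595), kKnot 8216 15368 (-908)]
    ⟨2, 1, 4⟩ ⟨0, 1, 2⟩ ⟨524287, 1, 1048576⟩ :=
  .sy nd9 nd10 (by decide +kernel)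

theorem nd12 : Cov [kKnot 9002 18027 (-348)]
    ⟨2, 1, 4⟩ ⟨1, 1, 2⟩ ⟨524287, 1, 1048576⟩ :=
  .sx lf15 lf16 (by decide +kernel)

theorem nd13 : Cov [kKnot 9002 18027 (-348), kKnot 8603 16669 (-595), kKnot 8216 15368 (-908)]
    ⟨2, 1, 4⟩ ⟨1, 1, 2⟩ ⟨524287, 1, 1048576⟩ :=
  .un lf14 nd12 (by simp only [List.mem_cons, List.not_mem_nil, or_false]; tauto)

theorem nd14 : Cov [kKnot 9002 18027 (-348), kKnot 8603 16669 (-595), kKnot 8216 15368 (-908)]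
    ⟨2, 1, 4⟩ ⟨0, 1, 1⟩ ⟨524287, 1, 1048576⟩ :=
  .sy nd11 nd13 (by decide +kernel)

theorem nd15 : Cov [kKnot 9002 18027 (-348), kKnot 8603 16669 (-595), kKnot 8216 15368 (-908)]
    ⟨12, 3, 16⟩ ⟨0, 1, 16⟩ ⟨524287, 1, 1048576⟩ :=
  .sx lf17 lf18 (by decide +kernel)

theorem nd16 : Cov [kKnot 9002 18027 (-348), kKnot 8603 16669 (-595), kKnot 8216 15368 (-908)]
    ⟨27, 3, 32⟩ ⟨1, 3, 16⟩ ⟨524287, 1, 1048576⟩ :=
  .sy lf20 lf21 (by decide +kernel)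

theorem nd17 : Cov [kKnot 9002 18027 (-348), kKnot 8603 16669 (-595), kKnot 8216 15368 (-908)]
    ⟨12, 3, 16⟩ ⟨1, 3, 16⟩ ⟨524287, 1, 1048576⟩ :=
  .sx lf19 nd16 (by decide +kernel)

theorem nd18 : Cov [kKnot 9002 18027 (-348), kKnot 8603 16669 (-595), kKnot 8216 15368 (-908)]
    ⟨12, 3, 16⟩ ⟨0, 1, 4⟩ ⟨524287, 1, 1048576⟩ :=
  .sy nd15 nd17 (by decide +kernel)

theorem nd19 : Cov [kKnot 9002 18027 (-348), kKnot 8603 16669 (-595), kKnot 8216 15368 (-908)]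
    ⟨60, 3, 64⟩ ⟨0, 1, 16⟩ ⟨524287, 1, 1048576⟩ :=
  .sy lf22 lf23 (by decide +kernel)

theorem nd20 : Cov [kKnot 9002 18027 (-348), kKnot 8603 16669 (-595), kKnot 8216 15368 (-908)]
    ⟨252, 3, 256⟩ ⟨0, 1, 64⟩ ⟨524287, 1, 1048576⟩ :=
  .sy lf24 lf25 (by decide +kernel)

theorem nd21 : Cov [kKnot 9002 18027 (-348), kKnot 8603 16669 (-595), kKnot 8216 15368 (-908)]
    ⟨1020, 3, 1024⟩ ⟨0, 1, 256⟩ ⟨524287, 1, 1048576⟩ :=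
  .sy lf26 lf27 (by decide +kernel)

theorem nd22 : Cov [kKnot 9002 18027 (-348), kKnot 8603 16669 (-595), kKnot 8216 15368 (-908)]
    ⟨4092, 3, 4096⟩ ⟨0, 1, 1024⟩ ⟨524287, 1, 1048576⟩ :=
  .sy lf28 lf29 (by decide +kernel)

theorem nd23 : Cov [kKnot 8603 16669 (-595), kKnot 8216 15368 (-908)]
    ⟨16380, 3, 16384⟩ ⟨0, 1, 4096⟩ ⟨524287, 1, 1048576⟩ :=
  .sy lf31 lf32 (by decide +kernel)

theorem nd24 : Cov [kKnot 9002 18027 (-348), kKnot 8603 16669 (-595), kKnot 8216 15368 (-908)]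
    ⟨16380, 3, 16384⟩ ⟨0, 1, 4096⟩ ⟨524287, 1, 1048576⟩ :=
  .un lf30 nd23 (by simp only [List.mem_cons, List.not_mem_nil, or_false]; tauto)

theorem nd25 : Cov [kKnot 8216 15368 (-908)]
    ⟨1048572, 3, 1048576⟩ ⟨0, 1, 262144⟩ ⟨524287, 1, 1048576⟩ :=
  .sy lf37 lf38 (by decide +kernel)

theorem nd26 : Cov [kKnot 8603 16669 (-595), kKnot 8216 15368 (-908)]
    ⟨1048572, 3, 1048576⟩ ⟨0, 1, 262144⟩ ⟨524287, 1, 1048576⟩ :=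
  .un lf36 nd25 (by simp only [List.mem_cons, List.not_mem_nil, or_false]; tauto)

theorem nd27 : Cov [kKnot 8603 16669 (-595), kKnot 8216 15368 (-908)]
    ⟨262143, 1, 262144⟩ ⟨0, 1, 262144⟩ ⟨524287, 1, 1048576⟩ :=
  .sx nd26 lf39 (by decide +kernel)

theorem nd28 : Cov [kKnot 9002 18027 (-348), kKnot 8603 16669 (-595), kKnot 8216 15368 (-908)]
    ⟨262143, 1, 262144⟩ ⟨0, 1, 262144⟩ ⟨524287, 1, 1048576⟩ :=
  .un lf35 nd27 (by simp only [List.mem_cons, List.not_mem_nil, or_false]; tauto)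

theorem nd29 : Cov [kKnot 9002 18027 (-348), kKnot 8603 16669 (-595), kKnot 8216 15368 (-908)]
    ⟨262143, 1, 262144⟩ ⟨0, 1, 65536⟩ ⟨524287, 1, 1048576⟩ :=
  .sy nd28 lf40 (by decide +kernel)

theorem nd30 : Cov [kKnot 9002 18027 (-348), kKnot 8603 16669 (-595), kKnot 8216 15368 (-908)]
    ⟨65535, 1, 65536⟩ ⟨0, 1, 65536⟩ ⟨524287, 1, 1048576⟩ :=
  .sx lf34 nd29 (by decide +kernel)

theorem nd31 : Cov [kKnot 9002 18027 (-348), kKnot 8603 16669 (-595), kKnot 8216 15368 (-908)]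
    ⟨65535, 1, 65536⟩ ⟨0, 1, 16384⟩ ⟨524287, 1, 1048576⟩ :=
  .sy nd30 lf41 (by decide +kernel)

theorem nd32 : Cov [kKnot 9002 18027 (-348), kKnot 8603 16669 (-595), kKnot 8216 15368 (-908)]
    ⟨16383, 1, 16384⟩ ⟨0, 1, 16384⟩ ⟨524287, 1, 1048576⟩ :=
  .sx lf33 nd31 (by decide +kernel)

theorem nd33 : Cov [kKnot 9002 18027 (-348), kKnot 8603 16669 (-595), kKnot 8216 15368 (-908)]
    ⟨16383, 1, 16384⟩ ⟨0, 1, 4096⟩ ⟨524287, 1, 1048576⟩ :=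
  .sy nd32 lf42 (by decide +kernel)

theorem nd34 : Cov [kKnot 9002 18027 (-348), kKnot 8603 16669 (-595), kKnot 8216 15368 (-908)]
    ⟨4095, 1, 4096⟩ ⟨0, 1, 4096⟩ ⟨524287, 1, 1048576⟩ :=
  .sx nd24 nd33 (by decide +kernel)

theorem nd35 : Cov [kKnot 9002 18027 (-348), kKnot 8603 16669 (-595), kKnot 8216 15368 (-908)]
    ⟨4095, 1, 4096⟩ ⟨0, 1, 1024⟩ ⟨524287, 1, 1048576⟩ :=
  .sy nd34 lf43 (by decide +kernel)

theorem nd36 : Cov [kKnot 9002 18027 (-348), kKnot 8603 16669 (-595), kKnot 8216 15368 (-908)]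
    ⟨1023, 1, 1024⟩ ⟨0, 1, 1024⟩ ⟨524287, 1, 1048576⟩ :=
  .sx nd22 nd35 (by decide +kernel)

theorem nd37 : Cov [kKnot 9002 18027 (-348), kKnot 8603 16669 (-595), kKnot 8216 15368 (-908)]
    ⟨1023, 1, 1024⟩ ⟨1, 3, 1024⟩ ⟨524287, 1, 1048576⟩ :=
  .sx lf44 lf45 (by decide +kernel)

theorem nd38 : Cov [kKnot 9002 18027 (-348), kKnot 8603 16669 (-595), kKnot 8216 15368 (-908)]
    ⟨1023, 1, 1024⟩ ⟨0, 1, 256⟩ ⟨524287, 1, 1048576⟩ :=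
  .sy nd36 nd37 (by decide +kernel)

theorem nd39 : Cov [kKnot 9002 18027 (-348), kKnot 8603 16669 (-595), kKnot 8216 15368 (-908)]
    ⟨255, 1, 256⟩ ⟨0, 1, 256⟩ ⟨524287, 1, 1048576⟩ :=
  .sx nd21 nd38 (by decide +kernel)

theorem nd40 : Cov [kKnot 8603 16669 (-595), kKnot 8216 15368 (-908)]
    ⟨1023, 1, 1024⟩ ⟨1, 3, 256⟩ ⟨524287, 1, 1048576⟩ :=
  .sx lf48 lf49 (by decide +kernel)

theorem nd41 : Cov [kKnot 9002 18027 (-348), kKnot 8603 16669 (-595), kKnot 8216 15368 (-908)]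
    ⟨1023, 1, 1024⟩ ⟨1, 3, 256⟩ ⟨524287, 1, 1048576⟩ :=
  .un lf47 nd40 (by simp only [List.mem_cons, List.not_mem_nil, or_false]; tauto)

theorem nd42 : Cov [kKnot 9002 18027 (-348), kKnot 8603 16669 (-595), kKnot 8216 15368 (-908)]
    ⟨255, 1, 256⟩ ⟨1, 3, 256⟩ ⟨524287, 1, 1048576⟩ :=
  .sx lf46 nd41 (by decide +kernel)

theorem nd43 : Cov [kKnot 9002 18027 (-348), kKnot 8603 16669 (-595), kKnot 8216 15368 (-908)]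
    ⟨255, 1, 256⟩ ⟨0, 1, 64⟩ ⟨524287, 1, 1048576⟩ :=
  .sy nd39 nd42 (by decide +kernel)

theorem nd44 : Cov [kKnot 9002 18027 (-348), kKnot 8603 16669 (-595), kKnot 8216 15368 (-908)]
    ⟨63, 1, 64⟩ ⟨0, 1, 64⟩ ⟨524287, 1, 1048576⟩ :=
  .sx nd20 nd43 (by decide +kernel)

theorem nd45 : Cov [kKnot 8603 16669 (-595), kKnot 8216 15368 (-908)]
    ⟨4095, 1, 4096⟩ ⟨1, 3, 64⟩ ⟨524287, 1, 1048576⟩ :=
  .sx lf54 lf55 (by decide +kernel)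

theorem nd46 : Cov [kKnot 9002 18027 (-348), kKnot 8603 16669 (-595), kKnot 8216 15368 (-908)]
    ⟨4095, 1, 4096⟩ ⟨1, 3, 64⟩ ⟨524287, 1, 1048576⟩ :=
  .un lf53 nd45 (by simp only [List.mem_cons, List.not_mem_nil, or_false]; tauto)

theorem nd47 : Cov [kKnot 9002 18027 (-348), kKnot 8603 16669 (-595), kKnot 8216 15368 (-908)]
    ⟨1023, 1, 1024⟩ ⟨1, 3, 64⟩ ⟨524287, 1, 1048576⟩ :=
  .sx lf52 nd46 (by decide +kernel)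

theorem nd48 : Cov [kKnot 9002 18027 (-348), kKnot 8603 16669 (-595), kKnot 8216 15368 (-908)]
    ⟨255, 1, 256⟩ ⟨1, 3, 64⟩ ⟨524287, 1, 1048576⟩ :=
  .sx lf51 nd47 (by decide +kernel)

theorem nd49 : Cov [kKnot 9002 18027 (-348), kKnot 8603 16669 (-595), kKnot 8216 15368 (-908)]
    ⟨63, 1, 64⟩ ⟨1, 3, 64⟩ ⟨524287, 1, 1048576⟩ :=
  .sx lf50 nd48 (by decide +kernel)

theorem nd50 : Cov [kKnot 9002 18027 (-348), kKnot 8603 16669 (-595), kKnot 8216 15368 (-908)]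
    ⟨63, 1, 64⟩ ⟨0, 1, 16⟩ ⟨524287, 1, 1048576⟩ :=
  .sy nd44 nd49 (by decide +kernel)

theorem nd51 : Cov [kKnot 9002 18027 (-348), kKnot 8603 16669 (-595), kKnot 8216 15368 (-908)]
    ⟨15, 1, 16⟩ ⟨0, 1, 16⟩ ⟨524287, 1, 1048576⟩ :=
  .sx nd19 nd50 (by decide +kernel)

theorem nd52 : Cov [kKnot 9002 18027 (-348), kKnot 8603 16669 (-595), kKnot 8216 15368 (-908)]
    ⟨60, 3, 64⟩ ⟨1, 3, 16⟩ ⟨524287, 1, 1048576⟩ :=
  .sy lf56 lf57 (by decide +kernel)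

theorem nd53 : Cov [kKnot 9002 18027 (-348), kKnot 8603 16669 (-595), kKnot 8216 15368 (-908)]
    ⟨252, 3, 256⟩ ⟨1, 3, 16⟩ ⟨524287, 1, 1048576⟩ :=
  .sy lf58 lf59 (by decide +kernel)

theorem nd54 : Cov [kKnot 8603 16669 (-595), kKnot 8216 15368 (-908)]
    ⟨1020, 3, 1024⟩ ⟨1, 3, 16⟩ ⟨524287, 1, 1048576⟩ :=
  .sy lf61 lf62 (by decide +kernel)

theorem nd55 : Cov [kKnot 9002 18027 (-348), kKnot 8603 16669 (-595), kKnot 8216 15368 (-908)]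
    ⟨1020, 3, 1024⟩ ⟨1, 3, 16⟩ ⟨524287, 1, 1048576⟩ :=
  .un lf60 nd54 (by simp only [List.mem_cons, List.not_mem_nil, or_false]; tauto)

theorem nd56 : Cov [kKnot 8603 16669 (-595), kKnot 8216 15368 (-908)]
    ⟨16383, 1, 16384⟩ ⟨2, 3, 32⟩ ⟨524287, 1, 1048576⟩ :=
  .sx lf66 lf67 (by decide +kernel)

theorem nd57 : Cov [kKnot 9002 18027 (-348), kKnot 8603 16669 (-595), kKnot 8216 15368 (-908)]
    ⟨16383, 1, 16384⟩ ⟨2, 3, 32⟩ ⟨524287, 1, 1048576⟩ :=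
  .un lf65 nd56 (by simp only [List.mem_cons, List.not_mem_nil, or_false]; tauto)

theorem nd58 : Cov [kKnot 9002 18027 (-348), kKnot 8603 16669 (-595), kKnot 8216 15368 (-908)]
    ⟨4095, 1, 4096⟩ ⟨2, 3, 32⟩ ⟨524287, 1, 1048576⟩ :=
  .sx lf64 nd57 (by decide +kernel)

theorem nd59 : Cov [kKnot 8603 16669 (-595), kKnot 8216 15368 (-908)]
    ⟨65535, 1, 65536⟩ ⟨5, 3, 32⟩ ⟨524287, 1, 1048576⟩ :=
  .sx lf71 lf72 (by decide +kernel)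

theorem nd60 : Cov [kKnot 9002 18027 (-348), kKnot 8603 16669 (-595), kKnot 8216 15368 (-908)]
    ⟨65535, 1, 65536⟩ ⟨5, 3, 32⟩ ⟨524287, 1, 1048576⟩ :=
  .un lf70 nd59 (by simp only [List.mem_cons, List.not_mem_nil, or_false]; tauto)

theorem nd61 : Cov [kKnot 9002 18027 (-348), kKnot 8603 16669 (-595), kKnot 8216 15368 (-908)]
    ⟨16383, 1, 16384⟩ ⟨5, 3, 32⟩ ⟨524287, 1, 1048576⟩ :=
  .sx lf69 nd60 (by decide +kernel)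

theorem nd62 : Cov [kKnot 9002 18027 (-348), kKnot 8603 16669 (-595), kKnot 8216 15368 (-908)]
    ⟨4095, 1, 4096⟩ ⟨5, 3, 32⟩ ⟨524287, 1, 1048576⟩ :=
  .sx lf68 nd61 (by decide +kernel)

theorem nd63 : Cov [kKnot 9002 18027 (-348), kKnot 8603 16669 (-595), kKnot 8216 15368 (-908)]
    ⟨4095, 1, 4096⟩ ⟨1, 3, 16⟩ ⟨524287, 1, 1048576⟩ :=
  .sy nd58 nd62 (by decide +kernel)

theorem nd64 : Cov [kKnot 9002 18027 (-348), kKnot 8603 16669 (-595), kKnot 8216 15368 (-908)]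
    ⟨1023, 1, 1024⟩ ⟨1, 3, 16⟩ ⟨524287, 1, 1048576⟩ :=
  .sx lf63 nd63 (by decide +kernel)

theorem nd65 : Cov [kKnot 9002 18027 (-348), kKnot 8603 16669 (-595), kKnot 8216 15368 (-908)]
    ⟨255, 1, 256⟩ ⟨1, 3, 16⟩ ⟨524287, 1, 1048576⟩ :=
  .sx nd55 nd64 (by decide +kernel)

theorem nd66 : Cov [kKnot 9002 18027 (-348), kKnot 8603 16669 (-595), kKnot 8216 15368 (-908)]
    ⟨63, 1, 64⟩ ⟨1, 3, 16⟩ ⟨524287, 1, 1048576⟩ :=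
  .sx nd53 nd65 (by decide +kernel)

theorem nd67 : Cov [kKnot 9002 18027 (-348), kKnot 8603 16669 (-595), kKnot 8216 15368 (-908)]
    ⟨15, 1, 16⟩ ⟨1, 3, 16⟩ ⟨524287, 1, 1048576⟩ :=
  .sx nd52 nd66 (by decide +kernel)

theorem nd68 : Cov [kKnot 9002 18027 (-348), kKnot 8603 16669 (-595), kKnot 8216 15368 (-908)]
    ⟨15, 1, 16⟩ ⟨0, 1, 4⟩ ⟨524287, 1, 1048576⟩ :=
  .sy nd51 nd67 (by decide +kernel)

theorem nd69 : Cov [kKnot 9002 18027 (-348), kKnot 8603 16669 (-595), kKnot 8216 15368 (-908)]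
    ⟨3, 1, 4⟩ ⟨0, 1, 4⟩ ⟨524287, 1, 1048576⟩ :=
  .sx nd18 nd68 (by decide +kernel)

theorem nd70 : Cov [kKnot 9002 18027 (-348), kKnot 8603 16669 (-595), kKnot 8216 15368 (-908)]
    ⟨12, 3, 16⟩ ⟨1, 1, 4⟩ ⟨524287, 1, 1048576⟩ :=
  .sx lf73 lf74 (by decide +kernel)

theorem nd71 : Cov [kKnot 8216 15368 (-908)]
    ⟨60, 3, 64⟩ ⟨1, 1, 4⟩ ⟨524287, 1, 1048576⟩ :=
  .sx lf76 lf77 (by decide +kernel)

theorem nd72 : Cov [kKnot 9002 18027 (-348), kKnot 8603 16669 (-595), kKnot 8216 15368 (-908)]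
    ⟨60, 3, 64⟩ ⟨1, 1, 4⟩ ⟨524287, 1, 1048576⟩ :=
  .un lf75 nd71 (by simp only [List.mem_cons, List.not_mem_nil, or_false]; tauto)

theorem nd73 : Cov [kKnot 9002 18027 (-348), kKnot 8603 16669 (-595), kKnot 8216 15368 (-908)]
    ⟨1048575, 1, 1048576⟩ ⟨1, 1, 4⟩ ⟨524287, 1, 1048576⟩ :=
  .sx lf85 lf86 (by decide +kernel)

theorem nd74 : Cov [kKnot 9002 18027 (-348), kKnot 8603 16669 (-595), kKnot 8216 15368 (-908)]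
    ⟨262143, 1, 262144⟩ ⟨1, 1, 4⟩ ⟨524287, 1, 1048576⟩ :=
  .sx lf84 nd73 (by decide +kernel)

theorem nd75 : Cov [kKnot 9002 18027 (-348), kKnot 8603 16669 (-595), kKnot 8216 15368 (-908)]
    ⟨65535, 1, 65536⟩ ⟨1, 1, 4⟩ ⟨524287, 1, 1048576⟩ :=
  .sx lf83 nd74 (by decide +kernel)

theorem nd76 : Cov [kKnot 9002 18027 (-348), kKnot 8603 16669 (-595), kKnot 8216 15368 (-908)]
    ⟨16383, 1, 16384⟩ ⟨1, 1, 4⟩ ⟨524287, 1, 1048576⟩ :=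
  .sx lf82 nd75 (by decide +kernel)

theorem nd77 : Cov [kKnot 9002 18027 (-348), kKnot 8603 16669 (-595), kKnot 8216 15368 (-908)]
    ⟨4095, 1, 4096⟩ ⟨1, 1, 4⟩ ⟨524287, 1, 1048576⟩ :=
  .sx lf81 nd76 (by decide +kernel)

theorem nd78 : Cov [kKnot 9002 18027 (-348), kKnot 8603 16669 (-595), kKnot 8216 15368 (-908)]
    ⟨1023, 1, 1024⟩ ⟨1, 1, 4⟩ ⟨524287, 1, 1048576⟩ :=
  .sx lf80 nd77 (by decide +kernel)

theorem nd79 : Cov [kKnot 9002 18027 (-348), kKnot 8603 16669 (-595), kKnot 8216 15368 (-908)]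
    ⟨255, 1, 256⟩ ⟨1, 1, 4⟩ ⟨524287, 1, 1048576⟩ :=
  .sx lf79 nd78 (by decide +kernel)

theorem nd80 : Cov [kKnot 9002 18027 (-348), kKnot 8603 16669 (-595), kKnot 8216 15368 (-908)]
    ⟨63, 1, 64⟩ ⟨1, 1, 4⟩ ⟨524287, 1, 1048576⟩ :=
  .sx lf78 nd79 (by decide +kernel)

theorem nd81 : Cov [kKnot 9002 18027 (-348), kKnot 8603 16669 (-595), kKnot 8216 15368 (-908)]
    ⟨15, 1, 16⟩ ⟨1, 1, 4⟩ ⟨524287, 1, 1048576⟩ :=
  .sx nd72 nd80 (by decide +kernel)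

theorem nd82 : Cov [kKnot 9002 18027 (-348), kKnot 8603 16669 (-595), kKnot 8216 15368 (-908)]
    ⟨3, 1, 4⟩ ⟨1, 1, 4⟩ ⟨524287, 1, 1048576⟩ :=
  .sx nd70 nd81 (by decide +kernel)

theorem nd83 : Cov [kKnot 9002 18027 (-348), kKnot 8603 16669 (-595), kKnot 8216 15368 (-908)]
    ⟨3, 1, 4⟩ ⟨0, 1, 2⟩ ⟨524287, 1, 1048576⟩ :=
  .sy nd69 nd82 (by decide +kernel)

theorem nd84 : Cov [kKnot 9002 18027 (-348)]
    ⟨27, 3, 32⟩ ⟨1, 1, 2⟩ ⟨524287, 1, 1048576⟩ :=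
  .sx lf89 lf90 (by decide +kernel)

theorem nd85 : Cov [kKnot 9002 18027 (-348), kKnot 8603 16669 (-595), kKnot 8216 15368 (-908)]
    ⟨27, 3, 32⟩ ⟨1, 1, 2⟩ ⟨524287, 1, 1048576⟩ :=
  .un lf88 nd84 (by simp only [List.mem_cons, List.not_mem_nil, or_false]; tauto)

theorem nd86 : Cov [kKnot 9002 18027 (-348), kKnot 8603 16669 (-595), kKnot 8216 15368 (-908)]
    ⟨12, 3, 16⟩ ⟨1, 1, 2⟩ ⟨524287, 1, 1048576⟩ :=
  .sx lf87 nd85 (by decide +kernel)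

theorem nd87 : Cov [kKnot 9002 18027 (-348)]
    ⟨123, 3, 128⟩ ⟨1, 1, 2⟩ ⟨524287, 1, 1048576⟩ :=
  .sy lf93 lf94 (by decide +kernel)

theorem nd88 : Cov [kKnot 9002 18027 (-348), kKnot 8603 16669 (-595), kKnot 8216 15368 (-908)]
    ⟨123, 3, 128⟩ ⟨1, 1, 2⟩ ⟨524287, 1, 1048576⟩ :=
  .un lf92 nd87 (by simp only [List.mem_cons, List.not_mem_nil, or_false]; tauto)

theorem nd89 : Cov [kKnot 9002 18027 (-348), kKnot 8603 16669 (-595), kKnot 8216 15368 (-908)]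
    ⟨60, 3, 64⟩ ⟨1, 1, 2⟩ ⟨524287, 1, 1048576⟩ :=
  .sx lf91 nd88 (by decide +kernel)

theorem nd90 : Cov [kKnot 9002 18027 (-348), kKnot 8603 16669 (-595), kKnot 8216 15368 (-908)]
    ⟨252, 3, 256⟩ ⟨1, 1, 2⟩ ⟨524287, 1, 1048576⟩ :=
  .sx lf95 lf96 (by decide +kernel)

theorem nd91 : Cov [kKnot 9002 18027 (-348)]
    ⟨67108863, 1, 67108864⟩ ⟨1, 1, 2⟩ ⟨524287, 1, 1048576⟩ :=
  .sy lf108 lf109 (by decide +kernel)

theorem nd92 : Cov [kKnot 9002 18027 (-348), kKnot 8603 16669 (-595)]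
    ⟨67108863, 1, 67108864⟩ ⟨1, 1, 2⟩ ⟨524287, 1, 1048576⟩ :=
  .un lf107 nd91 (by simp only [List.mem_cons, List.not_mem_nil, or_false]; tauto)

theorem nd93 : Cov [kKnot 9002 18027 (-348), kKnot 8603 16669 (-595)]
    ⟨16777215, 1, 16777216⟩ ⟨1, 1, 2⟩ ⟨524287, 1, 1048576⟩ :=
  .sx lf106 nd92 (by decide +kernel)

theorem nd94 : Cov [kKnot 9002 18027 (-348), kKnot 8603 16669 (-595), kKnot 8216 15368 (-908)]
    ⟨16777215, 1, 16777216⟩ ⟨1, 1, 2⟩ ⟨524287, 1, 1048576⟩ :=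
  .un lf105 nd93 (by simp only [List.mem_cons, List.not_mem_nil, or_false]; tauto)

theorem nd95 : Cov [kKnot 9002 18027 (-348), kKnot 8603 16669 (-595), kKnot 8216 15368 (-908)]
    ⟨4194303, 1, 4194304⟩ ⟨1, 1, 2⟩ ⟨524287, 1, 1048576⟩ :=
  .sx lf104 nd94 (by decide +kernel)

theorem nd96 : Cov [kKnot 9002 18027 (-348), kKnot 8603 16669 (-595), kKnot 8216 15368 (-908)]
    ⟨1048575, 1, 1048576⟩ ⟨1, 1, 2⟩ ⟨524287, 1, 1048576⟩ :=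
  .sx lf103 nd95 (by decide +kernel)

theorem nd97 : Cov [kKnot 9002 18027 (-348), kKnot 8603 16669 (-595), kKnot 8216 15368 (-908)]
    ⟨262143, 1, 262144⟩ ⟨1, 1, 2⟩ ⟨524287, 1, 1048576⟩ :=
  .sx lf102 nd96 (by decide +kernel)

theorem nd98 : Cov [kKnot 9002 18027 (-348), kKnot 8603 16669 (-595), kKnot 8216 15368 (-908)]
    ⟨65535, 1, 65536⟩ ⟨1, 1, 2⟩ ⟨524287, 1, 1048576⟩ :=
  .sx lf101 nd97 (by decide +kernel)

theorem nd99 : Cov [kKnot 9002 18027 (-348), kKnot 8603 16669 (-595), kKnot 8216 15368 (-908)]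
    ⟨16383, 1, 16384⟩ ⟨1, 1, 2⟩ ⟨524287, 1, 1048576⟩ :=
  .sx lf100 nd98 (by decide +kernel)

theorem nd100 : Cov [kKnot 9002 18027 (-348), kKnot 8603 16669 (-595), kKnot 8216 15368 (-908)]
    ⟨4095, 1, 4096⟩ ⟨1, 1, 2⟩ ⟨524287, 1, 1048576⟩ :=
  .sx lf99 nd99 (by decide +kernel)

theorem nd101 : Cov [kKnot 9002 18027 (-348), kKnot 8603 16669 (-595), kKnot 8216 15368 (-908)]
    ⟨1023, 1, 1024⟩ ⟨1, 1, 2⟩ ⟨524287, 1, 1048576⟩ :=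
  .sx lf98 nd100 (by decide +kernel)

theorem nd102 : Cov [kKnot 9002 18027 (-348), kKnot 8603 16669 (-595), kKnot 8216 15368 (-908)]
    ⟨255, 1, 256⟩ ⟨1, 1, 2⟩ ⟨524287, 1, 1048576⟩ :=
  .sx lf97 nd101 (by decide +kernel)

theorem nd103 : Cov [kKnot 9002 18027 (-348), kKnot 8603 16669 (-595), kKnot 8216 15368 (-908)]
    ⟨63, 1, 64⟩ ⟨1, 1, 2⟩ ⟨524287, 1, 1048576⟩ :=
  .sx nd90 nd102 (by decide +kernel)

theorem nd104 : Cov [kKnot 9002 18027 (-348), kKnot 8603 16669 (-595), kKnot 8216 15368 (-908)]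
    ⟨15, 1, 16⟩ ⟨1, 1, 2⟩ ⟨524287, 1, 1048576⟩ :=
  .sx nd89 nd103 (by decide +kernel)

theorem nd105 : Cov [kKnot 9002 18027 (-348), kKnot 8603 16669 (-595), kKnot 8216 15368 (-908)]
    ⟨3, 1, 4⟩ ⟨1, 1, 2⟩ ⟨524287, 1, 1048576⟩ :=
  .sx nd86 nd104 (by decide +kernel)

theorem nd106 : Cov [kKnot 9002 18027 (-348), kKnot 8603 16669 (-595), kKnot 8216 15368 (-908)]
    ⟨3, 1, 4⟩ ⟨0, 1, 1⟩ ⟨524287, 1, 1048576⟩ :=
  .sy nd83 nd105 (by decide +kernel)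

theorem nd107 : Cov [kKnot 9002 18027 (-348), kKnot 8603 16669 (-595), kKnot 8216 15368 (-908)]
    ⟨1, 1, 2⟩ ⟨0, 1, 1⟩ ⟨524287, 1, 1048576⟩ :=
  .sx nd14 nd106 (by decide +kernel)

theorem nd108 : Cov [kKnot 9002 18027 (-348), kKnot 8603 16669 (-595), kKnot 8216 15368 (-908)]
    ⟨0, 1, 1⟩ ⟨0, 1, 1⟩ ⟨524287, 1, 1048576⟩ :=
  .sx nd5 nd107 (by decide +kernel)

theorem covF : Cov [kKnot 9002 18027 (-348), kKnot 8603 16669 (-595), kKnot 8216 15368 (-908)]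
    ⟨0, 1, 1⟩ ⟨0, 1, 1⟩ ⟨524287, 1, 1048576⟩ := nd108

end Crest.Agent.R163.Bx.BxFf
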