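import Crest.Agent.R163.BxV

/-! # Row 163: certificate leaves -/

set_option autoImplicit false
set_option Elab.async false

namespace Crest.Agent.R163.Bx.BxFq

open Kr

theorem lf0 : Cov [kQ1]
    ⟨0, 3, 64⟩ ⟨0, 1, 2⟩ ⟨524287, 1, 1048576⟩ :=
  .leafU ⟨.cen 5, .cen 5, .cen 5, .cen 5, .cen 5, .cen 5, 747, 18, 12, 18⟩ (by decide +kernel)

theorem lf1 : Cov [kQ1]
    ⟨3, 3, 64⟩ ⟨0, 1, 2⟩ ⟨524287, 1, 1048576⟩ :=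
  .leafU ⟨.mk 72 6 4 5, .mk 121 7 4 6, .mk 119 7 4 3, .mk 120 7 4 5, .mk 66 6 4 2, .mk 66 6 4 1, 567, 12, 8, 12⟩ (by decide +kernel)

theorem lf2 : Cov [kQ1]
    ⟨3, 3, 32⟩ ⟨0, 1, 2⟩ ⟨524287, 1, 1048576⟩ :=
  .leafU ⟨.mk 80 6 4 9, .mk 115 7 4 11, .mk 110 7 4 6, .mk 112 7 4 9, .mk 67 6 4 3, .mk 68 6 4 2, 556, 12, 8, 12⟩ (by decide +kernel)

theorem lf3 : Cov [kQ1]
    ⟨3, 3, 16⟩ ⟨0, 1, 2⟩ ⟨524287, 1, 1048576⟩ :=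
  .leafU ⟨.mk 96 6 4 17, .mk 101 7 4 21, .mk 92 7 4 12, .mk 97 7 4 17, .mk 71 6 4 6, .mk 73 6 4 4, 544, 12, 8, 12⟩ (by decide +kernel)

theorem lf4 : Cov [kQ1]
    ⟨3, 3, 8⟩ ⟨0, 1, 2⟩ ⟨524287, 1, 1048576⟩ :=
  .leafU ⟨.mk 127 6 4 33, .mk 74 7 4 42, .mk 112 8 4 48, .mk 65 7 4 34, .mk 77 6 4 11, .mk 82 6 4 7, 534, 12, 8, 12⟩ (by decide +kernel)

theorem lf5 : Cov [kQ1]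
    ⟨0, 3, 64⟩ ⟨1, 1, 2⟩ ⟨524287, 1, 1048576⟩ :=
  .leafU ⟨.cen 5, .cen 5, .cen 5, .cen 5, .cen 5, .cen 5, 747, 18, 12, 18⟩ (by decide +kernel)

theorem lf6 : Cov [kQ1]
    ⟨3, 3, 64⟩ ⟨1, 1, 2⟩ ⟨524287, 1, 1048576⟩ :=
  .leafU ⟨.mk 69 6 4 4, .mk 65 6 4 3, .mk 119 7 4 3, .mk 124 7 4 4, .mk 127 7 4 3, .mk 66 6 4 1, 567, 12, 8, 12⟩ (by decide +kernel)

theorem lf7 : Cov [kQ1]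
    ⟨3, 3, 32⟩ ⟨1, 1, 2⟩ ⟨524287, 1, 1048576⟩ :=
  .leafU ⟨.mk 73 6 4 6, .mk 66 6 4 5, .mk 110 7 4 6, .mk 119 7 4 7, .mk 127 7 4 5, .mk 68 6 4 2, 556, 12, 8, 12⟩ (by decide +kernel)

theorem lf8 : Cov [kQ1]
    ⟨3, 3, 16⟩ ⟨1, 1, 2⟩ ⟨524287, 1, 1048576⟩ :=
  .leafU ⟨.mk 82 6 4 12, .mk 67 6 4 9, .mk 92 7 4 12, .mk 110 7 4 13, .mk 125 7 4 9, .mk 73 6 4 4, 545, 12, 8, 12⟩ (by decide +kernel)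

theorem lf9 : Cov [kQ1]
    ⟨3, 3, 8⟩ ⟨1, 1, 2⟩ ⟨524287, 1, 1048576⟩ :=
  .leafU ⟨.mk 100 6 4 24, .mk 70 6 4 18, .mk 112 8 4 48, .mk 92 7 4 25, .mk 122 7 4 18, .mk 82 6 4 7, 534, 12, 8, 12⟩ (by decide +kernel)

theorem lf10 : Cov [kQ1]
    ⟨12, 3, 16⟩ ⟨0, 1, 16⟩ ⟨524287, 1, 1048576⟩ :=
  .leafU ⟨.mk 85 5 4 8, .mk 98 9 4 66, .mk 80 9 4 48, .mk 89 9 4 58, .mk 90 6 4 5, .mk 91 6 4 4, 575, 12, 8, 12⟩ (by decide +kernel)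

theorem lf11 : Cov [kQ1]
    ⟨12, 3, 16⟩ ⟨1, 3, 16⟩ ⟨524287, 1, 1048576⟩ :=
  .leafU ⟨.mk 80 5 4 10, .mk 87 8 4 49, .mk 80 9 4 48, .mk 127 9 4 74, .mk 85 6 4 7, .mk 91 6 4 4, 574, 12, 8, 12⟩ (by decide +kernel)

theorem lf12 : Cov [kQ1]
    ⟨60, 3, 64⟩ ⟨0, 1, 64⟩ ⟨524287, 1, 1048576⟩ :=
  .leafU ⟨.mk 93 5 4 2, .mk 103 11 4 71, .mk 80 11 4 48, .mk 91 11 4 60, .mk 94 6 4 2, .mk 95 6 4 2, 621, 12, 8, 12⟩ (by decide +kernel)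

theorem lf13 : Cov [kQ1]
    ⟨60, 3, 64⟩ ⟨1, 3, 64⟩ ⟨524287, 1, 1048576⟩ :=
  .leafU ⟨.mk 92 5 4 3, .mk 97 10 4 58, .mk 80 11 4 48, .mk 68 10 4 42, .mk 93 6 4 2, .mk 95 6 4 2, 619, 12, 8, 12⟩ (by decide +kernel)

theorem lf14 : Cov [kQ1]
    ⟨252, 3, 256⟩ ⟨0, 1, 256⟩ ⟨524287, 1, 1048576⟩ :=
  .leafU ⟨.mk 95 5 4 1, .mk 104 13 4 72, .mk 80 13 4 48, .mk 92 13 4 60, .mk 96 6 4 1, .mk 96 6 4 1, 669, 12, 8, 12⟩ (by decide +kernel)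

theorem lf15 : Cov [kQ1]
    ⟨252, 3, 256⟩ ⟨1, 3, 256⟩ ⟨524287, 1, 1048576⟩ :=
  .leafU ⟨.mk 95 5 4 1, .mk 99 12 4 60, .mk 80 13 4 48, .mk 70 12 4 43, .mk 95 6 4 1, .mk 96 6 4 1, 667, 12, 8, 12⟩ (by decide +kernel)

theorem lf16 : Cov [kQ1]
    ⟨1020, 3, 1024⟩ ⟨0, 1, 256⟩ ⟨524287, 1, 1048576⟩ :=
  .leafU ⟨.mk 96 5 4 1, .bot 80 13, .mk 80 15 4 48, .mk 128 15 4 96, .mk 96 6 4 1, .mk 96 6 4 1, 699, 12, 8, 12⟩ (by decide +kernel)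

theorem lf17 : Cov [kQ1]
    ⟨4092, 3, 4096⟩ ⟨0, 1, 1024⟩ ⟨524287, 1, 1048576⟩ :=
  .leafU ⟨.mk 96 5 4 1, .bot 80 15, .mk 80 17 4 48, .mk 64 16 4 49, .mk 96 6 4 1, .mk 96 6 4 1, 746, 12, 8, 12⟩ (by decide +kernel)

theorem lf18 : Cov [kQ1]
    ⟨16380, 3, 16384⟩ ⟨0, 1, 4096⟩ ⟨524287, 1, 1048576⟩ :=
  .leafU ⟨.mk 96 5 4 1, .bot 80 17, .mk 80 19 4 48, .mk 64 18 4 49, .mk 96 6 4 1, .mk 96 6 4 1, 793, 12, 8, 12⟩ (by decide +kernel)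

theorem lf19 : Cov [kQ1]
    ⟨65532, 3, 65536⟩ ⟨0, 1, 16384⟩ ⟨524287, 1, 1048576⟩ :=
  .leafU ⟨.mk 96 5 4 1, .bot 80 19, .mk 80 21 4 48, .mk 65 20 4 49, .mk 96 6 4 1, .mk 96 6 4 1, 840, 12, 8, 12⟩ (by decide +kernel)

theorem lf20 : Cov [kQ1]
    ⟨262140, 3, 262144⟩ ⟨0, 1, 65536⟩ ⟨524287, 1, 1048576⟩ :=
  .leafU ⟨.mk 96 5 4 1, .bot 80 21, .mk 80 23 4 48, .mk 68 22 4 52, .mk 96 6 4 1, .mk 96 6 4 1, 888, 12, 8, 12⟩ (by decide +kernel)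

theorem lf21 : Cov [kQ1]
    ⟨262143, 1, 262144⟩ ⟨0, 1, 65536⟩ ⟨524287, 1, 1048576⟩ :=
  .leafU ⟨.mk 96 5 4 1, .bot 112 22, .bot 64 24, .bot 72 22, .mk 96 6 4 1, .mk 96 6 4 1, 598, 8, 4, 8⟩ (by decide +kernel)

theorem lf22 : Cov [kQ1]
    ⟨65535, 1, 65536⟩ ⟨1, 3, 65536⟩ ⟨524287, 1, 1048576⟩ :=
  .leafU ⟨.mk 96 5 4 1, .mk 68 20 4 44, .bot 64 22, .mk 78 21 4 54, .mk 96 6 4 1, .mk 96 6 4 1, 859, 12, 8, 12⟩ (by decide +kernel)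

theorem lf23 : Cov [kQ1]
    ⟨16383, 1, 16384⟩ ⟨1, 3, 16384⟩ ⟨524287, 1, 1048576⟩ :=
  .leafU ⟨.mk 96 5 4 1, .mk 68 18 4 44, .bot 64 20, .mk 76 19 4 53, .mk 96 6 4 1, .mk 96 6 4 1, 812, 12, 8, 12⟩ (by decide +kernel)

theorem lf24 : Cov [kQ1]
    ⟨4095, 1, 4096⟩ ⟨1, 3, 4096⟩ ⟨524287, 1, 1048576⟩ :=
  .leafU ⟨.mk 96 5 4 1, .mk 68 16 4 44, .bot 64 18, .mk 76 17 4 53, .mk 96 6 4 1, .mk 96 6 4 1, 765, 12, 8, 12⟩ (by decide +kernel)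

theorem lf25 : Cov [kQ1]
    ⟨1023, 1, 1024⟩ ⟨1, 3, 1024⟩ ⟨524287, 1, 1048576⟩ :=
  .leafU ⟨.mk 96 5 4 1, .mk 68 14 4 44, .bot 64 16, .mk 76 15 4 52, .mk 96 6 4 1, .mk 96 6 4 1, 717, 12, 8, 12⟩ (by decide +kernel)

theorem lf26 : Cov [kQ1]
    ⟨255, 1, 256⟩ ⟨1, 3, 256⟩ ⟨524287, 1, 1048576⟩ :=
  .leafU ⟨.mk 95 5 4 1, .mk 68 12 4 44, .bot 64 14, .mk 76 13 4 52, .mk 95 6 4 1, .mk 96 6 4 1, 670, 12, 8, 12⟩ (by decide +kernel)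

theorem lf27 : Cov [kQ1]
    ⟨63, 1, 64⟩ ⟨1, 3, 64⟩ ⟨524287, 1, 1048576⟩ :=
  .leafU ⟨.mk 94 5 4 2, .mk 67 10 4 44, .bot 64 12, .mk 75 11 4 52, .mk 94 6 4 2, .mk 96 6 4 1, 623, 12, 8, 12⟩ (by decide +kernel)

theorem lf28 : Cov [kQ1]
    ⟨60, 3, 64⟩ ⟨1, 3, 16⟩ ⟨524287, 1, 1048576⟩ :=
  .leafU ⟨.mk 86 5 4 7, .mk 67 8 4 40, .mk 80 11 4 48, .mk 77 9 4 46, .mk 88 6 4 6, .mk 95 6 4 2, 600, 12, 8, 12⟩ (by decide +kernel)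

theorem lf29 : Cov [kQ1]
    ⟨63, 1, 64⟩ ⟨1, 3, 16⟩ ⟨524287, 1, 1048576⟩ :=
  .leafU ⟨.mk 88 5 4 5, .mk 123 9 4 75, .bot 64 12, .mk 127 10 4 79, .mk 88 6 4 5, .mk 96 6 4 1, 601, 12, 8, 12⟩ (by decide +kernel)

theorem lf30 : Cov [kQ1]
    ⟨12, 3, 16⟩ ⟨1, 1, 4⟩ ⟨524287, 1, 1048576⟩ :=
  .leafU ⟨.mk 71 5 4 10, .mk 79 7 4 26, .mk 80 9 4 48, .mk 99 8 4 38, .mk 76 6 4 7, .mk 91 6 4 4, 556, 12, 8, 12⟩ (by decide +kernel)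

theorem lf31 : Cov [kQ1]
    ⟨60, 3, 64⟩ ⟨1, 1, 4⟩ ⟨524287, 1, 1048576⟩ :=
  .leafU ⟨.mk 76 5 4 8, .mk 74 7 4 25, .mk 80 11 4 48, .mk 79 8 4 28, .mk 78 6 4 7, .mk 95 6 4 2, 582, 12, 8, 12⟩ (by decide +kernel)

theorem lf32 : Cov [kQ1]
    ⟨63, 1, 64⟩ ⟨1, 1, 4⟩ ⟨524287, 1, 1048576⟩ :=
  .leafU ⟨.mk 78 5 4 7, .mk 72 7 4 25, .bot 64 12, .mk 73 8 4 26, .mk 78 6 4 7, .mk 96 6 4 1, 582, 12, 8, 12⟩ (by decide +kernel)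

theorem lf33 : Cov [kQ1]
    ⟨12, 3, 16⟩ ⟨1, 1, 2⟩ ⟨524287, 1, 1048576⟩ :=
  .leafU ⟨.mk 114 6 4 26, .mk 72 6 4 23, .mk 80 9 4 48, .mk 79 7 4 26, .mk 121 7 4 23, .mk 91 6 4 4, 548, 12, 8, 12⟩ (by decide +kernel)

theorem lf34 : Cov [kQ1]
    ⟨60, 3, 64⟩ ⟨1, 1, 2⟩ ⟨524287, 1, 1048576⟩ :=
  .leafU ⟨.mk 118 6 4 25, .mk 72 6 4 24, .mk 80 11 4 48, .mk 74 7 4 25, .mk 120 7 4 24, .mk 95 6 4 2, 573, 12, 8, 12⟩ (by decide +kernel)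

theorem lf35 : Cov [kQ1]
    ⟨63, 1, 64⟩ ⟨1, 1, 2⟩ ⟨524287, 1, 1048576⟩ :=
  .leafU ⟨.mk 120 6 4 25, .mk 72 6 4 24, .bot 64 12, .mk 72 7 4 25, .mk 120 7 4 24, .mk 96 6 4 1, 573, 12, 8, 12⟩ (by decide +kernel)

end Crest.Agent.R163.Bx.BxFq
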