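import Crest.Agent.R163.BxFq0

/-! # Row 163: certificate tree -/

set_option autoImplicit false
set_option Elab.async false

namespace Crest.Agent.R163.Bx.BxFq

open Kr

theorem nd0 : Cov [kQ1]
    ⟨0, 3, 32⟩ ⟨0, 1, 2⟩ ⟨524287, 1, 1048576⟩ :=
  .sx lf0 lf1 (by decide +kernel)

theorem nd1 : Cov [kQ1]
    ⟨0, 3, 16⟩ ⟨0, 1, 2⟩ ⟨524287, 1, 1048576⟩ :=
  .sx nd0 lf2 (by decide +kernel)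

theorem nd2 : Cov [kQ1]
    ⟨0, 3, 8⟩ ⟨0, 1, 2⟩ ⟨524287, 1, 1048576⟩ :=
  .sx nd1 lf3 (by decide +kernel)

theorem nd3 : Cov [kQ1]
    ⟨0, 3, 4⟩ ⟨0, 1, 2⟩ ⟨524287, 1, 1048576⟩ :=
  .sx nd2 lf4 (by decide +kernel)

theorem nd4 : Cov [kQ1]
    ⟨0, 3, 32⟩ ⟨1, 1, 2⟩ ⟨524287, 1, 1048576⟩ :=
  .sx lf5 lf6 (by decide +kernel)

theorem nd5 : Cov [kQ1]
    ⟨0, 3, 16⟩ ⟨1, 1, 2⟩ ⟨524287, 1, 1048576⟩ :=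
  .sx nd4 lf7 (by decide +kernel)

theorem nd6 : Cov [kQ1]
    ⟨0, 3, 8⟩ ⟨1, 1, 2⟩ ⟨524287, 1, 1048576⟩ :=
  .sx nd5 lf8 (by decide +kernel)

theorem nd7 : Cov [kQ1]
    ⟨0, 3, 4⟩ ⟨1, 1, 2⟩ ⟨524287, 1, 1048576⟩ :=
  .sx nd6 lf9 (by decide +kernel)

theorem nd8 : Cov [kQ1]
    ⟨0, 3, 4⟩ ⟨0, 1, 1⟩ ⟨524287, 1, 1048576⟩ :=
  .sy nd3 nd7 (by decide +kernel)

theorem nd9 : Cov [kQ1]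
    ⟨12, 3, 16⟩ ⟨0, 1, 4⟩ ⟨524287, 1, 1048576⟩ :=
  .sy lf10 lf11 (by decide +kernel)

theorem nd10 : Cov [kQ1]
    ⟨60, 3, 64⟩ ⟨0, 1, 16⟩ ⟨524287, 1, 1048576⟩ :=
  .sy lf12 lf13 (by decide +kernel)

theorem nd11 : Cov [kQ1]
    ⟨252, 3, 256⟩ ⟨0, 1, 64⟩ ⟨524287, 1, 1048576⟩ :=
  .sy lf14 lf15 (by decide +kernel)

theorem nd12 : Cov [kQ1]
    ⟨65535, 1, 65536⟩ ⟨0, 1, 65536⟩ ⟨524287, 1, 1048576⟩ :=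
  .sx lf20 lf21 (by decide +kernel)

theorem nd13 : Cov [kQ1]
    ⟨65535, 1, 65536⟩ ⟨0, 1, 16384⟩ ⟨524287, 1, 1048576⟩ :=
  .sy nd12 lf22 (by decide +kernel)

theorem nd14 : Cov [kQ1]
    ⟨16383, 1, 16384⟩ ⟨0, 1, 16384⟩ ⟨524287, 1, 1048576⟩ :=
  .sx lf19 nd13 (by decide +kernel)

theorem nd15 : Cov [kQ1]
    ⟨16383, 1, 16384⟩ ⟨0, 1, 4096⟩ ⟨524287, 1, 1048576⟩ :=
  .sy nd14 lf23 (by decide +kernel)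

theorem nd16 : Cov [kQ1]
    ⟨4095, 1, 4096⟩ ⟨0, 1, 4096⟩ ⟨524287, 1, 1048576⟩ :=
  .sx lf18 nd15 (by decide +kernel)

theorem nd17 : Cov [kQ1]
    ⟨4095, 1, 4096⟩ ⟨0, 1, 1024⟩ ⟨524287, 1, 1048576⟩ :=
  .sy nd16 lf24 (by decide +kernel)

theorem nd18 : Cov [kQ1]
    ⟨1023, 1, 1024⟩ ⟨0, 1, 1024⟩ ⟨524287, 1, 1048576⟩ :=
  .sx lf17 nd17 (by decide +kernel)

theorem nd19 : Cov [kQ1]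
    ⟨1023, 1, 1024⟩ ⟨0, 1, 256⟩ ⟨524287, 1, 1048576⟩ :=
  .sy nd18 lf25 (by decide +kernel)

theorem nd20 : Cov [kQ1]
    ⟨255, 1, 256⟩ ⟨0, 1, 256⟩ ⟨524287, 1, 1048576⟩ :=
  .sx lf16 nd19 (by decide +kernel)

theorem nd21 : Cov [kQ1]
    ⟨255, 1, 256⟩ ⟨0, 1, 64⟩ ⟨524287, 1, 1048576⟩ :=
  .sy nd20 lf26 (by decide +kernel)

theorem nd22 : Cov [kQ1]
    ⟨63, 1, 64⟩ ⟨0, 1, 64⟩ ⟨524287, 1, 1048576⟩ :=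
  .sx nd11 nd21 (by decide +kernel)

theorem nd23 : Cov [kQ1]
    ⟨63, 1, 64⟩ ⟨0, 1, 16⟩ ⟨524287, 1, 1048576⟩ :=
  .sy nd22 lf27 (by decide +kernel)

theorem nd24 : Cov [kQ1]
    ⟨15, 1, 16⟩ ⟨0, 1, 16⟩ ⟨524287, 1, 1048576⟩ :=
  .sx nd10 nd23 (by decide +kernel)

theorem nd25 : Cov [kQ1]
    ⟨15, 1, 16⟩ ⟨1, 3, 16⟩ ⟨524287, 1, 1048576⟩ :=
  .sx lf28 lf29 (by decide +kernel)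

theorem nd26 : Cov [kQ1]
    ⟨15, 1, 16⟩ ⟨0, 1, 4⟩ ⟨524287, 1, 1048576⟩ :=
  .sy nd24 nd25 (by decide +kernel)

theorem nd27 : Cov [kQ1]
    ⟨3, 1, 4⟩ ⟨0, 1, 4⟩ ⟨524287, 1, 1048576⟩ :=
  .sx nd9 nd26 (by decide +kernel)

theorem nd28 : Cov [kQ1]
    ⟨15, 1, 16⟩ ⟨1, 1, 4⟩ ⟨524287, 1, 1048576⟩ :=
  .sx lf31 lf32 (by decide +kernel)

theorem nd29 : Cov [kQ1]
    ⟨3, 1, 4⟩ ⟨1, 1, 4⟩ ⟨524287, 1, 1048576⟩ :=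
  .sx lf30 nd28 (by decide +kernel)

theorem nd30 : Cov [kQ1]
    ⟨3, 1, 4⟩ ⟨0, 1, 2⟩ ⟨524287, 1, 1048576⟩ :=
  .sy nd27 nd29 (by decide +kernel)

theorem nd31 : Cov [kQ1]
    ⟨15, 1, 16⟩ ⟨1, 1, 2⟩ ⟨524287, 1, 1048576⟩ :=
  .sx lf34 lf35 (by decide +kernel)

theorem nd32 : Cov [kQ1]
    ⟨3, 1, 4⟩ ⟨1, 1, 2⟩ ⟨524287, 1, 1048576⟩ :=
  .sx lf33 nd31 (by decide +kernel)

theorem nd33 : Cov [kQ1]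
    ⟨3, 1, 4⟩ ⟨0, 1, 1⟩ ⟨524287, 1, 1048576⟩ :=
  .sy nd30 nd32 (by decide +kernel)

theorem nd34 : Cov [kQ1]
    ⟨0, 1, 1⟩ ⟨0, 1, 1⟩ ⟨524287, 1, 1048576⟩ :=
  .sx nd8 nd33 (by decide +kernel)

theorem covQ : Cov [kQ1]
    ⟨0, 1, 1⟩ ⟨0, 1, 1⟩ ⟨524287, 1, 1048576⟩ := nd34

end Crest.Agent.R163.Bx.BxFq
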