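import Crest.Agent.R163.BxV

/-! # Row 163: certificate leaves -/

set_option autoImplicit false
set_option Elab.async false

namespace Crest.Agent.R163.Bx.BxO

open Kr

theorem lf0 : Cov [kP3]
    ⟨4, 1, 8⟩ ⟨0, 1, 4⟩ ⟨2, 1, 6⟩ :=
  .leafU ⟨.mk 65 5 5 7, .mk 68 7 5 20, .mk 112 8 5 16, .mk 71 7 5 23, .mk 77 6 5 7, .mk 79 6 5 5, 379, 15, 10, 15⟩ (by decide +kernel)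

theorem lf1 : Cov [kP4]
    ⟨4, 1, 8⟩ ⟨0, 1, 16⟩ ⟨2, 1, 6⟩ :=
  .leafU ⟨.mk 67 5 5 5, .mk 118 8 5 22, .mk 112 8 5 16, .mk 68 7 5 20, .mk 79 6 5 6, .mk 79 6 5 5, 399, 15, 10, 15⟩ (by decide +kernel)

theorem lf2 : Cov [kP4]
    ⟨4, 1, 8⟩ ⟨1, 3, 16⟩ ⟨2, 1, 6⟩ :=
  .leafU ⟨.mk 64 5 5 7, .mk 72 7 5 17, .mk 112 8 5 16, .mk 73 7 5 22, .mk 76 6 5 7, .mk 79 6 5 5, 399, 15, 10, 15⟩ (by decide +kernel)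

theorem lf3 : Cov [kP3, kP4]
    ⟨5, 1, 8⟩ ⟨0, 1, 16⟩ ⟨2, 1, 6⟩ :=
  .leafU ⟨.mk 75 5 5 5, .mk 88 8 5 24, .mk 80 8 5 16, .mk 109 8 5 46, .mk 82 6 5 6, .mk 83 6 5 6, 403, 15, 10, 15⟩ (by decide +kernel)

theorem lf4 : Cov [kP3, kP4]
    ⟨5, 1, 8⟩ ⟨1, 3, 16⟩ ⟨4, 1, 12⟩ :=
  .leafU ⟨.mk 71 5 4 7, .mk 119 8 4 37, .mk 80 8 4 16, .mk 68 7 4 17, .mk 77 6 4 6, .mk 81 6 4 4, 377, 12, 8, 12⟩ (by decide +kernel)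

theorem lf5 : Cov [kP3, kP4]
    ⟨5, 1, 8⟩ ⟨1, 3, 16⟩ ⟨5, 1, 12⟩ :=
  .leafU ⟨.mk 71 5 5 7, .mk 119 8 5 37, .mk 80 8 5 16, .mk 110 8 5 38, .mk 80 6 5 6, .mk 84 6 5 4, 417, 15, 10, 15⟩ (by decide +kernel)

theorem lf6 : Cov [kP3, kP4]
    ⟨4, 1, 8⟩ ⟨1, 1, 4⟩ ⟨2, 1, 6⟩ :=
  .leafU ⟨.mk 117 6 5 13, .mk 95 7 5 17, .mk 112 8 5 16, .mk 82 7 5 20, .mk 72 6 5 6, .mk 79 6 5 5, 379, 15, 10, 15⟩ (by decide +kernel)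

theorem lf7 : Cov [kP3, kP4]
    ⟨5, 1, 8⟩ ⟨1, 1, 4⟩ ⟨2, 1, 6⟩ :=
  .leafU ⟨.mk 64 5 5 7, .mk 88 7 5 20, .mk 80 8 5 16, .mk 72 7 5 23, .mk 73 6 5 6, .mk 83 6 5 6, 381, 15, 10, 15⟩ (by decide +kernel)

theorem lf8 : Cov [kP3, kP4]
    ⟨4, 1, 8⟩ ⟨1, 1, 2⟩ ⟨2, 1, 6⟩ :=
  .leafU ⟨.mk 97 6 5 17, .mk 69 6 5 15, .mk 112 8 5 16, .mk 98 7 5 20, .mk 123 7 5 15, .mk 79 6 5 5, 369, 15, 10, 15⟩ (by decide +kernel)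

theorem lf9 : Cov [kP3, kP4]
    ⟨5, 1, 8⟩ ⟨1, 1, 2⟩ ⟨2, 1, 6⟩ :=
  .leafU ⟨.mk 104 6 5 20, .mk 70 6 5 18, .mk 80 8 5 16, .mk 91 7 5 24, .mk 122 7 5 18, .mk 83 6 5 6, 371, 15, 10, 15⟩ (by decide +kernel)

theorem lf10 : Cov [kP3, kP4]
    ⟨24, 3, 32⟩ ⟨0, 1, 16⟩ ⟨4, 1, 12⟩ :=
  .leafU ⟨.mk 82 5 4 5, .mk 122 9 4 42, .mk 104 9 4 24, .mk 105 8 4 29, .mk 83 6 4 5, .mk 83 6 4 4, 405, 12, 8, 12⟩ (by decide +kernel)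

theorem lf11 : Cov [kP3, kP4]
    ⟨27, 3, 32⟩ ⟨0, 1, 16⟩ ⟨4, 1, 12⟩ :=
  .leafU ⟨.mk 88 5 4 5, .mk 76 9 4 45, .mk 112 10 4 48, .mk 87 8 4 32, .mk 85 6 4 5, .mk 86 6 4 4, 411, 12, 8, 12⟩ (by decide +kernel)

theorem lf12 : Cov [kP3, kP4]
    ⟨24, 3, 32⟩ ⟨0, 1, 16⟩ ⟨5, 1, 12⟩ :=
  .leafU ⟨.mk 82 5 4 5, .mk 122 9 4 42, .mk 104 9 4 24, .mk 72 8 4 32, .mk 87 6 4 5, .mk 88 6 4 4, 406, 12, 8, 12⟩ (by decide +kernel)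

theorem lf13 : Cov [kP3, kP4]
    ⟨54, 3, 64⟩ ⟨0, 1, 16⟩ ⟨5, 1, 12⟩ :=
  .leafU ⟨.mk 86 5 4 3, .mk 88 9 4 33, .mk 68 9 4 12, .mk 112 9 4 57, .mk 88 6 4 5, .mk 90 6 4 4, 422, 12, 8, 12⟩ (by decide +kernel)

theorem lf14 : Cov [kP3, kP4]
    ⟨57, 3, 64⟩ ⟨0, 1, 16⟩ ⟨10, 1, 24⟩ :=
  .leafU ⟨.mk 89 5 4 3, .mk 65 9 4 34, .mk 88 10 4 24, .mk 111 9 4 39, .mk 89 6 4 4, .mk 90 6 4 3, 437, 12, 8, 12⟩ (by decide +kernel)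

theorem lf15 : Cov [kP3, kP4]
    ⟨57, 3, 64⟩ ⟨0, 1, 16⟩ ⟨11, 1, 24⟩ :=
  .leafU ⟨.mk 89 5 5 3, .mk 65 9 5 34, .mk 88 10 5 24, .mk 73 9 5 41, .mk 91 6 5 4, .mk 92 6 5 2, 493, 15, 10, 15⟩ (by decide +kernel)

theorem lf16 : Cov [kP3, kP4]
    ⟨24, 3, 32⟩ ⟨1, 3, 16⟩ ⟨4, 1, 12⟩ :=
  .leafU ⟨.mk 77 5 4 7, .mk 98 8 4 38, .mk 104 9 4 24, .mk 118 8 4 34, .mk 79 6 4 6, .mk 83 6 4 4, 404, 12, 8, 12⟩ (by decide +kernel)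

theorem lf17 : Cov [kP3, kP4]
    ⟨24, 3, 32⟩ ⟨1, 3, 16⟩ ⟨5, 1, 12⟩ :=
  .leafU ⟨.mk 77 5 5 7, .mk 98 8 5 38, .mk 104 9 5 24, .mk 88 8 5 38, .mk 82 6 5 7, .mk 88 6 5 4, 452, 15, 10, 15⟩ (by decide +kernel)

theorem lf18 : Cov [kP3, kP4]
    ⟨27, 3, 32⟩ ⟨1, 3, 16⟩ ⟨4, 1, 12⟩ :=
  .leafU ⟨.mk 83 5 5 8, .mk 80 8 5 42, .mk 112 10 5 48, .mk 102 8 5 37, .mk 81 6 5 6, .mk 86 6 5 4, 456, 15, 10, 15⟩ (by decide +kernel)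

theorem lf19 : Cov [kP3, kP4]
    ⟨54, 3, 64⟩ ⟨2, 3, 32⟩ ⟨5, 1, 12⟩ :=
  .leafU ⟨.mk 83 5 4 4, .mk 70 8 4 21, .mk 68 9 4 12, .mk 68 8 4 30, .mk 86 6 4 5, .mk 90 6 4 4, 428, 12, 8, 12⟩ (by decide +kernel)

theorem lf20 : Cov [kP3, kP4]
    ⟨57, 3, 64⟩ ⟨2, 3, 32⟩ ⟨5, 1, 12⟩ :=
  .leafU ⟨.mk 86 5 5 4, .mk 120 9 5 43, .mk 88 10 5 24, .mk 116 9 5 62, .mk 87 6 5 5, .mk 91 6 5 4, 485, 15, 10, 15⟩ (by decide +kernel)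

theorem lf21 : Cov [kP3, kP4]
    ⟨27, 3, 32⟩ ⟨5, 3, 32⟩ ⟨5, 1, 12⟩ :=
  .leafU ⟨.mk 80 5 4 5, .mk 97 8 4 25, .mk 112 10 4 48, .mk 77 8 4 33, .mk 83 6 4 5, .mk 90 6 4 4, 416, 12, 8, 12⟩ (by decide +kernel)

theorem lf22 : Cov [kP3, kP4]
    ⟨60, 3, 64⟩ ⟨0, 1, 64⟩ ⟨4, 1, 12⟩ :=
  .leafU ⟨.mk 93 5 4 2, .mk 103 11 4 71, .mk 80 11 4 48, .mk 72 8 4 26, .mk 87 6 4 4, .mk 87 6 4 4, 449, 12, 8, 12⟩ (by decide +kernel)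

theorem lf23 : Cov [kP3, kP4]
    ⟨60, 3, 64⟩ ⟨0, 1, 64⟩ ⟨10, 1, 24⟩ :=
  .leafU ⟨.mk 93 5 4 2, .mk 103 11 4 71, .mk 80 11 4 48, .mk 83 9 4 34, .mk 91 6 4 3, .mk 91 6 4 2, 462, 12, 8, 12⟩ (by decide +kernel)

theorem lf24 : Cov [kP3, kP4]
    ⟨60, 3, 64⟩ ⟨0, 1, 64⟩ ⟨22, 1, 48⟩ :=
  .leafU ⟨.mk 93 5 4 2, .mk 103 11 4 71, .mk 80 11 4 48, .mk 106 10 4 49, .mk 93 6 4 3, .mk 93 6 4 2, 474, 12, 8, 12⟩ (by decide +kernel)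

theorem lf25 : Cov [kP3, kP4]
    ⟨120, 3, 128⟩ ⟨0, 1, 64⟩ ⟨23, 1, 48⟩ :=
  .leafU ⟨.mk 92 5 4 2, .mk 127 11 4 47, .mk 104 11 4 24, .mk 77 10 4 38, .mk 93 6 4 2, .mk 94 6 4 2, 484, 12, 8, 12⟩ (by decide +kernel)

theorem lf26 : Cov [kP3, kP4]
    ⟨123, 3, 128⟩ ⟨0, 1, 64⟩ ⟨23, 1, 48⟩ :=
  .leafU ⟨.mk 94 5 5 2, .mk 79 11 5 48, .mk 112 12 5 48, .mk 108 11 5 77, .mk 94 6 5 2, .mk 94 6 5 2, 559, 15, 10, 15⟩ (by decide +kernel)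

theorem lf27 : Cov [kP3, kP4]
    ⟨60, 3, 64⟩ ⟨1, 3, 64⟩ ⟨4, 1, 12⟩ :=
  .leafU ⟨.mk 92 5 4 3, .mk 97 10 4 58, .mk 80 11 4 48, .mk 76 8 4 28, .mk 86 6 4 4, .mk 87 6 4 4, 446, 12, 8, 12⟩ (by decide +kernel)

theorem lf28 : Cov [kP3, kP4]
    ⟨60, 3, 64⟩ ⟨1, 3, 64⟩ ⟨10, 1, 24⟩ :=
  .leafU ⟨.mk 92 5 4 3, .mk 97 10 4 58, .mk 80 11 4 48, .mk 93 9 4 38, .mk 89 6 4 4, .mk 91 6 4 2, 459, 12, 8, 12⟩ (by decide +kernel)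

theorem lf29 : Cov [kP3, kP4]
    ⟨120, 3, 128⟩ ⟨1, 3, 64⟩ ⟨11, 1, 24⟩ :=
  .leafU ⟨.mk 91 5 4 2, .mk 109 10 4 46, .mk 104 11 4 24, .mk 118 10 4 68, .mk 91 6 4 4, .mk 93 6 4 2, 469, 12, 8, 12⟩ (by decide +kernel)

theorem lf30 : Cov [kP3, kP4]
    ⟨123, 3, 128⟩ ⟨1, 3, 64⟩ ⟨22, 1, 48⟩ :=
  .leafU ⟨.mk 92 5 4 3, .mk 86 10 4 47, .mk 112 12 4 48, .mk 117 10 4 48, .mk 92 6 4 3, .mk 93 6 4 2, 486, 12, 8, 12⟩ (by decide +kernel)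

theorem lf31 : Cov [kP3, kP4]
    ⟨123, 3, 128⟩ ⟨1, 3, 64⟩ ⟨23, 1, 48⟩ :=
  .leafU ⟨.mk 92 5 5 3, .mk 86 10 5 47, .mk 112 12 5 48, .mk 77 10 5 50, .mk 93 6 5 3, .mk 94 6 5 2, 554, 15, 10, 15⟩ (by decide +kernel)

theorem lf32 : Cov [kP3, kP4]
    ⟨252, 3, 256⟩ ⟨0, 1, 256⟩ ⟨4, 1, 12⟩ :=
  .leafU ⟨.mk 95 5 4 1, .mk 104 13 4 72, .mk 80 13 4 48, .mk 66 8 4 23, .mk 88 6 4 4, .mk 88 6 4 3, 504, 12, 8, 12⟩ (by decide +kernel)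

theorem lf33 : Cov [kP3, kP4]
    ⟨252, 3, 256⟩ ⟨1, 3, 256⟩ ⟨4, 1, 12⟩ :=
  .leafU ⟨.mk 95 5 4 1, .mk 99 12 4 60, .mk 80 13 4 48, .mk 67 8 4 23, .mk 87 6 4 4, .mk 88 6 4 3, 501, 12, 8, 12⟩ (by decide +kernel)

theorem lf34 : Cov [kP3, kP4]
    ⟨1020, 3, 1024⟩ ⟨0, 1, 1024⟩ ⟨4, 1, 12⟩ :=
  .leafU ⟨.mk 96 5 4 1, .mk 104 15 4 72, .mk 80 15 4 48, .mk 64 8 4 23, .mk 88 6 4 3, .mk 88 6 4 3, 559, 12, 8, 12⟩ (by decide +kernel)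

theorem lf35 : Cov [kP3, kP4]
    ⟨1020, 3, 1024⟩ ⟨1, 3, 1024⟩ ⟨4, 1, 12⟩ :=
  .leafU ⟨.mk 96 5 4 1, .mk 100 14 4 61, .mk 80 15 4 48, .mk 65 8 4 22, .mk 88 6 4 3, .mk 88 6 4 3, 555, 12, 8, 12⟩ (by decide +kernel)

theorem lf36 : Cov [kP3, kP4]
    ⟨4092, 3, 4096⟩ ⟨0, 1, 1024⟩ ⟨4, 1, 12⟩ :=
  .leafU ⟨.mk 96 5 4 1, .bot 80 15, .mk 80 17 4 48, .mk 64 8 4 22, .mk 88 6 4 3, .mk 88 6 4 3, 557, 12, 8, 12⟩ (by decide +kernel)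

theorem lf37 : Cov [kP3, kP4]
    ⟨4095, 1, 4096⟩ ⟨0, 1, 4096⟩ ⟨4, 1, 12⟩ :=
  .leafU ⟨.mk 96 5 4 1, .bot 80 17, .bot 64 18, .mk 64 8 4 22, .mk 88 6 4 3, .mk 88 6 4 3, 549, 12, 8, 12⟩ (by decide +kernel)

theorem lf38 : Cov [kP3, kP4]
    ⟨4095, 1, 4096⟩ ⟨1, 3, 4096⟩ ⟨4, 1, 12⟩ :=
  .leafU ⟨.mk 96 5 4 1, .mk 68 16 4 44, .bot 64 18, .mk 64 8 4 22, .mk 88 6 4 3, .mk 88 6 4 3, 571, 12, 8, 12⟩ (by decide +kernel)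

theorem lf39 : Cov [kP3, kP4]
    ⟨1023, 1, 1024⟩ ⟨1, 3, 1024⟩ ⟨4, 1, 12⟩ :=
  .leafU ⟨.mk 96 5 4 1, .mk 68 14 4 44, .bot 64 16, .mk 64 8 4 22, .mk 88 6 4 3, .mk 88 6 4 3, 523, 12, 8, 12⟩ (by decide +kernel)

theorem lf40 : Cov [kP3, kP4]
    ⟨1020, 3, 1024⟩ ⟨1, 3, 256⟩ ⟨4, 1, 12⟩ :=
  .leafU ⟨.mk 95 5 4 1, .mk 70 12 4 43, .mk 80 15 4 48, .mk 66 8 4 23, .mk 88 6 4 4, .mk 88 6 4 3, 534, 12, 8, 12⟩ (by decide +kernel)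

theorem lf41 : Cov [kP3, kP4]
    ⟨1023, 1, 1024⟩ ⟨1, 3, 256⟩ ⟨4, 1, 12⟩ :=
  .leafU ⟨.mk 96 5 4 1, .mk 124 13 4 76, .bot 64 16, .mk 65 8 4 23, .mk 88 6 4 4, .mk 88 6 4 3, 500, 12, 8, 12⟩ (by decide +kernel)

theorem lf42 : Cov [kP3, kP4]
    ⟨252, 3, 256⟩ ⟨1, 3, 64⟩ ⟨4, 1, 12⟩ :=
  .leafU ⟨.mk 94 5 4 2, .mk 69 10 4 42, .mk 80 13 4 48, .mk 71 8 4 26, .mk 86 6 4 4, .mk 88 6 4 3, 480, 12, 8, 12⟩ (by decide +kernel)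

theorem lf43 : Cov [kP3, kP4]
    ⟨1020, 3, 1024⟩ ⟨1, 3, 64⟩ ⟨4, 1, 12⟩ :=
  .leafU ⟨.mk 94 5 4 2, .mk 125 11 4 76, .mk 80 15 4 48, .mk 70 8 4 25, .mk 87 6 4 4, .mk 88 6 4 3, 511, 12, 8, 12⟩ (by decide +kernel)

theorem lf44 : Cov [kP3]
    ⟨1023, 1, 1024⟩ ⟨1, 3, 64⟩ ⟨4, 1, 12⟩ :=
  .leafU ⟨.mk 94 5 5 2, .mk 121 11 5 73, .bot 64 16, .mk 69 8 5 25, .mk 87 6 5 4, .mk 88 6 5 3, 544, 15, 10, 15⟩ (by decide +kernel)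

theorem lf45 : Cov [kP4]
    ⟨4092, 3, 4096⟩ ⟨1, 3, 64⟩ ⟨4, 1, 12⟩ :=
  .leafU ⟨.mk 94 5 4 2, .mk 121 11 4 73, .mk 80 17 4 48, .mk 69 8 4 25, .mk 87 6 4 4, .mk 88 6 4 3, 543, 12, 8, 12⟩ (by decide +kernel)

theorem lf46 : Cov [kP4]
    ⟨4095, 1, 4096⟩ ⟨1, 3, 64⟩ ⟨4, 1, 12⟩ :=
  .leafU ⟨.mk 94 5 4 2, .mk 120 11 4 73, .bot 64 18, .mk 69 8 4 25, .mk 87 6 4 4, .mk 88 6 4 3, 503, 12, 8, 12⟩ (by decide +kernel)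

theorem lf47 : Cov [kP3, kP4]
    ⟨252, 3, 256⟩ ⟨0, 1, 256⟩ ⟨10, 1, 24⟩ :=
  .leafU ⟨.mk 95 5 4 1, .mk 104 13 4 72, .mk 80 13 4 48, .mk 69 9 4 25, .mk 92 6 4 2, .mk 92 6 4 2, 517, 12, 8, 12⟩ (by decide +kernel)

theorem lf48 : Cov [kP3, kP4]
    ⟨252, 3, 256⟩ ⟨1, 3, 256⟩ ⟨10, 1, 24⟩ :=
  .leafU ⟨.mk 95 5 4 1, .mk 99 12 4 60, .mk 80 13 4 48, .mk 71 9 4 26, .mk 91 6 4 3, .mk 92 6 4 2, 513, 12, 8, 12⟩ (by decide +kernel)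

theorem lf49 : Cov [kP3, kP4]
    ⟨1020, 3, 1024⟩ ⟨0, 1, 1024⟩ ⟨10, 1, 24⟩ :=
  .leafU ⟨.mk 96 5 4 1, .mk 104 15 4 72, .mk 80 15 4 48, .mk 65 9 4 23, .mk 92 6 4 2, .mk 92 6 4 2, 571, 12, 8, 12⟩ (by decide +kernel)

theorem lf50 : Cov [kP3, kP4]
    ⟨1020, 3, 1024⟩ ⟨1, 3, 1024⟩ ⟨10, 1, 24⟩ :=
  .leafU ⟨.mk 96 5 4 1, .mk 100 14 4 61, .mk 80 15 4 48, .mk 66 9 4 23, .mk 92 6 4 2, .mk 92 6 4 2, 568, 12, 8, 12⟩ (by decide +kernel)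

theorem lf51 : Cov [kP3, kP4]
    ⟨4092, 3, 4096⟩ ⟨0, 1, 1024⟩ ⟨10, 1, 24⟩ :=
  .leafU ⟨.mk 96 5 4 1, .bot 80 15, .mk 80 17 4 48, .mk 64 9 4 23, .mk 92 6 4 2, .mk 92 6 4 2, 570, 12, 8, 12⟩ (by decide +kernel)

theorem lf52 : Cov [kP3, kP4]
    ⟨4095, 1, 4096⟩ ⟨0, 1, 4096⟩ ⟨10, 1, 24⟩ :=
  .leafU ⟨.mk 96 5 4 1, .bot 80 17, .bot 64 18, .mk 64 9 4 22, .mk 92 6 4 2, .mk 92 6 4 2, 564, 12, 8, 12⟩ (by decide +kernel)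

theorem lf53 : Cov [kP3, kP4]
    ⟨4095, 1, 4096⟩ ⟨1, 3, 4096⟩ ⟨10, 1, 24⟩ :=
  .leafU ⟨.mk 96 5 4 1, .mk 68 16 4 44, .bot 64 18, .mk 64 9 4 22, .mk 92 6 4 2, .mk 92 6 4 2, 583, 12, 8, 12⟩ (by decide +kernel)

theorem lf54 : Cov [kP3, kP4]
    ⟨1023, 1, 1024⟩ ⟨1, 3, 1024⟩ ⟨10, 1, 24⟩ :=
  .leafU ⟨.mk 96 5 4 1, .mk 68 14 4 44, .bot 64 16, .mk 65 9 4 22, .mk 92 6 4 2, .mk 92 6 4 2, 536, 12, 8, 12⟩ (by decide +kernel)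

theorem lf55 : Cov [kP3, kP4]
    ⟨1020, 3, 1024⟩ ⟨1, 3, 256⟩ ⟨10, 1, 24⟩ :=
  .leafU ⟨.mk 95 5 4 1, .mk 70 12 4 43, .mk 80 15 4 48, .mk 68 9 4 24, .mk 92 6 4 3, .mk 92 6 4 2, 546, 12, 8, 12⟩ (by decide +kernel)

theorem lf56 : Cov [kP3, kP4]
    ⟨1023, 1, 1024⟩ ⟨1, 3, 256⟩ ⟨10, 1, 24⟩ :=
  .leafU ⟨.mk 96 5 4 1, .mk 124 13 4 76, .bot 64 16, .mk 67 9 4 24, .mk 92 6 4 2, .mk 92 6 4 2, 513, 12, 8, 12⟩ (by decide +kernel)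

theorem lf57 : Cov [kP3, kP4]
    ⟨252, 3, 256⟩ ⟨0, 1, 256⟩ ⟨22, 1, 48⟩ :=
  .leafU ⟨.mk 95 5 4 1, .mk 104 13 4 72, .mk 80 13 4 48, .mk 75 10 4 29, .mk 94 6 4 2, .mk 94 6 4 2, 529, 12, 8, 12⟩ (by decide +kernel)

theorem lf58 : Cov [kP3, kP4]
    ⟨252, 3, 256⟩ ⟨0, 1, 256⟩ ⟨92, 3, 192⟩ :=
  .leafU ⟨.mk 95 5 4 1, .mk 104 13 4 72, .mk 80 13 4 48, .mk 75 11 4 47, .mk 95 6 4 1, .mk 95 6 4 1, 553, 12, 8, 12⟩ (by decide +kernel)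

theorem lf59 : Cov [kP3, kP4]
    ⟨252, 3, 256⟩ ⟨0, 1, 256⟩ ⟨95, 1, 192⟩ :=
  .leafU ⟨.mk 95 5 4 1, .mk 104 13 4 72, .mk 80 13 4 48, .mk 67 12 4 51, .mk 95 6 4 1, .mk 96 6 4 1, 553, 12, 8, 12⟩ (by decide +kernel)

theorem lf60 : Cov [kP3, kP4]
    ⟨252, 3, 256⟩ ⟨1, 3, 256⟩ ⟨22, 1, 48⟩ :=
  .leafU ⟨.mk 95 5 4 1, .mk 99 12 4 60, .mk 80 13 4 48, .mk 80 10 4 31, .mk 93 6 4 2, .mk 94 6 4 2, 525, 12, 8, 12⟩ (by decide +kernel)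

end Crest.Agent.R163.Bx.BxO
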