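import Crest.Agent.R163.BxV

/-! # Row 163: certificate leaves -/

set_option autoImplicit false
set_option Elab.async false

namespace Crest.Agent.R163.Bx.BxO

open Kr

theorem lf61 : Cov [kP3, kP4]
    ⟨252, 3, 256⟩ ⟨1, 3, 256⟩ ⟨92, 3, 192⟩ :=
  .leafU ⟨.mk 95 5 4 1, .mk 99 12 4 60, .mk 80 13 4 48, .mk 87 11 4 52, .mk 94 6 4 2, .mk 95 6 4 1, 549, 12, 8, 12⟩ (by decide +kernel)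

theorem lf62 : Cov [kP3, kP4]
    ⟨252, 3, 256⟩ ⟨1, 3, 256⟩ ⟨95, 1, 192⟩ :=
  .leafU ⟨.mk 95 5 4 1, .mk 99 12 4 60, .mk 80 13 4 48, .mk 90 12 4 63, .mk 95 6 4 1, .mk 96 6 4 1, 550, 12, 8, 12⟩ (by decide +kernel)

theorem lf63 : Cov [kP3, kP4]
    ⟨1020, 3, 1024⟩ ⟨0, 1, 1024⟩ ⟨22, 1, 48⟩ :=
  .leafU ⟨.mk 96 5 4 1, .mk 104 15 4 72, .mk 80 15 4 48, .mk 67 10 4 24, .mk 94 6 4 1, .mk 94 6 4 1, 583, 12, 8, 12⟩ (by decide +kernel)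

theorem lf64 : Cov [kP3, kP4]
    ⟨1020, 3, 1024⟩ ⟨1, 3, 1024⟩ ⟨22, 1, 48⟩ :=
  .leafU ⟨.mk 96 5 4 1, .mk 100 14 4 61, .mk 80 15 4 48, .mk 68 10 4 24, .mk 94 6 4 1, .mk 94 6 4 1, 580, 12, 8, 12⟩ (by decide +kernel)

theorem lf65 : Cov [kP3, kP4]
    ⟨4092, 3, 4096⟩ ⟨0, 1, 1024⟩ ⟨22, 1, 48⟩ :=
  .leafU ⟨.mk 96 5 4 1, .bot 80 15, .mk 80 17 4 48, .mk 65 10 4 23, .mk 94 6 4 1, .mk 94 6 4 1, 582, 12, 8, 12⟩ (by decide +kernel)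

theorem lf66 : Cov [kP3, kP4]
    ⟨4095, 1, 4096⟩ ⟨0, 1, 4096⟩ ⟨22, 1, 48⟩ :=
  .leafU ⟨.mk 96 5 4 1, .bot 80 17, .bot 64 18, .mk 64 10 4 22, .mk 94 6 4 1, .mk 94 6 4 1, 579, 12, 8, 12⟩ (by decide +kernel)

theorem lf67 : Cov [kP3, kP4]
    ⟨4095, 1, 4096⟩ ⟨1, 3, 4096⟩ ⟨22, 1, 48⟩ :=
  .leafU ⟨.mk 96 5 4 1, .mk 68 16 4 44, .bot 64 18, .mk 65 10 4 23, .mk 94 6 4 1, .mk 94 6 4 1, 595, 12, 8, 12⟩ (by decide +kernel)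

theorem lf68 : Cov [kP3, kP4]
    ⟨1023, 1, 1024⟩ ⟨1, 3, 1024⟩ ⟨22, 1, 48⟩ :=
  .leafU ⟨.mk 96 5 4 1, .mk 68 14 4 44, .bot 64 16, .mk 66 10 4 23, .mk 94 6 4 1, .mk 94 6 4 1, 548, 12, 8, 12⟩ (by decide +kernel)

theorem lf69 : Cov [kP3, kP4]
    ⟨1020, 3, 1024⟩ ⟨1, 3, 256⟩ ⟨22, 1, 48⟩ :=
  .leafU ⟨.mk 95 5 4 1, .mk 70 12 4 43, .mk 80 15 4 48, .mk 73 10 4 27, .mk 93 6 4 2, .mk 94 6 4 1, 558, 12, 8, 12⟩ (by decide +kernel)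

theorem lf70 : Cov [kP3, kP4]
    ⟨1023, 1, 1024⟩ ⟨1, 3, 256⟩ ⟨22, 1, 48⟩ :=
  .leafU ⟨.mk 96 5 4 1, .mk 124 13 4 76, .bot 64 16, .mk 71 10 4 27, .mk 94 6 4 2, .mk 94 6 4 1, 525, 12, 8, 12⟩ (by decide +kernel)

theorem lf71 : Cov [kP3, kP4]
    ⟨1020, 3, 1024⟩ ⟨0, 1, 1024⟩ ⟨92, 3, 192⟩ :=
  .leafU ⟨.mk 96 5 4 1, .mk 104 15 4 72, .mk 80 15 4 48, .mk 118 12 4 72, .mk 95 6 4 1, .mk 95 6 4 1, 607, 12, 8, 12⟩ (by decide +kernel)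

theorem lf72 : Cov [kP3, kP4]
    ⟨1020, 3, 1024⟩ ⟨1, 3, 1024⟩ ⟨92, 3, 192⟩ :=
  .leafU ⟨.mk 96 5 4 1, .mk 100 14 4 61, .mk 80 15 4 48, .mk 124 12 4 75, .mk 95 6 4 1, .mk 95 6 4 1, 604, 12, 8, 12⟩ (by decide +kernel)

theorem lf73 : Cov [kP3, kP4]
    ⟨4092, 3, 4096⟩ ⟨0, 1, 1024⟩ ⟨92, 3, 192⟩ :=
  .leafU ⟨.mk 96 5 4 1, .bot 80 15, .mk 80 17 4 48, .mk 111 12 4 68, .mk 95 6 4 1, .mk 95 6 4 1, 606, 12, 8, 12⟩ (by decide +kernel)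

theorem lf74 : Cov [kP3, kP4]
    ⟨16380, 3, 16384⟩ ⟨0, 1, 4096⟩ ⟨92, 3, 192⟩ :=
  .leafU ⟨.mk 96 5 4 1, .bot 80 17, .mk 80 19 4 48, .mk 108 12 4 66, .mk 95 6 4 1, .mk 95 6 4 1, 653, 12, 8, 12⟩ (by decide +kernel)

theorem lf75 : Cov [kP3, kP4]
    ⟨16383, 1, 16384⟩ ⟨0, 1, 4096⟩ ⟨92, 3, 192⟩ :=
  .leafU ⟨.mk 96 5 4 1, .bot 112 18, .bot 64 20, .mk 107 12 4 65, .mk 95 6 4 1, .mk 95 6 4 1, 632, 12, 8, 12⟩ (by decide +kernel)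

theorem lf76 : Cov [kP3, kP4]
    ⟨4095, 1, 4096⟩ ⟨1, 3, 4096⟩ ⟨92, 3, 192⟩ :=
  .leafU ⟨.mk 96 5 4 1, .mk 68 16 4 44, .bot 64 18, .mk 109 12 4 66, .mk 95 6 4 1, .mk 95 6 4 1, 619, 12, 8, 12⟩ (by decide +kernel)

theorem lf77 : Cov [kP3, kP4]
    ⟨1023, 1, 1024⟩ ⟨1, 3, 1024⟩ ⟨92, 3, 192⟩ :=
  .leafU ⟨.mk 96 5 4 1, .mk 68 14 4 44, .bot 64 16, .mk 116 12 4 71, .mk 95 6 4 1, .mk 95 6 4 1, 572, 12, 8, 12⟩ (by decide +kernel)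

theorem lf78 : Cov [kP3, kP4]
    ⟨1020, 3, 1024⟩ ⟨0, 1, 1024⟩ ⟨380, 3, 768⟩ :=
  .leafU ⟨.mk 96 5 4 1, .mk 104 15 4 72, .mk 80 15 4 48, .mk 76 13 4 47, .mk 96 6 4 1, .mk 96 6 4 1, 631, 12, 8, 12⟩ (by decide +kernel)

theorem lf79 : Cov [kP3, kP4]
    ⟨1020, 3, 1024⟩ ⟨0, 1, 1024⟩ ⟨383, 1, 768⟩ :=
  .leafU ⟨.mk 96 5 4 1, .mk 104 15 4 72, .mk 80 15 4 48, .mk 67 14 4 52, .mk 96 6 4 1, .mk 96 6 4 1, 631, 12, 8, 12⟩ (by decide +kernel)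

theorem lf80 : Cov [kP3, kP4]
    ⟨1020, 3, 1024⟩ ⟨1, 3, 1024⟩ ⟨380, 3, 768⟩ :=
  .leafU ⟨.mk 96 5 4 1, .mk 100 14 4 61, .mk 80 15 4 48, .mk 88 13 4 53, .mk 96 6 4 1, .mk 96 6 4 1, 628, 12, 8, 12⟩ (by decide +kernel)

theorem lf81 : Cov [kP3, kP4]
    ⟨1020, 3, 1024⟩ ⟨1, 3, 1024⟩ ⟨383, 1, 768⟩ :=
  .leafU ⟨.mk 96 5 4 1, .mk 100 14 4 61, .mk 80 15 4 48, .mk 91 14 4 64, .mk 96 6 4 1, .mk 96 6 4 1, 628, 12, 8, 12⟩ (by decide +kernel)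

theorem lf82 : Cov [kP3, kP4]
    ⟨4092, 3, 4096⟩ ⟨0, 1, 1024⟩ ⟨380, 3, 768⟩ :=
  .leafU ⟨.mk 96 5 5 1, .bot 80 15, .mk 80 17 5 48, .mk 123 14 5 77, .mk 96 6 5 1, .mk 96 6 5 1, 734, 15, 10, 15⟩ (by decide +kernel)

theorem lf83 : Cov [kP3, kP4]
    ⟨4095, 1, 4096⟩ ⟨0, 1, 4096⟩ ⟨380, 3, 768⟩ :=
  .leafU ⟨.mk 96 5 5 1, .bot 80 17, .bot 64 18, .mk 110 14 5 68, .mk 96 6 5 1, .mk 96 6 5 1, 745, 15, 10, 15⟩ (by decide +kernel)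

theorem lf84 : Cov [kP3, kP4]
    ⟨4095, 1, 4096⟩ ⟨1, 3, 4096⟩ ⟨380, 3, 768⟩ :=
  .leafU ⟨.mk 96 5 4 1, .mk 68 16 4 44, .bot 64 18, .mk 116 14 4 71, .mk 96 6 4 1, .mk 96 6 4 1, 644, 12, 8, 12⟩ (by decide +kernel)

theorem lf85 : Cov [kP3, kP4]
    ⟨4092, 3, 4096⟩ ⟨0, 1, 4096⟩ ⟨1532, 3, 3072⟩ :=
  .leafU ⟨.mk 96 5 4 1, .mk 104 17 4 72, .mk 80 17 4 48, .mk 76 15 4 48, .mk 96 6 4 1, .mk 96 6 4 1, 710, 12, 8, 12⟩ (by decide +kernel)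

theorem lf86 : Cov [kP3, kP4]
    ⟨4092, 3, 4096⟩ ⟨0, 1, 4096⟩ ⟨1535, 1, 3072⟩ :=
  .leafU ⟨.mk 96 5 4 1, .mk 104 17 4 72, .mk 80 17 4 48, .mk 67 16 4 52, .mk 96 6 4 1, .mk 96 6 4 1, 710, 12, 8, 12⟩ (by decide +kernel)

theorem lf87 : Cov [kP3, kP4]
    ⟨4092, 3, 4096⟩ ⟨1, 3, 4096⟩ ⟨1532, 3, 3072⟩ :=
  .leafU ⟨.mk 96 5 4 1, .mk 100 16 4 61, .mk 80 17 4 48, .mk 88 15 4 54, .mk 96 6 4 1, .mk 96 6 4 1, 707, 12, 8, 12⟩ (by decide +kernel)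

theorem lf88 : Cov [kP3, kP4]
    ⟨4092, 3, 4096⟩ ⟨1, 3, 4096⟩ ⟨1535, 1, 3072⟩ :=
  .leafU ⟨.mk 96 5 4 1, .mk 100 16 4 61, .mk 80 17 4 48, .mk 91 16 4 64, .mk 96 6 4 1, .mk 96 6 4 1, 707, 12, 8, 12⟩ (by decide +kernel)

theorem lf89 : Cov [kP3]
    ⟨4095, 1, 4096⟩ ⟨0, 1, 4096⟩ ⟨1532, 3, 3072⟩ :=
  .leafU ⟨.mk 96 5 5 1, .bot 80 17, .bot 64 18, .mk 121 16 5 79, .mk 96 6 5 1, .mk 96 6 5 1, 784, 15, 10, 15⟩ (by decide +kernel)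

theorem lf90 : Cov [kP4]
    ⟨16380, 3, 16384⟩ ⟨0, 1, 4096⟩ ⟨1532, 3, 3072⟩ :=
  .leafU ⟨.mk 96 5 4 1, .bot 80 17, .mk 80 19 4 48, .mk 123 16 4 77, .mk 96 6 4 1, .mk 96 6 4 1, 701, 12, 8, 12⟩ (by decide +kernel)

theorem lf91 : Cov [kP4]
    ⟨16383, 1, 16384⟩ ⟨0, 1, 4096⟩ ⟨1532, 3, 3072⟩ :=
  .leafU ⟨.mk 96 5 4 1, .bot 112 18, .bot 64 20, .mk 115 16 4 73, .mk 96 6 4 1, .mk 96 6 4 1, 695, 12, 8, 12⟩ (by decide +kernel)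

theorem lf92 : Cov [kP3, kP4]
    ⟨16380, 3, 16384⟩ ⟨0, 1, 16384⟩ ⟨6140, 3, 12288⟩ :=
  .leafU ⟨.mk 96 5 4 1, .mk 104 19 4 72, .mk 80 19 4 48, .mk 76 17 4 48, .mk 96 6 4 1, .mk 96 6 4 1, 789, 12, 8, 12⟩ (by decide +kernel)

theorem lf93 : Cov [kP3, kP4]
    ⟨16380, 3, 16384⟩ ⟨0, 1, 16384⟩ ⟨6143, 1, 12288⟩ :=
  .leafU ⟨.mk 96 5 4 1, .mk 104 19 4 72, .mk 80 19 4 48, .mk 67 18 4 52, .mk 96 6 4 1, .mk 96 6 4 1, 789, 12, 8, 12⟩ (by decide +kernel)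

theorem lf94 : Cov [kP3, kP4]
    ⟨16380, 3, 16384⟩ ⟨1, 3, 16384⟩ ⟨6140, 3, 12288⟩ :=
  .leafU ⟨.mk 96 5 4 1, .mk 100 18 4 61, .mk 80 19 4 48, .mk 88 17 4 54, .mk 96 6 4 1, .mk 96 6 4 1, 785, 12, 8, 12⟩ (by decide +kernel)

theorem lf95 : Cov [kP3, kP4]
    ⟨16380, 3, 16384⟩ ⟨1, 3, 16384⟩ ⟨6143, 1, 12288⟩ :=
  .leafU ⟨.mk 96 5 4 1, .mk 100 18 4 61, .mk 80 19 4 48, .mk 91 18 4 64, .mk 96 6 4 1, .mk 96 6 4 1, 785, 12, 8, 12⟩ (by decide +kernel)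

theorem lf96 : Cov [kP3, kP4]
    ⟨16383, 1, 16384⟩ ⟨0, 1, 16384⟩ ⟨6140, 3, 12288⟩ :=
  .leafU ⟨.mk 96 5 4 1, .bot 80 19, .bot 64 20, .mk 121 18 4 79, .mk 96 6 4 1, .mk 96 6 4 1, 742, 12, 8, 12⟩ (by decide +kernel)

theorem lf97 : Cov [kP3, kP4]
    ⟨65532, 3, 65536⟩ ⟨0, 1, 65536⟩ ⟨24572, 3, 49152⟩ :=
  .leafU ⟨.mk 96 5 4 1, .mk 104 21 4 72, .mk 80 21 4 48, .mk 76 19 4 48, .mk 96 6 4 1, .mk 96 6 4 1, 867, 12, 8, 12⟩ (by decide +kernel)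

theorem lf98 : Cov [kP3, kP4]
    ⟨65532, 3, 65536⟩ ⟨0, 1, 65536⟩ ⟨24575, 1, 49152⟩ :=
  .leafU ⟨.mk 96 5 4 1, .mk 104 21 4 72, .mk 80 21 4 48, .mk 67 20 4 52, .mk 96 6 4 1, .mk 96 6 4 1, 867, 12, 8, 12⟩ (by decide +kernel)

theorem lf99 : Cov [kP3, kP4]
    ⟨65532, 3, 65536⟩ ⟨1, 3, 65536⟩ ⟨24572, 3, 49152⟩ :=
  .leafU ⟨.mk 96 5 4 1, .mk 100 20 4 61, .mk 80 21 4 48, .mk 88 19 4 54, .mk 96 6 4 1, .mk 96 6 4 1, 864, 12, 8, 12⟩ (by decide +kernel)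

theorem lf100 : Cov [kP3, kP4]
    ⟨65532, 3, 65536⟩ ⟨1, 3, 65536⟩ ⟨24575, 1, 49152⟩ :=
  .leafU ⟨.mk 96 5 4 1, .mk 100 20 4 61, .mk 80 21 4 48, .mk 91 20 4 64, .mk 96 6 4 1, .mk 96 6 4 1, 864, 12, 8, 12⟩ (by decide +kernel)

theorem lf101 : Cov [kP3, kP4]
    ⟨65535, 1, 65536⟩ ⟨0, 1, 65536⟩ ⟨24572, 3, 49152⟩ :=
  .leafU ⟨.mk 96 5 4 1, .bot 80 21, .bot 64 22, .mk 121 20 4 79, .mk 96 6 4 1, .mk 96 6 4 1, 813, 12, 8, 12⟩ (by decide +kernel)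

theorem lf102 : Cov [kP3, kP4]
    ⟨262140, 3, 262144⟩ ⟨0, 1, 262144⟩ ⟨98300, 3, 196608⟩ :=
  .leafU ⟨.mk 96 5 4 1, .mk 104 23 4 72, .mk 80 23 4 48, .mk 76 21 4 48, .mk 96 6 4 1, .mk 96 6 4 1, 946, 12, 8, 12⟩ (by decide +kernel)

theorem lf103 : Cov [kP3, kP4]
    ⟨262140, 3, 262144⟩ ⟨0, 1, 262144⟩ ⟨98303, 1, 196608⟩ :=
  .leafU ⟨.mk 96 5 4 1, .mk 104 23 4 72, .mk 80 23 4 48, .mk 67 22 4 52, .mk 96 6 4 1, .mk 96 6 4 1, 946, 12, 8, 12⟩ (by decide +kernel)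

theorem lf104 : Cov [kP3, kP4]
    ⟨262140, 3, 262144⟩ ⟨1, 3, 262144⟩ ⟨98300, 3, 196608⟩ :=
  .leafU ⟨.mk 96 5 4 1, .mk 100 22 4 61, .mk 80 23 4 48, .mk 88 21 4 54, .mk 96 6 4 1, .mk 96 6 4 1, 943, 12, 8, 12⟩ (by decide +kernel)

theorem lf105 : Cov [kP3, kP4]
    ⟨262140, 3, 262144⟩ ⟨1, 3, 262144⟩ ⟨98303, 1, 196608⟩ :=
  .leafU ⟨.mk 96 5 4 1, .mk 100 22 4 61, .mk 80 23 4 48, .mk 91 22 4 64, .mk 96 6 4 1, .mk 96 6 4 1, 943, 12, 8, 12⟩ (by decide +kernel)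

theorem lf106 : Cov [kP3, kP4]
    ⟨262143, 1, 262144⟩ ⟨0, 1, 262144⟩ ⟨98300, 3, 196608⟩ :=
  .leafU ⟨.mk 96 5 4 1, .bot 80 23, .bot 64 24, .mk 121 22 4 79, .mk 96 6 4 1, .mk 96 6 4 1, 884, 12, 8, 12⟩ (by decide +kernel)

theorem lf107 : Cov [kP3]
    ⟨262143, 1, 262144⟩ ⟨0, 1, 262144⟩ ⟨98303, 1, 196608⟩ :=
  .leafU ⟨.mk 96 5 5 1, .bot 80 23, .bot 64 24, .bot 71 22, .mk 96 6 5 1, .mk 96 6 5 1, 697, 10, 5, 10⟩ (by decide +kernel)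

theorem lf108 : Cov [kP4]
    ⟨1048572, 3, 1048576⟩ ⟨0, 1, 1048576⟩ ⟨98303, 1, 196608⟩ :=
  .leafU ⟨.mk 96 5 4 1, .mk 104 25 4 72, .mk 80 25 4 48, .bot 124 23, .mk 96 6 4 1, .mk 96 6 4 1, 926, 12, 8, 8⟩ (by decide +kernel)

theorem lf109 : Cov [kP4]
    ⟨1048572, 3, 1048576⟩ ⟨1, 3, 1048576⟩ ⟨98303, 1, 196608⟩ :=
  .leafU ⟨.mk 96 5 4 1, .mk 100 24 4 61, .mk 80 25 4 48, .bot 71 22, .mk 96 6 4 1, .mk 96 6 4 1, 923, 12, 8, 8⟩ (by decide +kernel)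

theorem lf110 : Cov [kP4]
    ⟨1048575, 1, 1048576⟩ ⟨0, 1, 262144⟩ ⟨98303, 1, 196608⟩ :=
  .leafU ⟨.mk 96 5 4 1, .bot 112 24, .bot 64 26, .bot 118 23, .mk 96 6 4 1, .mk 96 6 4 1, 619, 8, 4, 8⟩ (by decide +kernel)

theorem lf111 : Cov [kP3, kP4]
    ⟨262143, 1, 262144⟩ ⟨1, 3, 262144⟩ ⟨98300, 3, 196608⟩ :=
  .leafU ⟨.mk 96 5 4 1, .mk 68 22 4 44, .bot 64 24, .mk 72 21 4 46, .mk 96 6 4 1, .mk 96 6 4 1, 883, 12, 8, 12⟩ (by decide +kernel)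

theorem lf112 : Cov [kP3]
    ⟨262143, 1, 262144⟩ ⟨1, 3, 262144⟩ ⟨98303, 1, 196608⟩ :=
  .leafU ⟨.mk 96 5 5 1, .mk 68 22 5 44, .bot 64 24, .bot 107 22, .mk 96 6 5 1, .mk 96 6 5 1, 860, 10, 10, 10⟩ (by decide +kernel)

theorem lf113 : Cov [kP4]
    ⟨1048572, 3, 1048576⟩ ⟨1, 3, 262144⟩ ⟨98303, 1, 196608⟩ :=
  .leafU ⟨.mk 96 5 4 1, .mk 70 22 4 43, .mk 80 25 4 48, .mk 123 23 4 92, .mk 96 6 4 1, .mk 96 6 4 1, 976, 12, 8, 12⟩ (by decide +kernel)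

theorem lf114 : Cov [kP4]
    ⟨1048575, 1, 1048576⟩ ⟨1, 3, 262144⟩ ⟨98303, 1, 196608⟩ :=
  .leafU ⟨.mk 96 5 4 1, .mk 124 23 4 76, .bot 64 26, .mk 107 23 4 83, .mk 96 6 4 1, .mk 96 6 4 1, 913, 12, 8, 12⟩ (by decide +kernel)

theorem lf115 : Cov [kP3, kP4]
    ⟨65535, 1, 65536⟩ ⟨1, 3, 65536⟩ ⟨24572, 3, 49152⟩ :=
  .leafU ⟨.mk 96 5 4 1, .mk 68 20 4 44, .bot 64 22, .mk 72 19 4 46, .mk 96 6 4 1, .mk 96 6 4 1, 812, 12, 8, 12⟩ (by decide +kernel)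

theorem lf116 : Cov [kP3, kP4]
    ⟨262140, 3, 262144⟩ ⟨1, 3, 65536⟩ ⟨24575, 1, 49152⟩ :=
  .leafU ⟨.mk 96 5 4 1, .mk 70 20 4 43, .mk 80 23 4 48, .mk 123 21 4 92, .mk 96 6 4 1, .mk 96 6 4 1, 897, 12, 8, 12⟩ (by decide +kernel)

theorem lf117 : Cov [kP3, kP4]
    ⟨262143, 1, 262144⟩ ⟨1, 3, 65536⟩ ⟨24575, 1, 49152⟩ :=
  .leafU ⟨.mk 96 5 4 1, .mk 124 21 4 76, .bot 64 24, .mk 107 21 4 83, .mk 96 6 4 1, .mk 96 6 4 1, 841, 12, 8, 12⟩ (by decide +kernel)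

theorem lf118 : Cov [kP3, kP4]
    ⟨16383, 1, 16384⟩ ⟨1, 3, 16384⟩ ⟨6140, 3, 12288⟩ :=
  .leafU ⟨.mk 96 5 4 1, .mk 68 18 4 44, .bot 64 20, .mk 72 17 4 46, .mk 96 6 4 1, .mk 96 6 4 1, 741, 12, 8, 12⟩ (by decide +kernel)

theorem lf119 : Cov [kP3, kP4]
    ⟨65532, 3, 65536⟩ ⟨1, 3, 16384⟩ ⟨6143, 1, 12288⟩ :=
  .leafU ⟨.mk 96 5 4 1, .mk 70 18 4 43, .mk 80 21 4 48, .mk 123 19 4 92, .mk 96 6 4 1, .mk 96 6 4 1, 819, 12, 8, 12⟩ (by decide +kernel)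

theorem lf120 : Cov [kP3, kP4]
    ⟨65535, 1, 65536⟩ ⟨1, 3, 16384⟩ ⟨6143, 1, 12288⟩ :=
  .leafU ⟨.mk 96 5 4 1, .mk 124 19 4 76, .bot 64 22, .mk 107 19 4 83, .mk 96 6 4 1, .mk 96 6 4 1, 770, 12, 8, 12⟩ (by decide +kernel)

theorem lf121 : Cov [kP3, kP4]
    ⟨4095, 1, 4096⟩ ⟨1, 3, 4096⟩ ⟨1532, 3, 3072⟩ :=
  .leafU ⟨.mk 96 5 4 1, .mk 68 16 4 44, .bot 64 18, .mk 72 15 4 46, .mk 96 6 4 1, .mk 96 6 4 1, 670, 12, 8, 12⟩ (by decide +kernel)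

end Crest.Agent.R163.Bx.BxO
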