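import Crest.Agent.R163.BxV

/-! # Row 163: certificate leaves -/

set_option autoImplicit false
set_option Elab.async false

namespace Crest.Agent.R163.Bx.BxO

open Kr

theorem lf122 : Cov [kP3, kP4]
    ⟨16380, 3, 16384⟩ ⟨1, 3, 4096⟩ ⟨1535, 1, 3072⟩ :=
  .leafU ⟨.mk 96 5 4 1, .mk 70 16 4 43, .mk 80 19 4 48, .mk 123 17 4 92, .mk 96 6 4 1, .mk 96 6 4 1, 740, 12, 8, 12⟩ (by decide +kernel)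

theorem lf123 : Cov [kP3, kP4]
    ⟨16383, 1, 16384⟩ ⟨1, 3, 4096⟩ ⟨1535, 1, 3072⟩ :=
  .leafU ⟨.mk 96 5 4 1, .mk 124 17 4 76, .bot 64 20, .mk 107 17 4 83, .mk 96 6 4 1, .mk 96 6 4 1, 699, 12, 8, 12⟩ (by decide +kernel)

theorem lf124 : Cov [kP3, kP4]
    ⟨1023, 1, 1024⟩ ⟨1, 3, 1024⟩ ⟨380, 3, 768⟩ :=
  .leafU ⟨.mk 96 5 4 1, .mk 68 14 4 44, .bot 64 16, .mk 72 13 4 45, .mk 96 6 4 1, .mk 96 6 4 1, 598, 12, 8, 12⟩ (by decide +kernel)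

theorem lf125 : Cov [kP3, kP4]
    ⟨4092, 3, 4096⟩ ⟨1, 3, 1024⟩ ⟨383, 1, 768⟩ :=
  .leafU ⟨.mk 96 5 4 1, .mk 70 14 4 43, .mk 80 17 4 48, .mk 122 15 4 91, .mk 96 6 4 1, .mk 96 6 4 1, 661, 12, 8, 12⟩ (by decide +kernel)

theorem lf126 : Cov [kP3, kP4]
    ⟨4095, 1, 4096⟩ ⟨1, 3, 1024⟩ ⟨383, 1, 768⟩ :=
  .leafU ⟨.mk 96 5 5 1, .mk 124 15 5 76, .bot 64 18, .mk 107 15 5 83, .mk 96 6 5 1, .mk 96 6 5 1, 730, 15, 10, 15⟩ (by decide +kernel)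

theorem lf127 : Cov [kP3, kP4]
    ⟨1020, 3, 1024⟩ ⟨1, 3, 256⟩ ⟨92, 3, 192⟩ :=
  .leafU ⟨.mk 95 5 4 1, .mk 70 12 4 43, .mk 80 15 4 48, .mk 73 11 4 44, .mk 95 6 4 2, .mk 95 6 4 1, 582, 12, 8, 12⟩ (by decide +kernel)

theorem lf128 : Cov [kP3, kP4]
    ⟨1023, 1, 1024⟩ ⟨1, 3, 256⟩ ⟨92, 3, 192⟩ :=
  .leafU ⟨.mk 96 5 4 1, .mk 124 13 4 76, .bot 64 16, .mk 69 11 4 42, .mk 95 6 4 2, .mk 95 6 4 1, 551, 12, 8, 12⟩ (by decide +kernel)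

theorem lf129 : Cov [kP3, kP4]
    ⟨1020, 3, 1024⟩ ⟨1, 3, 256⟩ ⟨95, 1, 192⟩ :=
  .leafU ⟨.mk 95 5 4 1, .mk 70 12 4 43, .mk 80 15 4 48, .mk 122 13 4 91, .mk 95 6 4 1, .mk 96 6 4 1, 582, 12, 8, 12⟩ (by decide +kernel)

theorem lf130 : Cov [kP3, kP4]
    ⟨4092, 3, 4096⟩ ⟨1, 3, 256⟩ ⟨95, 1, 192⟩ :=
  .leafU ⟨.mk 95 5 4 1, .mk 125 13 4 76, .mk 80 17 4 48, .mk 107 13 4 82, .mk 95 6 4 1, .mk 96 6 4 1, 615, 12, 8, 12⟩ (by decide +kernel)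

theorem lf131 : Cov [kP3]
    ⟨4095, 1, 4096⟩ ⟨1, 3, 256⟩ ⟨95, 1, 192⟩ :=
  .leafU ⟨.mk 96 5 5 1, .mk 121 13 5 73, .bot 64 18, .mk 103 13 5 80, .mk 95 6 5 1, .mk 96 6 5 1, 671, 15, 10, 15⟩ (by decide +kernel)

theorem lf132 : Cov [kP4]
    ⟨4095, 1, 4096⟩ ⟨1, 3, 256⟩ ⟨380, 3, 768⟩ :=
  .leafU ⟨.mk 96 5 4 1, .mk 121 13 4 73, .bot 64 18, .mk 114 13 4 69, .mk 95 6 4 1, .mk 96 6 4 1, 604, 12, 8, 12⟩ (by decide +kernel)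

theorem lf133 : Cov [kP4]
    ⟨4095, 1, 4096⟩ ⟨1, 3, 256⟩ ⟨383, 1, 768⟩ :=
  .leafU ⟨.mk 96 5 4 1, .mk 121 13 4 73, .bot 64 18, .mk 72 13 4 48, .mk 95 6 4 1, .mk 96 6 4 1, 606, 12, 8, 12⟩ (by decide +kernel)

theorem lf134 : Cov [kP3, kP4]
    ⟨252, 3, 256⟩ ⟨1, 3, 64⟩ ⟨10, 1, 24⟩ :=
  .leafU ⟨.mk 94 5 4 2, .mk 69 10 4 42, .mk 80 13 4 48, .mk 81 9 4 32, .mk 90 6 4 3, .mk 92 6 4 2, 492, 12, 8, 12⟩ (by decide +kernel)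

theorem lf135 : Cov [kP3, kP4]
    ⟨1020, 3, 1024⟩ ⟨1, 3, 64⟩ ⟨10, 1, 24⟩ :=
  .leafU ⟨.mk 94 5 4 2, .mk 125 11 4 76, .mk 80 15 4 48, .mk 78 9 4 30, .mk 90 6 4 3, .mk 92 6 4 2, 523, 12, 8, 12⟩ (by decide +kernel)

theorem lf136 : Cov [kP3]
    ⟨1023, 1, 1024⟩ ⟨1, 3, 64⟩ ⟨10, 1, 24⟩ :=
  .leafU ⟨.mk 94 5 5 2, .mk 121 11 5 73, .bot 64 16, .mk 77 9 5 29, .mk 90 6 5 3, .mk 92 6 5 2, 560, 15, 10, 15⟩ (by decide +kernel)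

theorem lf137 : Cov [kP4]
    ⟨4092, 3, 4096⟩ ⟨1, 3, 64⟩ ⟨10, 1, 24⟩ :=
  .leafU ⟨.mk 94 5 4 2, .mk 121 11 4 73, .mk 80 17 4 48, .mk 77 9 4 29, .mk 90 6 4 3, .mk 92 6 4 2, 555, 12, 8, 12⟩ (by decide +kernel)

theorem lf138 : Cov [kP4]
    ⟨4095, 1, 4096⟩ ⟨1, 3, 64⟩ ⟨10, 1, 24⟩ :=
  .leafU ⟨.mk 94 5 4 2, .mk 120 11 4 73, .bot 64 18, .mk 77 9 4 29, .mk 90 6 4 3, .mk 92 6 4 2, 516, 12, 8, 12⟩ (by decide +kernel)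

theorem lf139 : Cov [kP3, kP4]
    ⟨252, 3, 256⟩ ⟨1, 3, 64⟩ ⟨22, 1, 48⟩ :=
  .leafU ⟨.mk 94 5 4 2, .mk 69 10 4 42, .mk 80 13 4 48, .mk 101 10 4 44, .mk 92 6 4 2, .mk 94 6 4 2, 504, 12, 8, 12⟩ (by decide +kernel)

theorem lf140 : Cov [kP3]
    ⟨252, 3, 256⟩ ⟨1, 3, 64⟩ ⟨23, 1, 48⟩ :=
  .leafU ⟨.mk 94 5 5 2, .mk 69 10 5 42, .mk 80 13 5 48, .mk 119 11 5 88, .mk 93 6 5 3, .mk 95 6 5 1, 577, 15, 10, 15⟩ (by decide +kernel)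

theorem lf141 : Cov [kP4]
    ⟨252, 3, 256⟩ ⟨2, 3, 128⟩ ⟨23, 1, 48⟩ :=
  .leafU ⟨.mk 94 5 4 2, .mk 103 11 4 48, .mk 80 13 4 48, .mk 102 11 4 71, .mk 94 6 4 2, .mk 95 6 4 1, 514, 12, 8, 12⟩ (by decide +kernel)

theorem lf142 : Cov [kP4]
    ⟨252, 3, 256⟩ ⟨5, 3, 128⟩ ⟨23, 1, 48⟩ :=
  .leafU ⟨.mk 93 5 4 1, .mk 87 10 4 24, .mk 80 13 4 48, .mk 69 10 4 36, .mk 93 6 4 2, .mk 95 6 4 1, 511, 12, 8, 12⟩ (by decide +kernel)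

theorem lf143 : Cov [kP3, kP4]
    ⟨1020, 3, 1024⟩ ⟨1, 3, 64⟩ ⟨22, 1, 48⟩ :=
  .leafU ⟨.mk 94 5 4 2, .mk 125 11 4 76, .mk 80 15 4 48, .mk 94 10 4 39, .mk 92 6 4 2, .mk 94 6 4 1, 536, 12, 8, 12⟩ (by decide +kernel)

theorem lf144 : Cov [kP3]
    ⟨1023, 1, 1024⟩ ⟨1, 3, 64⟩ ⟨22, 1, 48⟩ :=
  .leafU ⟨.mk 94 5 5 2, .mk 121 11 5 73, .bot 64 16, .mk 92 10 5 39, .mk 92 6 5 2, .mk 94 6 5 1, 577, 15, 10, 15⟩ (by decide +kernel)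

theorem lf145 : Cov [kP4]
    ⟨4092, 3, 4096⟩ ⟨1, 3, 64⟩ ⟨22, 1, 48⟩ :=
  .leafU ⟨.mk 94 5 4 2, .mk 121 11 4 73, .mk 80 17 4 48, .mk 92 10 4 39, .mk 92 6 4 2, .mk 94 6 4 1, 567, 12, 8, 12⟩ (by decide +kernel)

theorem lf146 : Cov [kP4]
    ⟨4095, 1, 4096⟩ ⟨1, 3, 64⟩ ⟨22, 1, 48⟩ :=
  .leafU ⟨.mk 94 5 4 2, .mk 120 11 4 73, .bot 64 18, .mk 92 10 4 38, .mk 92 6 4 2, .mk 94 6 4 1, 530, 12, 8, 12⟩ (by decide +kernel)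

theorem lf147 : Cov [kP3, kP4]
    ⟨1020, 3, 1024⟩ ⟨1, 3, 64⟩ ⟨92, 3, 192⟩ :=
  .leafU ⟨.mk 94 5 4 2, .mk 125 11 4 76, .mk 80 15 4 48, .mk 116 11 4 69, .mk 93 6 4 2, .mk 95 6 4 1, 560, 12, 8, 12⟩ (by decide +kernel)

theorem lf148 : Cov [kP3, kP4]
    ⟨1020, 3, 1024⟩ ⟨1, 3, 64⟩ ⟨95, 1, 192⟩ :=
  .leafU ⟨.mk 94 5 4 2, .mk 125 11 4 76, .mk 80 15 4 48, .mk 75 11 4 50, .mk 94 6 4 2, .mk 96 6 4 1, 560, 12, 8, 12⟩ (by decide +kernel)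

theorem lf149 : Cov [kP3, kP4]
    ⟨4092, 3, 4096⟩ ⟨1, 3, 64⟩ ⟨92, 3, 192⟩ :=
  .leafU ⟨.mk 94 5 4 2, .mk 121 11 4 73, .mk 80 17 4 48, .mk 112 11 4 68, .mk 93 6 4 2, .mk 95 6 4 1, 591, 12, 8, 12⟩ (by decide +kernel)

theorem lf150 : Cov [kP3, kP4]
    ⟨4095, 1, 4096⟩ ⟨1, 3, 64⟩ ⟨92, 3, 192⟩ :=
  .leafU ⟨.mk 94 5 5 2, .mk 120 11 5 73, .bot 64 18, .mk 111 11 5 67, .mk 93 6 5 2, .mk 95 6 5 1, 640, 15, 10, 15⟩ (by decide +kernel)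

theorem lf151 : Cov [kP3, kP4]
    ⟨4092, 3, 4096⟩ ⟨1, 3, 64⟩ ⟨95, 1, 192⟩ :=
  .leafU ⟨.mk 94 5 4 2, .mk 121 11 4 73, .mk 80 17 4 48, .mk 71 11 4 48, .mk 94 6 4 2, .mk 96 6 4 1, 591, 12, 8, 12⟩ (by decide +kernel)

theorem lf152 : Cov [kP3]
    ⟨4095, 1, 4096⟩ ⟨1, 3, 64⟩ ⟨95, 1, 192⟩ :=
  .leafU ⟨.mk 94 5 5 2, .mk 120 11 5 73, .bot 64 18, .mk 70 11 5 47, .mk 94 6 5 2, .mk 96 6 5 1, 644, 15, 10, 15⟩ (by decide +kernel)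

theorem lf153 : Cov [kP4]
    ⟨4095, 1, 4096⟩ ⟨2, 3, 128⟩ ⟨95, 1, 192⟩ :=
  .leafU ⟨.mk 95 5 4 1, .mk 84 11 4 37, .bot 64 18, .mk 105 12 4 58, .mk 95 6 4 2, .mk 96 6 4 1, 568, 12, 8, 12⟩ (by decide +kernel)

theorem lf154 : Cov [kP4]
    ⟨4095, 1, 4096⟩ ⟨5, 3, 128⟩ ⟨95, 1, 192⟩ :=
  .leafU ⟨.mk 94 5 4 2, .mk 78 10 4 19, .bot 64 18, .mk 88 11 4 29, .mk 93 6 4 2, .mk 96 6 4 1, 565, 12, 8, 12⟩ (by decide +kernel)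

theorem lf155 : Cov [kP3, kP4]
    ⟨60, 3, 64⟩ ⟨1, 3, 16⟩ ⟨4, 1, 12⟩ :=
  .leafU ⟨.mk 86 5 5 7, .mk 67 8 5 40, .mk 80 11 5 48, .mk 91 8 5 36, .mk 82 6 5 6, .mk 87 6 5 4, 479, 15, 10, 15⟩ (by decide +kernel)

theorem lf156 : Cov [kP3, kP4]
    ⟨252, 3, 256⟩ ⟨1, 3, 16⟩ ⟨4, 1, 12⟩ :=
  .leafU ⟨.mk 88 5 4 5, .mk 123 9 4 74, .mk 80 13 4 48, .mk 86 8 4 34, .mk 83 6 4 6, .mk 88 6 4 3, 458, 12, 8, 12⟩ (by decide +kernel)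

theorem lf157 : Cov [kP3, kP4]
    ⟨1020, 3, 1024⟩ ⟨1, 3, 16⟩ ⟨4, 1, 12⟩ :=
  .leafU ⟨.mk 88 5 4 5, .mk 121 9 4 73, .mk 80 15 4 48, .mk 85 8 4 33, .mk 83 6 4 6, .mk 88 6 4 3, 489, 12, 8, 12⟩ (by decide +kernel)

theorem lf158 : Cov [kP3, kP4]
    ⟨4092, 3, 4096⟩ ⟨1, 3, 16⟩ ⟨4, 1, 12⟩ :=
  .leafU ⟨.mk 88 5 4 5, .mk 120 9 4 73, .mk 80 17 4 48, .mk 85 8 4 33, .mk 83 6 4 6, .mk 88 6 4 3, 521, 12, 8, 12⟩ (by decide +kernel)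

theorem lf159 : Cov [kP3, kP4]
    ⟨16380, 3, 16384⟩ ⟨1, 3, 16⟩ ⟨4, 1, 12⟩ :=
  .leafU ⟨.mk 88 5 4 5, .mk 120 9 4 73, .mk 80 19 4 48, .mk 85 8 4 33, .mk 83 6 4 6, .mk 88 6 4 3, 552, 12, 8, 12⟩ (by decide +kernel)

theorem lf160 : Cov [kP3, kP4]
    ⟨16383, 1, 16384⟩ ⟨2, 3, 32⟩ ⟨4, 1, 12⟩ :=
  .leafU ⟨.mk 91 5 4 3, .mk 84 9 4 37, .bot 64 20, .mk 79 8 4 27, .mk 84 6 4 5, .mk 88 6 4 3, 516, 12, 8, 12⟩ (by decide +kernel)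

theorem lf161 : Cov [kP3]
    ⟨16383, 1, 16384⟩ ⟨5, 3, 32⟩ ⟨4, 1, 12⟩ :=
  .leafU ⟨.mk 86 5 5 3, .mk 78 8 5 19, .bot 64 20, .mk 93 8 5 26, .mk 81 6 5 4, .mk 88 6 5 3, 590, 15, 10, 15⟩ (by decide +kernel)

theorem lf162 : Cov [kP4]
    ⟨65532, 3, 65536⟩ ⟨5, 3, 32⟩ ⟨4, 1, 12⟩ :=
  .leafU ⟨.mk 86 5 4 3, .mk 78 8 4 19, .mk 80 21 4 48, .mk 93 8 4 26, .mk 81 6 4 4, .mk 88 6 4 3, 591, 12, 8, 12⟩ (by decide +kernel)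

theorem lf163 : Cov [kP4]
    ⟨65535, 1, 65536⟩ ⟨5, 3, 32⟩ ⟨4, 1, 12⟩ :=
  .leafU ⟨.mk 86 5 4 3, .mk 78 8 4 19, .bot 64 22, .mk 93 8 4 26, .mk 81 6 4 4, .mk 88 6 4 3, 540, 12, 8, 12⟩ (by decide +kernel)

theorem lf164 : Cov [kP3, kP4]
    ⟨60, 3, 64⟩ ⟨2, 3, 32⟩ ⟨10, 1, 24⟩ :=
  .leafU ⟨.mk 89 5 4 5, .mk 100 9 4 45, .mk 80 11 4 48, .mk 115 9 4 44, .mk 87 6 4 4, .mk 91 6 4 2, 448, 12, 8, 12⟩ (by decide +kernel)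

theorem lf165 : Cov [kP3, kP4]
    ⟨60, 3, 64⟩ ⟨2, 3, 32⟩ ⟨11, 1, 24⟩ :=
  .leafU ⟨.mk 89 5 5 5, .mk 100 9 5 45, .mk 80 11 5 48, .mk 78 9 5 47, .mk 89 6 5 4, .mk 94 6 5 3, 507, 15, 10, 15⟩ (by decide +kernel)

theorem lf166 : Cov [kP3, kP4]
    ⟨60, 3, 64⟩ ⟨5, 3, 32⟩ ⟨5, 1, 12⟩ :=
  .leafU ⟨.mk 84 5 5 4, .mk 85 8 5 22, .mk 80 11 5 48, .mk 127 9 5 60, .mk 84 6 5 5, .mk 92 6 5 4, 489, 15, 10, 15⟩ (by decide +kernel)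

theorem lf167 : Cov [kP3, kP4]
    ⟨252, 3, 256⟩ ⟨2, 3, 32⟩ ⟨10, 1, 24⟩ :=
  .leafU ⟨.mk 90 5 4 3, .mk 88 9 4 39, .mk 80 13 4 48, .mk 104 9 4 38, .mk 87 6 4 4, .mk 92 6 4 2, 480, 12, 8, 12⟩ (by decide +kernel)

theorem lf168 : Cov [kP3, kP4]
    ⟨252, 3, 256⟩ ⟨2, 3, 32⟩ ⟨11, 1, 24⟩ :=
  .leafU ⟨.mk 90 5 5 3, .mk 88 9 5 39, .mk 80 13 5 48, .mk 65 9 5 40, .mk 89 6 5 4, .mk 94 6 5 2, 547, 15, 10, 15⟩ (by decide +kernel)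

theorem lf169 : Cov [kP3, kP4]
    ⟨252, 3, 256⟩ ⟨5, 3, 32⟩ ⟨5, 1, 12⟩ :=
  .leafU ⟨.mk 86 5 4 3, .mk 80 8 4 20, .mk 80 13 4 48, .mk 116 9 4 55, .mk 84 6 4 5, .mk 93 6 4 3, 466, 12, 8, 12⟩ (by decide +kernel)

theorem lf170 : Cov [kP3, kP4]
    ⟨1020, 3, 1024⟩ ⟨2, 3, 32⟩ ⟨10, 1, 24⟩ :=
  .leafU ⟨.mk 91 5 4 3, .mk 85 9 4 37, .mk 80 15 4 48, .mk 101 9 4 36, .mk 87 6 4 4, .mk 92 6 4 2, 511, 12, 8, 12⟩ (by decide +kernel)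

theorem lf171 : Cov [kP3, kP4]
    ⟨1020, 3, 1024⟩ ⟨2, 3, 32⟩ ⟨11, 1, 24⟩ :=
  .leafU ⟨.mk 91 5 5 3, .mk 85 9 5 37, .mk 80 15 5 48, .mk 124 10 5 76, .mk 90 6 5 4, .mk 95 6 5 2, 586, 15, 10, 15⟩ (by decide +kernel)

theorem lf172 : Cov [kP3, kP4]
    ⟨4092, 3, 4096⟩ ⟨2, 3, 32⟩ ⟨10, 1, 24⟩ :=
  .leafU ⟨.mk 91 5 4 3, .mk 84 9 4 37, .mk 80 17 4 48, .mk 100 9 4 36, .mk 87 6 4 4, .mk 92 6 4 2, 543, 12, 8, 12⟩ (by decide +kernel)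

theorem lf173 : Cov [kP3, kP4]
    ⟨4092, 3, 4096⟩ ⟨2, 3, 32⟩ ⟨11, 1, 24⟩ :=
  .leafU ⟨.mk 91 5 5 3, .mk 84 9 5 37, .mk 80 17 5 48, .mk 122 10 5 75, .mk 90 6 5 4, .mk 95 6 5 2, 626, 15, 10, 15⟩ (by decide +kernel)

theorem lf174 : Cov [kP3, kP4]
    ⟨16380, 3, 16384⟩ ⟨2, 3, 32⟩ ⟨10, 1, 24⟩ :=
  .leafU ⟨.mk 91 5 4 3, .mk 84 9 4 37, .mk 80 19 4 48, .mk 100 9 4 36, .mk 87 6 4 4, .mk 92 6 4 2, 574, 12, 8, 12⟩ (by decide +kernel)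

theorem lf175 : Cov [kP3, kP4]
    ⟨16383, 1, 16384⟩ ⟨2, 3, 32⟩ ⟨10, 1, 24⟩ :=
  .leafU ⟨.mk 91 5 4 3, .mk 84 9 4 37, .bot 64 20, .mk 100 9 4 36, .mk 87 6 4 4, .mk 92 6 4 2, 531, 12, 8, 12⟩ (by decide +kernel)

theorem lf176 : Cov [kP3, kP4]
    ⟨16380, 3, 16384⟩ ⟨2, 3, 32⟩ ⟨11, 1, 24⟩ :=
  .leafU ⟨.mk 91 5 4 3, .mk 84 9 4 37, .mk 80 19 4 48, .mk 122 10 4 74, .mk 90 6 4 4, .mk 95 6 4 2, 574, 12, 8, 12⟩ (by decide +kernel)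

theorem lf177 : Cov [kP3]
    ⟨16383, 1, 16384⟩ ⟨2, 3, 32⟩ ⟨11, 1, 24⟩ :=
  .leafU ⟨.mk 91 5 5 3, .mk 84 9 5 37, .bot 64 20, .mk 122 10 5 74, .mk 90 6 5 4, .mk 95 6 5 2, 611, 15, 10, 15⟩ (by decide +kernel)

theorem lf178 : Cov [kP4]
    ⟨65532, 3, 65536⟩ ⟨2, 3, 32⟩ ⟨11, 1, 24⟩ :=
  .leafU ⟨.mk 91 5 4 3, .mk 84 9 4 37, .mk 80 21 4 48, .mk 122 10 4 74, .mk 90 6 4 4, .mk 95 6 4 2, 606, 12, 8, 12⟩ (by decide +kernel)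

theorem lf179 : Cov [kP4]
    ⟨65535, 1, 65536⟩ ⟨2, 3, 32⟩ ⟨11, 1, 24⟩ :=
  .leafU ⟨.mk 91 5 5 3, .mk 84 9 5 37, .bot 64 22, .mk 122 10 5 74, .mk 90 6 5 4, .mk 95 6 5 2, 641, 15, 10, 15⟩ (by decide +kernel)

theorem lf180 : Cov [kP3, kP4]
    ⟨1020, 3, 1024⟩ ⟨5, 3, 32⟩ ⟨5, 1, 12⟩ :=
  .leafU ⟨.mk 86 5 4 3, .mk 78 8 4 19, .mk 80 15 4 48, .mk 114 9 4 54, .mk 85 6 4 5, .mk 93 6 4 3, 497, 12, 8, 12⟩ (by decide +kernel)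

theorem lf181 : Cov [kP3, kP4]
    ⟨4092, 3, 4096⟩ ⟨5, 3, 32⟩ ⟨5, 1, 12⟩ :=
  .leafU ⟨.mk 86 5 4 3, .mk 78 8 4 19, .mk 80 17 4 48, .mk 113 9 4 53, .mk 85 6 4 5, .mk 93 6 4 3, 529, 12, 8, 12⟩ (by decide +kernel)

theorem lf182 : Cov [kP3, kP4]
    ⟨16380, 3, 16384⟩ ⟨5, 3, 32⟩ ⟨5, 1, 12⟩ :=
  .leafU ⟨.mk 86 5 4 3, .mk 78 8 4 19, .mk 80 19 4 48, .mk 113 9 4 53, .mk 85 6 4 5, .mk 93 6 4 3, 560, 12, 8, 12⟩ (by decide +kernel)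

end Crest.Agent.R163.Bx.BxO
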