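import Crest.Agent.R163.BxV

/-! # Row 163: certificate leaves -/

set_option autoImplicit false
set_option Elab.async false

namespace Crest.Agent.R163.Bx.BxO

open Kr

theorem lf183 : Cov [kP3, kP4]
    ⟨65532, 3, 65536⟩ ⟨5, 3, 32⟩ ⟨5, 1, 12⟩ :=
  .leafU ⟨.mk 86 5 4 3, .mk 78 8 4 19, .mk 80 21 4 48, .mk 113 9 4 53, .mk 85 6 4 5, .mk 93 6 4 3, 591, 12, 8, 12⟩ (by decide +kernel)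

theorem lf184 : Cov [kP3, kP4]
    ⟨65535, 1, 65536⟩ ⟨5, 3, 32⟩ ⟨5, 1, 12⟩ :=
  .leafU ⟨.mk 86 5 5 3, .mk 78 8 5 19, .bot 64 22, .mk 113 9 5 53, .mk 85 6 5 5, .mk 93 6 5 3, 623, 15, 10, 15⟩ (by decide +kernel)

theorem lf185 : Cov [kP3, kP4]
    ⟨24, 3, 32⟩ ⟨1, 1, 4⟩ ⟨2, 1, 6⟩ :=
  .leafU ⟨.mk 69 5 5 7, .mk 82 7 5 22, .mk 104 9 5 24, .mk 64 7 5 24, .mk 74 6 5 7, .mk 86 6 5 6, 415, 15, 10, 15⟩ (by decide +kernel)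

theorem lf186 : Cov [kP3, kP4]
    ⟨54, 3, 64⟩ ⟨1, 1, 4⟩ ⟨2, 1, 6⟩ :=
  .leafU ⟨.mk 72 5 5 7, .mk 79 7 5 23, .mk 68 9 5 12, .mk 118 8 5 48, .mk 75 6 5 7, .mk 87 6 5 6, 433, 15, 10, 15⟩ (by decide +kernel)

theorem lf187 : Cov [kP3, kP4]
    ⟨57, 3, 64⟩ ⟨1, 1, 4⟩ ⟨4, 1, 12⟩ :=
  .leafU ⟨.mk 74 5 4 7, .mk 76 7 4 24, .mk 88 10 4 24, .mk 127 8 4 34, .mk 74 6 4 6, .mk 86 6 4 3, 403, 12, 8, 12⟩ (by decide +kernel)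

theorem lf188 : Cov [kP3, kP4]
    ⟨57, 3, 64⟩ ⟨1, 1, 4⟩ ⟨5, 1, 12⟩ :=
  .leafU ⟨.mk 74 5 5 7, .mk 76 7 5 24, .mk 88 10 5 24, .mk 99 8 5 39, .mk 76 6 5 7, .mk 91 6 5 4, 451, 15, 10, 15⟩ (by decide +kernel)

theorem lf189 : Cov [kP3, kP4]
    ⟨120, 3, 128⟩ ⟨1, 1, 4⟩ ⟨4, 1, 12⟩ :=
  .leafU ⟨.mk 76 5 4 7, .mk 75 7 4 24, .mk 104 11 4 24, .mk 123 8 4 34, .mk 75 6 4 6, .mk 87 6 4 3, 418, 12, 8, 12⟩ (by decide +kernel)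

theorem lf190 : Cov [kP3, kP4]
    ⟨120, 3, 128⟩ ⟨1, 1, 4⟩ ⟨5, 1, 12⟩ :=
  .leafU ⟨.mk 76 5 5 7, .mk 75 7 5 24, .mk 104 11 5 24, .mk 94 8 5 38, .mk 77 6 5 7, .mk 92 6 5 3, 470, 15, 10, 15⟩ (by decide +kernel)

theorem lf191 : Cov [kP3, kP4]
    ⟨123, 3, 128⟩ ⟨1, 1, 4⟩ ⟨4, 1, 12⟩ :=
  .leafU ⟨.mk 77 5 4 7, .mk 73 7 4 25, .mk 112 12 4 48, .mk 119 8 4 35, .mk 75 6 4 6, .mk 87 6 4 4, 422, 12, 8, 12⟩ (by decide +kernel)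

theorem lf192 : Cov [kP3, kP4]
    ⟨123, 3, 128⟩ ⟨1, 1, 4⟩ ⟨5, 1, 12⟩ :=
  .leafU ⟨.mk 77 5 5 7, .mk 73 7 5 25, .mk 112 12 5 48, .mk 90 8 5 39, .mk 77 6 5 7, .mk 93 6 5 4, 475, 15, 10, 15⟩ (by decide +kernel)

theorem lf193 : Cov [kP3, kP4]
    ⟨504, 3, 512⟩ ⟨1, 1, 4⟩ ⟨4, 1, 12⟩ :=
  .leafU ⟨.mk 77 5 4 7, .mk 73 7 4 25, .mk 104 13 4 24, .mk 118 8 4 34, .mk 75 6 4 6, .mk 88 6 4 3, 450, 12, 8, 12⟩ (by decide +kernel)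

theorem lf194 : Cov [kP3, kP4]
    ⟨504, 3, 512⟩ ⟨1, 1, 4⟩ ⟨5, 1, 12⟩ :=
  .leafU ⟨.mk 77 5 5 7, .mk 73 7 5 25, .mk 104 13 5 24, .mk 87 8 5 38, .mk 77 6 5 7, .mk 93 6 5 3, 510, 15, 10, 15⟩ (by decide +kernel)

theorem lf195 : Cov [kP3, kP4]
    ⟨507, 3, 512⟩ ⟨1, 1, 4⟩ ⟨4, 1, 12⟩ :=
  .leafU ⟨.mk 78 5 4 7, .mk 72 7 4 25, .mk 112 14 4 48, .mk 117 8 4 34, .mk 75 6 4 6, .mk 88 6 4 3, 454, 12, 8, 12⟩ (by decide +kernel)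

theorem lf196 : Cov [kP3, kP4]
    ⟨507, 3, 512⟩ ⟨1, 1, 4⟩ ⟨5, 1, 12⟩ :=
  .leafU ⟨.mk 78 5 5 7, .mk 72 7 5 25, .mk 112 14 5 48, .mk 86 8 5 38, .mk 77 6 5 7, .mk 93 6 5 3, 514, 15, 10, 15⟩ (by decide +kernel)

theorem lf197 : Cov [kP3, kP4]
    ⟨1020, 3, 1024⟩ ⟨1, 1, 4⟩ ⟨4, 1, 12⟩ :=
  .leafU ⟨.mk 78 5 4 7, .mk 72 7 4 25, .mk 80 15 4 48, .mk 116 8 4 34, .mk 75 6 4 6, .mk 88 6 4 3, 471, 12, 8, 12⟩ (by decide +kernel)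

theorem lf198 : Cov [kP3, kP4]
    ⟨1020, 3, 1024⟩ ⟨1, 1, 4⟩ ⟨5, 1, 12⟩ :=
  .leafU ⟨.mk 78 5 5 7, .mk 72 7 5 25, .mk 80 15 5 48, .mk 86 8 5 38, .mk 77 6 5 7, .mk 93 6 5 3, 536, 15, 10, 15⟩ (by decide +kernel)

theorem lf199 : Cov [kP3, kP4]
    ⟨4092, 3, 4096⟩ ⟨1, 1, 4⟩ ⟨4, 1, 12⟩ :=
  .leafU ⟨.mk 78 5 4 7, .mk 72 7 4 25, .mk 80 17 4 48, .mk 116 8 4 34, .mk 75 6 4 6, .mk 88 6 4 3, 502, 12, 8, 12⟩ (by decide +kernel)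

theorem lf200 : Cov [kP3, kP4]
    ⟨4092, 3, 4096⟩ ⟨1, 1, 4⟩ ⟨5, 1, 12⟩ :=
  .leafU ⟨.mk 78 5 4 7, .mk 72 7 4 25, .mk 80 17 4 48, .mk 85 8 4 38, .mk 77 6 4 7, .mk 93 6 4 3, 503, 12, 8, 12⟩ (by decide +kernel)

theorem lf201 : Cov [kP4]
    ⟨16380, 3, 16384⟩ ⟨1, 1, 4⟩ ⟨2, 1, 6⟩ :=
  .leafU ⟨.mk 78 5 5 7, .mk 72 7 5 25, .mk 80 19 5 48, .mk 99 8 5 51, .mk 77 6 5 8, .mk 91 6 5 6, 599, 15, 10, 15⟩ (by decide +kernel)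

theorem lf202 : Cov [kP3]
    ⟨16380, 3, 16384⟩ ⟨1, 1, 4⟩ ⟨4, 1, 12⟩ :=
  .leafU ⟨.mk 78 5 4 7, .mk 72 7 4 25, .mk 80 19 4 48, .mk 116 8 4 34, .mk 75 6 4 6, .mk 88 6 4 3, 527, 12, 8, 12⟩ (by decide +kernel)

theorem lf203 : Cov [kP3]
    ⟨16380, 3, 16384⟩ ⟨1, 1, 4⟩ ⟨5, 1, 12⟩ :=
  .leafU ⟨.mk 78 5 4 7, .mk 72 7 4 25, .mk 80 19 4 48, .mk 85 8 4 38, .mk 77 6 4 7, .mk 93 6 4 3, 527, 12, 8, 12⟩ (by decide +kernel)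

theorem lf204 : Cov [kP4]
    ⟨65532, 3, 65536⟩ ⟨1, 1, 4⟩ ⟨2, 1, 6⟩ :=
  .leafU ⟨.mk 78 5 5 7, .mk 72 7 5 25, .mk 80 21 5 48, .mk 99 8 5 51, .mk 77 6 5 8, .mk 91 6 5 6, 639, 15, 10, 15⟩ (by decide +kernel)

theorem lf205 : Cov [kP3]
    ⟨65532, 3, 65536⟩ ⟨1, 1, 4⟩ ⟨4, 1, 12⟩ :=
  .leafU ⟨.mk 78 5 4 7, .mk 72 7 4 25, .mk 80 21 4 48, .mk 116 8 4 34, .mk 75 6 4 6, .mk 88 6 4 3, 558, 12, 8, 12⟩ (by decide +kernel)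

theorem lf206 : Cov [kP3]
    ⟨65532, 3, 65536⟩ ⟨1, 1, 4⟩ ⟨5, 1, 12⟩ :=
  .leafU ⟨.mk 78 5 4 7, .mk 72 7 4 25, .mk 80 21 4 48, .mk 85 8 4 38, .mk 77 6 4 7, .mk 93 6 4 3, 559, 12, 8, 12⟩ (by decide +kernel)

theorem lf207 : Cov [kP3, kP4]
    ⟨262140, 3, 262144⟩ ⟨1, 1, 4⟩ ⟨4, 1, 12⟩ :=
  .leafU ⟨.mk 78 5 4 7, .mk 72 7 4 25, .mk 80 23 4 48, .mk 116 8 4 34, .mk 75 6 4 6, .mk 88 6 4 3, 596, 12, 8, 12⟩ (by decide +kernel)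

theorem lf208 : Cov [kP3, kP4]
    ⟨262140, 3, 262144⟩ ⟨1, 1, 4⟩ ⟨5, 1, 12⟩ :=
  .leafU ⟨.mk 78 5 4 7, .mk 72 7 4 25, .mk 80 23 4 48, .mk 85 8 4 38, .mk 77 6 4 7, .mk 93 6 4 3, 597, 12, 8, 12⟩ (by decide +kernel)

theorem lf209 : Cov [kP3, kP4]
    ⟨1048572, 3, 1048576⟩ ⟨1, 1, 4⟩ ⟨4, 1, 12⟩ :=
  .leafU ⟨.mk 78 5 4 7, .mk 72 7 4 25, .mk 80 25 4 48, .mk 116 8 4 34, .mk 75 6 4 6, .mk 88 6 4 3, 628, 12, 8, 12⟩ (by decide +kernel)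

theorem lf210 : Cov [kP3, kP4]
    ⟨1048572, 3, 1048576⟩ ⟨1, 1, 4⟩ ⟨5, 1, 12⟩ :=
  .leafU ⟨.mk 78 5 4 7, .mk 72 7 4 25, .mk 80 25 4 48, .mk 85 8 4 38, .mk 77 6 4 7, .mk 93 6 4 3, 628, 12, 8, 12⟩ (by decide +kernel)

theorem lf211 : Cov [kP3, kP4]
    ⟨1048575, 1, 1048576⟩ ⟨1, 1, 4⟩ ⟨4, 1, 12⟩ :=
  .leafU ⟨.mk 78 5 4 7, .mk 72 7 4 25, .bot 64 26, .mk 116 8 4 34, .mk 75 6 4 6, .mk 88 6 4 3, 563, 12, 8, 12⟩ (by decide +kernel)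

theorem lf212 : Cov [kP3, kP4]
    ⟨4194300, 3, 4194304⟩ ⟨1, 1, 4⟩ ⟨5, 1, 12⟩ :=
  .leafU ⟨.mk 78 5 4 7, .mk 72 7 4 25, .mk 80 27 4 48, .mk 85 8 4 38, .mk 77 6 4 7, .mk 93 6 4 3, 660, 12, 8, 12⟩ (by decide +kernel)

theorem lf213 : Cov [kP3, kP4]
    ⟨4194303, 1, 4194304⟩ ⟨1, 1, 4⟩ ⟨5, 1, 12⟩ :=
  .leafU ⟨.mk 78 5 5 7, .mk 72 7 5 25, .bot 64 28, .mk 85 8 5 38, .mk 77 6 5 7, .mk 93 6 5 3, 681, 15, 10, 15⟩ (by decide +kernel)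

theorem lf214 : Cov [kP3, kP4]
    ⟨24, 3, 32⟩ ⟨1, 1, 2⟩ ⟨2, 1, 6⟩ :=
  .leafU ⟨.mk 110 6 5 22, .mk 71 6 5 21, .mk 104 9 5 24, .mk 86 7 5 26, .mk 121 7 5 21, .mk 86 6 5 6, 404, 15, 10, 15⟩ (by decide +kernel)

theorem lf215 : Cov [kP3, kP4]
    ⟨54, 3, 64⟩ ⟨1, 1, 2⟩ ⟨2, 1, 6⟩ :=
  .leafU ⟨.mk 113 6 5 23, .mk 71 6 5 22, .mk 68 9 5 12, .mk 83 7 5 27, .mk 121 7 5 22, .mk 87 6 5 6, 422, 15, 10, 15⟩ (by decide +kernel)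

theorem lf216 : Cov [kP3, kP4]
    ⟨57, 3, 64⟩ ⟨2, 1, 4⟩ ⟨2, 1, 6⟩ :=
  .leafU ⟨.mk 126 6 4 13, .mk 121 7 4 23, .mk 88 10 4 24, .mk 74 7 4 21, .mk 66 6 4 6, .mk 89 6 4 6, 391, 12, 8, 12⟩ (by decide +kernel)

theorem lf217 : Cov [kP3, kP4]
    ⟨57, 3, 64⟩ ⟨3, 1, 4⟩ ⟨2, 1, 6⟩ :=
  .leafU ⟨.mk 105 6 4 13, .mk 83 6 4 12, .mk 88 10 4 24, .mk 92 7 4 17, .mk 111 7 4 13, .mk 89 6 4 6, 391, 12, 8, 12⟩ (by decide +kernel)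

theorem lf218 : Cov [kP3, kP4]
    ⟨120, 3, 128⟩ ⟨2, 1, 4⟩ ⟨2, 1, 6⟩ :=
  .leafU ⟨.mk 64 5 4 7, .mk 120 7 4 24, .mk 104 11 4 24, .mk 72 7 4 21, .mk 66 6 4 6, .mk 89 6 4 6, 406, 12, 8, 12⟩ (by decide +kernel)

theorem lf219 : Cov [kP3, kP4]
    ⟨120, 3, 128⟩ ⟨3, 1, 4⟩ ⟨2, 1, 6⟩ :=
  .leafU ⟨.mk 106 6 4 12, .mk 83 6 4 12, .mk 104 11 4 24, .mk 91 7 4 17, .mk 110 7 4 13, .mk 89 6 4 6, 406, 12, 8, 12⟩ (by decide +kernel)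

theorem lf220 : Cov [kP3, kP4]
    ⟨123, 3, 128⟩ ⟨2, 1, 4⟩ ⟨2, 1, 6⟩ :=
  .leafU ⟨.mk 65 5 5 7, .mk 120 7 5 24, .mk 112 12 5 48, .mk 71 7 5 22, .mk 66 6 5 6, .mk 90 6 5 6, 458, 15, 10, 15⟩ (by decide +kernel)

theorem lf221 : Cov [kP4]
    ⟨123, 3, 128⟩ ⟨3, 1, 4⟩ ⟨2, 1, 6⟩ :=
  .leafU ⟨.mk 107 6 5 13, .mk 84 6 5 13, .mk 112 12 5 48, .mk 90 7 5 18, .mk 110 7 5 14, .mk 90 6 5 6, 458, 15, 10, 15⟩ (by decide +kernel)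

theorem lf222 : Cov [kP3]
    ⟨246, 3, 256⟩ ⟨3, 1, 4⟩ ⟨2, 1, 6⟩ :=
  .leafU ⟨.mk 107 6 5 13, .mk 83 6 5 13, .mk 68 11 5 12, .mk 91 7 5 18, .mk 110 7 5 14, .mk 90 6 5 6, 465, 15, 10, 15⟩ (by decide +kernel)

theorem lf223 : Cov [kP3]
    ⟨249, 3, 256⟩ ⟨3, 1, 4⟩ ⟨2, 1, 6⟩ :=
  .leafU ⟨.mk 107 6 5 13, .mk 84 6 5 13, .mk 88 12 5 24, .mk 90 7 5 18, .mk 110 7 5 14, .mk 90 6 5 6, 469, 15, 10, 15⟩ (by decide +kernel)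

theorem lf224 : Cov [kP3, kP4]
    ⟨504, 3, 512⟩ ⟨2, 1, 4⟩ ⟨2, 1, 6⟩ :=
  .leafU ⟨.mk 66 5 5 7, .mk 120 7 5 24, .mk 104 13 5 24, .mk 70 7 5 22, .mk 66 6 5 6, .mk 90 6 5 6, 494, 15, 10, 15⟩ (by decide +kernel)

theorem lf225 : Cov [kP3, kP4]
    ⟨504, 3, 512⟩ ⟨3, 1, 4⟩ ⟨2, 1, 6⟩ :=
  .leafU ⟨.mk 107 6 4 13, .mk 84 6 4 13, .mk 104 13 4 24, .mk 90 7 4 18, .mk 110 7 4 14, .mk 90 6 4 6, 438, 12, 8, 12⟩ (by decide +kernel)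

theorem lf226 : Cov [kP3, kP4]
    ⟨507, 3, 512⟩ ⟨2, 1, 4⟩ ⟨2, 1, 6⟩ :=
  .leafU ⟨.mk 66 5 4 7, .mk 120 7 4 24, .mk 112 14 4 48, .mk 70 7 4 22, .mk 66 6 4 6, .mk 91 6 4 6, 441, 12, 8, 12⟩ (by decide +kernel)

theorem lf227 : Cov [kP3, kP4]
    ⟨507, 3, 512⟩ ⟨3, 1, 4⟩ ⟨2, 1, 6⟩ :=
  .leafU ⟨.mk 108 6 4 13, .mk 84 6 4 13, .mk 112 14 4 48, .mk 90 7 4 18, .mk 109 7 4 14, .mk 91 6 4 6, 441, 12, 8, 12⟩ (by decide +kernel)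

theorem lf228 : Cov [kP3, kP4]
    ⟨2040, 3, 2048⟩ ⟨1, 1, 2⟩ ⟨2, 1, 6⟩ :=
  .leafU ⟨.mk 120 6 5 25, .mk 72 6 5 24, .mk 104 15 5 24, .mk 77 7 5 30, .mk 120 7 5 24, .mk 91 6 5 6, 523, 15, 10, 15⟩ (by decide +kernel)

theorem lf229 : Cov [kP3, kP4]
    ⟨2043, 3, 2048⟩ ⟨1, 1, 2⟩ ⟨2, 1, 6⟩ :=
  .leafU ⟨.mk 120 6 5 25, .mk 72 6 5 24, .mk 112 16 5 48, .mk 77 7 5 30, .mk 120 7 5 24, .mk 91 6 5 6, 528, 15, 10, 15⟩ (by decide +kernel)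

theorem lf230 : Cov [kP3, kP4]
    ⟨4092, 3, 4096⟩ ⟨1, 1, 2⟩ ⟨2, 1, 6⟩ :=
  .leafU ⟨.mk 120 6 5 25, .mk 72 6 5 24, .mk 80 17 5 48, .mk 77 7 5 30, .mk 120 7 5 24, .mk 91 6 5 6, 549, 15, 10, 15⟩ (by decide +kernel)

theorem lf231 : Cov [kP3, kP4]
    ⟨16380, 3, 16384⟩ ⟨1, 1, 2⟩ ⟨2, 1, 6⟩ :=
  .leafU ⟨.mk 120 6 5 25, .mk 72 6 5 24, .mk 80 19 5 48, .mk 77 7 5 30, .mk 120 7 5 24, .mk 91 6 5 6, 588, 15, 10, 15⟩ (by decide +kernel)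

theorem lf232 : Cov [kP3, kP4]
    ⟨65532, 3, 65536⟩ ⟨1, 1, 2⟩ ⟨2, 1, 6⟩ :=
  .leafU ⟨.mk 120 6 5 25, .mk 72 6 5 24, .mk 80 21 5 48, .mk 77 7 5 30, .mk 120 7 5 24, .mk 91 6 5 6, 628, 15, 10, 15⟩ (by decide +kernel)

theorem lf233 : Cov [kP3, kP4]
    ⟨262140, 3, 262144⟩ ⟨1, 1, 2⟩ ⟨2, 1, 6⟩ :=
  .leafU ⟨.mk 120 6 5 25, .mk 72 6 5 24, .mk 80 23 5 48, .mk 77 7 5 30, .mk 120 7 5 24, .mk 91 6 5 6, 667, 15, 10, 15⟩ (by decide +kernel)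

theorem lf234 : Cov [kP3, kP4]
    ⟨1048572, 3, 1048576⟩ ⟨1, 1, 2⟩ ⟨2, 1, 6⟩ :=
  .leafU ⟨.mk 120 6 5 25, .mk 72 6 5 24, .mk 80 25 5 48, .mk 77 7 5 30, .mk 120 7 5 24, .mk 91 6 5 6, 707, 15, 10, 15⟩ (by decide +kernel)

theorem lf235 : Cov [kP3, kP4]
    ⟨4194300, 3, 4194304⟩ ⟨1, 1, 2⟩ ⟨2, 1, 6⟩ :=
  .leafU ⟨.mk 120 6 5 25, .mk 72 6 5 24, .mk 80 27 5 48, .mk 77 7 5 30, .mk 120 7 5 24, .mk 91 6 5 6, 746, 15, 10, 15⟩ (by decide +kernel)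

theorem lf236 : Cov [kP4]
    ⟨16777212, 3, 16777216⟩ ⟨1, 1, 2⟩ ⟨2, 1, 6⟩ :=
  .leafU ⟨.mk 120 6 5 25, .mk 72 6 5 24, .mk 80 29 5 48, .mk 77 7 5 30, .mk 120 7 5 24, .mk 91 6 5 6, 785, 15, 10, 15⟩ (by decide +kernel)

theorem lf237 : Cov [kP3]
    ⟨16777212, 3, 16777216⟩ ⟨2, 1, 4⟩ ⟨2, 1, 6⟩ :=
  .leafU ⟨.mk 66 5 4 7, .mk 120 7 4 24, .mk 80 29 4 48, .mk 69 7 4 22, .mk 66 6 4 6, .mk 91 6 4 6, 671, 12, 8, 12⟩ (by decide +kernel)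

theorem lf238 : Cov [kP3]
    ⟨16777212, 3, 16777216⟩ ⟨3, 1, 4⟩ ⟨2, 1, 6⟩ :=
  .leafU ⟨.mk 108 6 4 13, .mk 84 6 4 13, .mk 80 29 4 48, .mk 89 7 4 18, .mk 109 7 4 14, .mk 91 6 4 6, 671, 12, 8, 12⟩ (by decide +kernel)

theorem lf239 : Cov [kP3, kP4]
    ⟨16777215, 1, 16777216⟩ ⟨2, 1, 4⟩ ⟨2, 1, 6⟩ :=
  .leafU ⟨.mk 66 5 5 7, .mk 120 7 5 24, .bot 64 30, .mk 69 7 5 22, .mk 66 6 5 6, .mk 91 6 5 6, 695, 15, 10, 15⟩ (by decide +kernel)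

theorem lf240 : Cov [kP3, kP4]
    ⟨67108860, 3, 67108864⟩ ⟨3, 1, 4⟩ ⟨2, 1, 6⟩ :=
  .leafU ⟨.mk 108 6 4 13, .mk 84 6 4 13, .mk 80 31 4 48, .mk 89 7 4 18, .mk 109 7 4 14, .mk 91 6 4 6, 709, 12, 8, 12⟩ (by decide +kernel)

theorem lf241 : Cov [kP3, kP4]
    ⟨67108863, 1, 67108864⟩ ⟨3, 1, 4⟩ ⟨2, 1, 6⟩ :=
  .leafU ⟨.mk 108 6 5 13, .mk 84 6 5 13, .bot 64 32, .mk 89 7 5 18, .mk 109 7 5 14, .mk 91 6 5 6, 725, 15, 10, 15⟩ (by decide +kernel)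

end Crest.Agent.R163.Bx.BxO
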