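import Crest.Agent.R163.BxO0
import Crest.Agent.R163.BxO1
import Crest.Agent.R163.BxO2
import Crest.Agent.R163.BxO3

/-! # Row 163: certificate tree -/

set_option autoImplicit false
set_option Elab.async false

namespace Crest.Agent.R163.Bx.BxO

open Kr

theorem nd0 : Cov [kP4]
    ⟨4, 1, 8⟩ ⟨0, 1, 4⟩ ⟨2, 1, 6⟩ :=
  .sy lf1 lf2 (by decide +kernel)

theorem nd1 : Cov [kP3, kP4]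
    ⟨4, 1, 8⟩ ⟨0, 1, 4⟩ ⟨2, 1, 6⟩ :=
  .un lf0 nd0 (by simp only [List.mem_cons, List.not_mem_nil, or_false]; tauto)

theorem nd2 : Cov [kP3, kP4]
    ⟨5, 1, 8⟩ ⟨1, 3, 16⟩ ⟨2, 1, 6⟩ :=
  .sz lf4 lf5 (by decide +kernel)

theorem nd3 : Cov [kP3, kP4]
    ⟨5, 1, 8⟩ ⟨0, 1, 4⟩ ⟨2, 1, 6⟩ :=
  .sy lf3 nd2 (by decide +kernel)

theorem nd4 : Cov [kP3, kP4]
    ⟨2, 1, 4⟩ ⟨0, 1, 4⟩ ⟨2, 1, 6⟩ :=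
  .sx nd1 nd3 (by decide +kernel)

theorem nd5 : Cov [kP3, kP4]
    ⟨2, 1, 4⟩ ⟨1, 1, 4⟩ ⟨2, 1, 6⟩ :=
  .sx lf6 lf7 (by decide +kernel)

theorem nd6 : Cov [kP3, kP4]
    ⟨2, 1, 4⟩ ⟨0, 1, 2⟩ ⟨2, 1, 6⟩ :=
  .sy nd4 nd5 (by decide +kernel)

theorem nd7 : Cov [kP3, kP4]
    ⟨2, 1, 4⟩ ⟨1, 1, 2⟩ ⟨2, 1, 6⟩ :=
  .sx lf8 lf9 (by decide +kernel)

theorem nd8 : Cov [kP3, kP4]
    ⟨2, 1, 4⟩ ⟨0, 1, 1⟩ ⟨2, 1, 6⟩ :=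
  .sy nd6 nd7 (by decide +kernel)

theorem nd9 : Cov [kP3, kP4]
    ⟨12, 3, 16⟩ ⟨0, 1, 16⟩ ⟨4, 1, 12⟩ :=
  .sx lf10 lf11 (by decide +kernel)

theorem nd10 : Cov [kP3, kP4]
    ⟨57, 3, 64⟩ ⟨0, 1, 16⟩ ⟨5, 1, 12⟩ :=
  .sz lf14 lf15 (by decide +kernel)

theorem nd11 : Cov [kP3, kP4]
    ⟨27, 3, 32⟩ ⟨0, 1, 16⟩ ⟨5, 1, 12⟩ :=
  .sx lf13 nd10 (by decide +kernel)

theorem nd12 : Cov [kP3, kP4]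
    ⟨12, 3, 16⟩ ⟨0, 1, 16⟩ ⟨5, 1, 12⟩ :=
  .sx lf12 nd11 (by decide +kernel)

theorem nd13 : Cov [kP3, kP4]
    ⟨12, 3, 16⟩ ⟨0, 1, 16⟩ ⟨2, 1, 6⟩ :=
  .sz nd9 nd12 (by decide +kernel)

theorem nd14 : Cov [kP3, kP4]
    ⟨24, 3, 32⟩ ⟨1, 3, 16⟩ ⟨2, 1, 6⟩ :=
  .sz lf16 lf17 (by decide +kernel)

theorem nd15 : Cov [kP3, kP4]
    ⟨27, 3, 32⟩ ⟨2, 3, 32⟩ ⟨5, 1, 12⟩ :=
  .sx lf19 lf20 (by decide +kernel)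

theorem nd16 : Cov [kP3, kP4]
    ⟨27, 3, 32⟩ ⟨1, 3, 16⟩ ⟨5, 1, 12⟩ :=
  .sy nd15 lf21 (by decide +kernel)

theorem nd17 : Cov [kP3, kP4]
    ⟨27, 3, 32⟩ ⟨1, 3, 16⟩ ⟨2, 1, 6⟩ :=
  .sz lf18 nd16 (by decide +kernel)

theorem nd18 : Cov [kP3, kP4]
    ⟨12, 3, 16⟩ ⟨1, 3, 16⟩ ⟨2, 1, 6⟩ :=
  .sx nd14 nd17 (by decide +kernel)

theorem nd19 : Cov [kP3, kP4]
    ⟨12, 3, 16⟩ ⟨0, 1, 4⟩ ⟨2, 1, 6⟩ :=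
  .sy nd13 nd18 (by decide +kernel)

theorem nd20 : Cov [kP3, kP4]
    ⟨60, 3, 64⟩ ⟨0, 1, 64⟩ ⟨23, 1, 48⟩ :=
  .sx lf25 lf26 (by decide +kernel)

theorem nd21 : Cov [kP3, kP4]
    ⟨60, 3, 64⟩ ⟨0, 1, 64⟩ ⟨11, 1, 24⟩ :=
  .sz lf24 nd20 (by decide +kernel)

theorem nd22 : Cov [kP3, kP4]
    ⟨60, 3, 64⟩ ⟨0, 1, 64⟩ ⟨5, 1, 12⟩ :=
  .sz lf23 nd21 (by decide +kernel)

theorem nd23 : Cov [kP3, kP4]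
    ⟨60, 3, 64⟩ ⟨0, 1, 64⟩ ⟨2, 1, 6⟩ :=
  .sz lf22 nd22 (by decide +kernel)

theorem nd24 : Cov [kP3, kP4]
    ⟨123, 3, 128⟩ ⟨1, 3, 64⟩ ⟨11, 1, 24⟩ :=
  .sz lf30 lf31 (by decide +kernel)

theorem nd25 : Cov [kP3, kP4]
    ⟨60, 3, 64⟩ ⟨1, 3, 64⟩ ⟨11, 1, 24⟩ :=
  .sx lf29 nd24 (by decide +kernel)

theorem nd26 : Cov [kP3, kP4]
    ⟨60, 3, 64⟩ ⟨1, 3, 64⟩ ⟨5, 1, 12⟩ :=
  .sz lf28 nd25 (by decide +kernel)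

theorem nd27 : Cov [kP3, kP4]
    ⟨60, 3, 64⟩ ⟨1, 3, 64⟩ ⟨2, 1, 6⟩ :=
  .sz lf27 nd26 (by decide +kernel)

theorem nd28 : Cov [kP3, kP4]
    ⟨60, 3, 64⟩ ⟨0, 1, 16⟩ ⟨2, 1, 6⟩ :=
  .sy nd23 nd27 (by decide +kernel)

theorem nd29 : Cov [kP3, kP4]
    ⟨252, 3, 256⟩ ⟨0, 1, 64⟩ ⟨4, 1, 12⟩ :=
  .sy lf32 lf33 (by decide +kernel)

theorem nd30 : Cov [kP3, kP4]
    ⟨1020, 3, 1024⟩ ⟨0, 1, 256⟩ ⟨4, 1, 12⟩ :=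
  .sy lf34 lf35 (by decide +kernel)

theorem nd31 : Cov [kP3, kP4]
    ⟨4095, 1, 4096⟩ ⟨0, 1, 1024⟩ ⟨4, 1, 12⟩ :=
  .sy lf37 lf38 (by decide +kernel)

theorem nd32 : Cov [kP3, kP4]
    ⟨1023, 1, 1024⟩ ⟨0, 1, 1024⟩ ⟨4, 1, 12⟩ :=
  .sx lf36 nd31 (by decide +kernel)

theorem nd33 : Cov [kP3, kP4]
    ⟨1023, 1, 1024⟩ ⟨0, 1, 256⟩ ⟨4, 1, 12⟩ :=
  .sy nd32 lf39 (by decide +kernel)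

theorem nd34 : Cov [kP3, kP4]
    ⟨255, 1, 256⟩ ⟨0, 1, 256⟩ ⟨4, 1, 12⟩ :=
  .sx nd30 nd33 (by decide +kernel)

theorem nd35 : Cov [kP3, kP4]
    ⟨255, 1, 256⟩ ⟨1, 3, 256⟩ ⟨4, 1, 12⟩ :=
  .sx lf40 lf41 (by decide +kernel)

theorem nd36 : Cov [kP3, kP4]
    ⟨255, 1, 256⟩ ⟨0, 1, 64⟩ ⟨4, 1, 12⟩ :=
  .sy nd34 nd35 (by decide +kernel)

theorem nd37 : Cov [kP3, kP4]
    ⟨63, 1, 64⟩ ⟨0, 1, 64⟩ ⟨4, 1, 12⟩ :=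
  .sx nd29 nd36 (by decide +kernel)

theorem nd38 : Cov [kP4]
    ⟨1023, 1, 1024⟩ ⟨1, 3, 64⟩ ⟨4, 1, 12⟩ :=
  .sx lf45 lf46 (by decide +kernel)

theorem nd39 : Cov [kP3, kP4]
    ⟨1023, 1, 1024⟩ ⟨1, 3, 64⟩ ⟨4, 1, 12⟩ :=
  .un lf44 nd38 (by simp only [List.mem_cons, List.not_mem_nil, or_false]; tauto)

theorem nd40 : Cov [kP3, kP4]
    ⟨255, 1, 256⟩ ⟨1, 3, 64⟩ ⟨4, 1, 12⟩ :=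
  .sx lf43 nd39 (by decide +kernel)

theorem nd41 : Cov [kP3, kP4]
    ⟨63, 1, 64⟩ ⟨1, 3, 64⟩ ⟨4, 1, 12⟩ :=
  .sx lf42 nd40 (by decide +kernel)

theorem nd42 : Cov [kP3, kP4]
    ⟨63, 1, 64⟩ ⟨0, 1, 16⟩ ⟨4, 1, 12⟩ :=
  .sy nd37 nd41 (by decide +kernel)

theorem nd43 : Cov [kP3, kP4]
    ⟨252, 3, 256⟩ ⟨0, 1, 64⟩ ⟨10, 1, 24⟩ :=
  .sy lf47 lf48 (by decide +kernel)

theorem nd44 : Cov [kP3, kP4]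
    ⟨1020, 3, 1024⟩ ⟨0, 1, 256⟩ ⟨10, 1, 24⟩ :=
  .sy lf49 lf50 (by decide +kernel)

theorem nd45 : Cov [kP3, kP4]
    ⟨4095, 1, 4096⟩ ⟨0, 1, 1024⟩ ⟨10, 1, 24⟩ :=
  .sy lf52 lf53 (by decide +kernel)

theorem nd46 : Cov [kP3, kP4]
    ⟨1023, 1, 1024⟩ ⟨0, 1, 1024⟩ ⟨10, 1, 24⟩ :=
  .sx lf51 nd45 (by decide +kernel)

theorem nd47 : Cov [kP3, kP4]
    ⟨1023, 1, 1024⟩ ⟨0, 1, 256⟩ ⟨10, 1, 24⟩ :=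
  .sy nd46 lf54 (by decide +kernel)

theorem nd48 : Cov [kP3, kP4]
    ⟨255, 1, 256⟩ ⟨0, 1, 256⟩ ⟨10, 1, 24⟩ :=
  .sx nd44 nd47 (by decide +kernel)

theorem nd49 : Cov [kP3, kP4]
    ⟨255, 1, 256⟩ ⟨1, 3, 256⟩ ⟨10, 1, 24⟩ :=
  .sx lf55 lf56 (by decide +kernel)

theorem nd50 : Cov [kP3, kP4]
    ⟨255, 1, 256⟩ ⟨0, 1, 64⟩ ⟨10, 1, 24⟩ :=
  .sy nd48 nd49 (by decide +kernel)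

theorem nd51 : Cov [kP3, kP4]
    ⟨63, 1, 64⟩ ⟨0, 1, 64⟩ ⟨10, 1, 24⟩ :=
  .sx nd43 nd50 (by decide +kernel)

theorem nd52 : Cov [kP3, kP4]
    ⟨252, 3, 256⟩ ⟨0, 1, 256⟩ ⟨23, 1, 48⟩ :=
  .sz lf58 lf59 (by decide +kernel)

theorem nd53 : Cov [kP3, kP4]
    ⟨252, 3, 256⟩ ⟨0, 1, 256⟩ ⟨11, 1, 24⟩ :=
  .sz lf57 nd52 (by decide +kernel)

theorem nd54 : Cov [kP3, kP4]
    ⟨252, 3, 256⟩ ⟨1, 3, 256⟩ ⟨23, 1, 48⟩ :=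
  .sz lf61 lf62 (by decide +kernel)

theorem nd55 : Cov [kP3, kP4]
    ⟨252, 3, 256⟩ ⟨1, 3, 256⟩ ⟨11, 1, 24⟩ :=
  .sz lf60 nd54 (by decide +kernel)

theorem nd56 : Cov [kP3, kP4]
    ⟨252, 3, 256⟩ ⟨0, 1, 64⟩ ⟨11, 1, 24⟩ :=
  .sy nd53 nd55 (by decide +kernel)

theorem nd57 : Cov [kP3, kP4]
    ⟨1020, 3, 1024⟩ ⟨0, 1, 256⟩ ⟨22, 1, 48⟩ :=
  .sy lf63 lf64 (by decide +kernel)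

theorem nd58 : Cov [kP3, kP4]
    ⟨4095, 1, 4096⟩ ⟨0, 1, 1024⟩ ⟨22, 1, 48⟩ :=
  .sy lf66 lf67 (by decide +kernel)

theorem nd59 : Cov [kP3, kP4]
    ⟨1023, 1, 1024⟩ ⟨0, 1, 1024⟩ ⟨22, 1, 48⟩ :=
  .sx lf65 nd58 (by decide +kernel)

theorem nd60 : Cov [kP3, kP4]
    ⟨1023, 1, 1024⟩ ⟨0, 1, 256⟩ ⟨22, 1, 48⟩ :=
  .sy nd59 lf68 (by decide +kernel)

theorem nd61 : Cov [kP3, kP4]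
    ⟨255, 1, 256⟩ ⟨0, 1, 256⟩ ⟨22, 1, 48⟩ :=
  .sx nd57 nd60 (by decide +kernel)

theorem nd62 : Cov [kP3, kP4]
    ⟨255, 1, 256⟩ ⟨1, 3, 256⟩ ⟨22, 1, 48⟩ :=
  .sx lf69 lf70 (by decide +kernel)

theorem nd63 : Cov [kP3, kP4]
    ⟨255, 1, 256⟩ ⟨0, 1, 64⟩ ⟨22, 1, 48⟩ :=
  .sy nd61 nd62 (by decide +kernel)

theorem nd64 : Cov [kP3, kP4]
    ⟨1020, 3, 1024⟩ ⟨0, 1, 256⟩ ⟨92, 3, 192⟩ :=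
  .sy lf71 lf72 (by decide +kernel)

theorem nd65 : Cov [kP3, kP4]
    ⟨4095, 1, 4096⟩ ⟨0, 1, 4096⟩ ⟨92, 3, 192⟩ :=
  .sx lf74 lf75 (by decide +kernel)

theorem nd66 : Cov [kP3, kP4]
    ⟨4095, 1, 4096⟩ ⟨0, 1, 1024⟩ ⟨92, 3, 192⟩ :=
  .sy nd65 lf76 (by decide +kernel)

theorem nd67 : Cov [kP3, kP4]
    ⟨1023, 1, 1024⟩ ⟨0, 1, 1024⟩ ⟨92, 3, 192⟩ :=
  .sx lf73 nd66 (by decide +kernel)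

theorem nd68 : Cov [kP3, kP4]
    ⟨1023, 1, 1024⟩ ⟨0, 1, 256⟩ ⟨92, 3, 192⟩ :=
  .sy nd67 lf77 (by decide +kernel)

theorem nd69 : Cov [kP3, kP4]
    ⟨255, 1, 256⟩ ⟨0, 1, 256⟩ ⟨92, 3, 192⟩ :=
  .sx nd64 nd68 (by decide +kernel)

theorem nd70 : Cov [kP3, kP4]
    ⟨1020, 3, 1024⟩ ⟨0, 1, 1024⟩ ⟨95, 1, 192⟩ :=
  .sz lf78 lf79 (by decide +kernel)

theorem nd71 : Cov [kP3, kP4]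
    ⟨1020, 3, 1024⟩ ⟨1, 3, 1024⟩ ⟨95, 1, 192⟩ :=
  .sz lf80 lf81 (by decide +kernel)

theorem nd72 : Cov [kP3, kP4]
    ⟨1020, 3, 1024⟩ ⟨0, 1, 256⟩ ⟨95, 1, 192⟩ :=
  .sy nd70 nd71 (by decide +kernel)

theorem nd73 : Cov [kP3, kP4]
    ⟨4095, 1, 4096⟩ ⟨0, 1, 1024⟩ ⟨380, 3, 768⟩ :=
  .sy lf83 lf84 (by decide +kernel)

theorem nd74 : Cov [kP3, kP4]
    ⟨1023, 1, 1024⟩ ⟨0, 1, 1024⟩ ⟨380, 3, 768⟩ :=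
  .sx lf82 nd73 (by decide +kernel)

theorem nd75 : Cov [kP3, kP4]
    ⟨4092, 3, 4096⟩ ⟨0, 1, 4096⟩ ⟨383, 1, 768⟩ :=
  .sz lf85 lf86 (by decide +kernel)

theorem nd76 : Cov [kP3, kP4]
    ⟨4092, 3, 4096⟩ ⟨1, 3, 4096⟩ ⟨383, 1, 768⟩ :=
  .sz lf87 lf88 (by decide +kernel)

theorem nd77 : Cov [kP3, kP4]
    ⟨4092, 3, 4096⟩ ⟨0, 1, 1024⟩ ⟨383, 1, 768⟩ :=
  .sy nd75 nd76 (by decide +kernel)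

theorem nd78 : Cov [kP4]
    ⟨4095, 1, 4096⟩ ⟨0, 1, 4096⟩ ⟨1532, 3, 3072⟩ :=
  .sx lf90 lf91 (by decide +kernel)

theorem nd79 : Cov [kP3, kP4]
    ⟨4095, 1, 4096⟩ ⟨0, 1, 4096⟩ ⟨1532, 3, 3072⟩ :=
  .un lf89 nd78 (by simp only [List.mem_cons, List.not_mem_nil, or_false]; tauto)

theorem nd80 : Cov [kP3, kP4]
    ⟨16380, 3, 16384⟩ ⟨0, 1, 16384⟩ ⟨1535, 1, 3072⟩ :=
  .sz lf92 lf93 (by decide +kernel)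

theorem nd81 : Cov [kP3, kP4]
    ⟨16380, 3, 16384⟩ ⟨1, 3, 16384⟩ ⟨1535, 1, 3072⟩ :=
  .sz lf94 lf95 (by decide +kernel)

theorem nd82 : Cov [kP3, kP4]
    ⟨16380, 3, 16384⟩ ⟨0, 1, 4096⟩ ⟨1535, 1, 3072⟩ :=
  .sy nd80 nd81 (by decide +kernel)

theorem nd83 : Cov [kP3, kP4]
    ⟨65532, 3, 65536⟩ ⟨0, 1, 65536⟩ ⟨6143, 1, 12288⟩ :=
  .sz lf97 lf98 (by decide +kernel)

theorem nd84 : Cov [kP3, kP4]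
    ⟨65532, 3, 65536⟩ ⟨1, 3, 65536⟩ ⟨6143, 1, 12288⟩ :=
  .sz lf99 lf100 (by decide +kernel)

theorem nd85 : Cov [kP3, kP4]
    ⟨65532, 3, 65536⟩ ⟨0, 1, 16384⟩ ⟨6143, 1, 12288⟩ :=
  .sy nd83 nd84 (by decide +kernel)

theorem nd86 : Cov [kP3, kP4]
    ⟨262140, 3, 262144⟩ ⟨0, 1, 262144⟩ ⟨24575, 1, 49152⟩ :=
  .sz lf102 lf103 (by decide +kernel)

theorem nd87 : Cov [kP3, kP4]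
    ⟨262140, 3, 262144⟩ ⟨1, 3, 262144⟩ ⟨24575, 1, 49152⟩ :=
  .sz lf104 lf105 (by decide +kernel)

theorem nd88 : Cov [kP3, kP4]
    ⟨262140, 3, 262144⟩ ⟨0, 1, 65536⟩ ⟨24575, 1, 49152⟩ :=
  .sy nd86 nd87 (by decide +kernel)

theorem nd89 : Cov [kP4]
    ⟨1048572, 3, 1048576⟩ ⟨0, 1, 262144⟩ ⟨98303, 1, 196608⟩ :=
  .sy lf108 lf109 (by decide +kernel)

theorem nd90 : Cov [kP4]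
    ⟨262143, 1, 262144⟩ ⟨0, 1, 262144⟩ ⟨98303, 1, 196608⟩ :=
  .sx nd89 lf110 (by decide +kernel)

theorem nd91 : Cov [kP3, kP4]
    ⟨262143, 1, 262144⟩ ⟨0, 1, 262144⟩ ⟨98303, 1, 196608⟩ :=
  .un lf107 nd90 (by simp only [List.mem_cons, List.not_mem_nil, or_false]; tauto)

theorem nd92 : Cov [kP3, kP4]
    ⟨262143, 1, 262144⟩ ⟨0, 1, 262144⟩ ⟨24575, 1, 49152⟩ :=
  .sz lf106 nd91 (by decide +kernel)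

theorem nd93 : Cov [kP4]
    ⟨262143, 1, 262144⟩ ⟨1, 3, 262144⟩ ⟨98303, 1, 196608⟩ :=
  .sx lf113 lf114 (by decide +kernel)

theorem nd94 : Cov [kP3, kP4]
    ⟨262143, 1, 262144⟩ ⟨1, 3, 262144⟩ ⟨98303, 1, 196608⟩ :=
  .un lf112 nd93 (by simp only [List.mem_cons, List.not_mem_nil, or_false]; tauto)

theorem nd95 : Cov [kP3, kP4]
    ⟨262143, 1, 262144⟩ ⟨1, 3, 262144⟩ ⟨24575, 1, 49152⟩ :=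
  .sz lf111 nd94 (by decide +kernel)

theorem nd96 : Cov [kP3, kP4]
    ⟨262143, 1, 262144⟩ ⟨0, 1, 65536⟩ ⟨24575, 1, 49152⟩ :=
  .sy nd92 nd95 (by decide +kernel)

theorem nd97 : Cov [kP3, kP4]
    ⟨65535, 1, 65536⟩ ⟨0, 1, 65536⟩ ⟨24575, 1, 49152⟩ :=
  .sx nd88 nd96 (by decide +kernel)

theorem nd98 : Cov [kP3, kP4]
    ⟨65535, 1, 65536⟩ ⟨0, 1, 65536⟩ ⟨6143, 1, 12288⟩ :=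
  .sz lf101 nd97 (by decide +kernel)

theorem nd99 : Cov [kP3, kP4]
    ⟨65535, 1, 65536⟩ ⟨1, 3, 65536⟩ ⟨24575, 1, 49152⟩ :=
  .sx lf116 lf117 (by decide +kernel)

theorem nd100 : Cov [kP3, kP4]
    ⟨65535, 1, 65536⟩ ⟨1, 3, 65536⟩ ⟨6143, 1, 12288⟩ :=
  .sz lf115 nd99 (by decide +kernel)

theorem nd101 : Cov [kP3, kP4]
    ⟨65535, 1, 65536⟩ ⟨0, 1, 16384⟩ ⟨6143, 1, 12288⟩ :=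
  .sy nd98 nd100 (by decide +kernel)

theorem nd102 : Cov [kP3, kP4]
    ⟨16383, 1, 16384⟩ ⟨0, 1, 16384⟩ ⟨6143, 1, 12288⟩ :=
  .sx nd85 nd101 (by decide +kernel)

theorem nd103 : Cov [kP3, kP4]
    ⟨16383, 1, 16384⟩ ⟨0, 1, 16384⟩ ⟨1535, 1, 3072⟩ :=
  .sz lf96 nd102 (by decide +kernel)

theorem nd104 : Cov [kP3, kP4]
    ⟨16383, 1, 16384⟩ ⟨1, 3, 16384⟩ ⟨6143, 1, 12288⟩ :=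
  .sx lf119 lf120 (by decide +kernel)

theorem nd105 : Cov [kP3, kP4]
    ⟨16383, 1, 16384⟩ ⟨1, 3, 16384⟩ ⟨1535, 1, 3072⟩ :=
  .sz lf118 nd104 (by decide +kernel)

theorem nd106 : Cov [kP3, kP4]
    ⟨16383, 1, 16384⟩ ⟨0, 1, 4096⟩ ⟨1535, 1, 3072⟩ :=
  .sy nd103 nd105 (by decide +kernel)

theorem nd107 : Cov [kP3, kP4]
    ⟨4095, 1, 4096⟩ ⟨0, 1, 4096⟩ ⟨1535, 1, 3072⟩ :=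
  .sx nd82 nd106 (by decide +kernel)

theorem nd108 : Cov [kP3, kP4]
    ⟨4095, 1, 4096⟩ ⟨0, 1, 4096⟩ ⟨383, 1, 768⟩ :=
  .sz nd79 nd107 (by decide +kernel)

theorem nd109 : Cov [kP3, kP4]
    ⟨4095, 1, 4096⟩ ⟨1, 3, 4096⟩ ⟨1535, 1, 3072⟩ :=
  .sx lf122 lf123 (by decide +kernel)

theorem nd110 : Cov [kP3, kP4]
    ⟨4095, 1, 4096⟩ ⟨1, 3, 4096⟩ ⟨383, 1, 768⟩ :=
  .sz lf121 nd109 (by decide +kernel)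

theorem nd111 : Cov [kP3, kP4]
    ⟨4095, 1, 4096⟩ ⟨0, 1, 1024⟩ ⟨383, 1, 768⟩ :=
  .sy nd108 nd110 (by decide +kernel)

theorem nd112 : Cov [kP3, kP4]
    ⟨1023, 1, 1024⟩ ⟨0, 1, 1024⟩ ⟨383, 1, 768⟩ :=
  .sx nd77 nd111 (by decide +kernel)

theorem nd113 : Cov [kP3, kP4]
    ⟨1023, 1, 1024⟩ ⟨0, 1, 1024⟩ ⟨95, 1, 192⟩ :=
  .sz nd74 nd112 (by decide +kernel)

theorem nd114 : Cov [kP3, kP4]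
    ⟨1023, 1, 1024⟩ ⟨1, 3, 1024⟩ ⟨383, 1, 768⟩ :=
  .sx lf125 lf126 (by decide +kernel)

theorem nd115 : Cov [kP3, kP4]
    ⟨1023, 1, 1024⟩ ⟨1, 3, 1024⟩ ⟨95, 1, 192⟩ :=
  .sz lf124 nd114 (by decide +kernel)

theorem nd116 : Cov [kP3, kP4]
    ⟨1023, 1, 1024⟩ ⟨0, 1, 256⟩ ⟨95, 1, 192⟩ :=
  .sy nd113 nd115 (by decide +kernel)

theorem nd117 : Cov [kP3, kP4]
    ⟨255, 1, 256⟩ ⟨0, 1, 256⟩ ⟨95, 1, 192⟩ :=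
  .sx nd72 nd116 (by decide +kernel)

theorem nd118 : Cov [kP3, kP4]
    ⟨255, 1, 256⟩ ⟨0, 1, 256⟩ ⟨23, 1, 48⟩ :=
  .sz nd69 nd117 (by decide +kernel)

theorem nd119 : Cov [kP3, kP4]
    ⟨255, 1, 256⟩ ⟨1, 3, 256⟩ ⟨92, 3, 192⟩ :=
  .sx lf127 lf128 (by decide +kernel)

theorem nd120 : Cov [kP4]
    ⟨4095, 1, 4096⟩ ⟨1, 3, 256⟩ ⟨95, 1, 192⟩ :=
  .sz lf132 lf133 (by decide +kernel)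

theorem nd121 : Cov [kP3, kP4]
    ⟨4095, 1, 4096⟩ ⟨1, 3, 256⟩ ⟨95, 1, 192⟩ :=
  .un lf131 nd120 (by simp only [List.mem_cons, List.not_mem_nil, or_false]; tauto)

theorem nd122 : Cov [kP3, kP4]
    ⟨1023, 1, 1024⟩ ⟨1, 3, 256⟩ ⟨95, 1, 192⟩ :=
  .sx lf130 nd121 (by decide +kernel)

theorem nd123 : Cov [kP3, kP4]
    ⟨255, 1, 256⟩ ⟨1, 3, 256⟩ ⟨95, 1, 192⟩ :=
  .sx lf129 nd122 (by decide +kernel)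

theorem nd124 : Cov [kP3, kP4]
    ⟨255, 1, 256⟩ ⟨1, 3, 256⟩ ⟨23, 1, 48⟩ :=
  .sz nd119 nd123 (by decide +kernel)

theorem nd125 : Cov [kP3, kP4]
    ⟨255, 1, 256⟩ ⟨0, 1, 64⟩ ⟨23, 1, 48⟩ :=
  .sy nd118 nd124 (by decide +kernel)

theorem nd126 : Cov [kP3, kP4]
    ⟨255, 1, 256⟩ ⟨0, 1, 64⟩ ⟨11, 1, 24⟩ :=
  .sz nd63 nd125 (by decide +kernel)

theorem nd127 : Cov [kP3, kP4]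
    ⟨63, 1, 64⟩ ⟨0, 1, 64⟩ ⟨11, 1, 24⟩ :=
  .sx nd56 nd126 (by decide +kernel)

theorem nd128 : Cov [kP3, kP4]
    ⟨63, 1, 64⟩ ⟨0, 1, 64⟩ ⟨5, 1, 12⟩ :=
  .sz nd51 nd127 (by decide +kernel)

theorem nd129 : Cov [kP4]
    ⟨1023, 1, 1024⟩ ⟨1, 3, 64⟩ ⟨10, 1, 24⟩ :=
  .sx lf137 lf138 (by decide +kernel)

theorem nd130 : Cov [kP3, kP4]
    ⟨1023, 1, 1024⟩ ⟨1, 3, 64⟩ ⟨10, 1, 24⟩ :=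
  .un lf136 nd129 (by simp only [List.mem_cons, List.not_mem_nil, or_false]; tauto)

theorem nd131 : Cov [kP3, kP4]
    ⟨255, 1, 256⟩ ⟨1, 3, 64⟩ ⟨10, 1, 24⟩ :=
  .sx lf135 nd130 (by decide +kernel)

theorem nd132 : Cov [kP3, kP4]
    ⟨63, 1, 64⟩ ⟨1, 3, 64⟩ ⟨10, 1, 24⟩ :=
  .sx lf134 nd131 (by decide +kernel)

theorem nd133 : Cov [kP4]
    ⟨252, 3, 256⟩ ⟨1, 3, 64⟩ ⟨23, 1, 48⟩ :=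
  .sy lf141 lf142 (by decide +kernel)

theorem nd134 : Cov [kP3, kP4]
    ⟨252, 3, 256⟩ ⟨1, 3, 64⟩ ⟨23, 1, 48⟩ :=
  .un lf140 nd133 (by simp only [List.mem_cons, List.not_mem_nil, or_false]; tauto)

theorem nd135 : Cov [kP3, kP4]
    ⟨252, 3, 256⟩ ⟨1, 3, 64⟩ ⟨11, 1, 24⟩ :=
  .sz lf139 nd134 (by decide +kernel)

theorem nd136 : Cov [kP4]
    ⟨1023, 1, 1024⟩ ⟨1, 3, 64⟩ ⟨22, 1, 48⟩ :=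
  .sx lf145 lf146 (by decide +kernel)

theorem nd137 : Cov [kP3, kP4]
    ⟨1023, 1, 1024⟩ ⟨1, 3, 64⟩ ⟨22, 1, 48⟩ :=
  .un lf144 nd136 (by simp only [List.mem_cons, List.not_mem_nil, or_false]; tauto)

theorem nd138 : Cov [kP3, kP4]
    ⟨255, 1, 256⟩ ⟨1, 3, 64⟩ ⟨22, 1, 48⟩ :=
  .sx lf143 nd137 (by decide +kernel)

theorem nd139 : Cov [kP3, kP4]
    ⟨1020, 3, 1024⟩ ⟨1, 3, 64⟩ ⟨23, 1, 48⟩ :=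
  .sz lf147 lf148 (by decide +kernel)

theorem nd140 : Cov [kP3, kP4]
    ⟨1023, 1, 1024⟩ ⟨1, 3, 64⟩ ⟨92, 3, 192⟩ :=
  .sx lf149 lf150 (by decide +kernel)

theorem nd141 : Cov [kP4]
    ⟨4095, 1, 4096⟩ ⟨1, 3, 64⟩ ⟨95, 1, 192⟩ :=
  .sy lf153 lf154 (by decide +kernel)

theorem nd142 : Cov [kP3, kP4]
    ⟨4095, 1, 4096⟩ ⟨1, 3, 64⟩ ⟨95, 1, 192⟩ :=
  .un lf152 nd141 (by simp only [List.mem_cons, List.not_mem_nil, or_false]; tauto)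

theorem nd143 : Cov [kP3, kP4]
    ⟨1023, 1, 1024⟩ ⟨1, 3, 64⟩ ⟨95, 1, 192⟩ :=
  .sx lf151 nd142 (by decide +kernel)

theorem nd144 : Cov [kP3, kP4]
    ⟨1023, 1, 1024⟩ ⟨1, 3, 64⟩ ⟨23, 1, 48⟩ :=
  .sz nd140 nd143 (by decide +kernel)

theorem nd145 : Cov [kP3, kP4]
    ⟨255, 1, 256⟩ ⟨1, 3, 64⟩ ⟨23, 1, 48⟩ :=
  .sx nd139 nd144 (by decide +kernel)

theorem nd146 : Cov [kP3, kP4]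
    ⟨255, 1, 256⟩ ⟨1, 3, 64⟩ ⟨11, 1, 24⟩ :=
  .sz nd138 nd145 (by decide +kernel)

theorem nd147 : Cov [kP3, kP4]
    ⟨63, 1, 64⟩ ⟨1, 3, 64⟩ ⟨11, 1, 24⟩ :=
  .sx nd135 nd146 (by decide +kernel)

theorem nd148 : Cov [kP3, kP4]
    ⟨63, 1, 64⟩ ⟨1, 3, 64⟩ ⟨5, 1, 12⟩ :=
  .sz nd132 nd147 (by decide +kernel)

theorem nd149 : Cov [kP3, kP4]
    ⟨63, 1, 64⟩ ⟨0, 1, 16⟩ ⟨5, 1, 12⟩ :=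
  .sy nd128 nd148 (by decide +kernel)

theorem nd150 : Cov [kP3, kP4]
    ⟨63, 1, 64⟩ ⟨0, 1, 16⟩ ⟨2, 1, 6⟩ :=
  .sz nd42 nd149 (by decide +kernel)

theorem nd151 : Cov [kP3, kP4]
    ⟨15, 1, 16⟩ ⟨0, 1, 16⟩ ⟨2, 1, 6⟩ :=
  .sx nd28 nd150 (by decide +kernel)

theorem nd152 : Cov [kP4]
    ⟨16383, 1, 16384⟩ ⟨5, 3, 32⟩ ⟨4, 1, 12⟩ :=
  .sx lf162 lf163 (by decide +kernel)

theorem nd153 : Cov [kP3, kP4]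
    ⟨16383, 1, 16384⟩ ⟨5, 3, 32⟩ ⟨4, 1, 12⟩ :=
  .un lf161 nd152 (by simp only [List.mem_cons, List.not_mem_nil, or_false]; tauto)

theorem nd154 : Cov [kP3, kP4]
    ⟨16383, 1, 16384⟩ ⟨1, 3, 16⟩ ⟨4, 1, 12⟩ :=
  .sy lf160 nd153 (by decide +kernel)

theorem nd155 : Cov [kP3, kP4]
    ⟨4095, 1, 4096⟩ ⟨1, 3, 16⟩ ⟨4, 1, 12⟩ :=
  .sx lf159 nd154 (by decide +kernel)

theorem nd156 : Cov [kP3, kP4]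
    ⟨1023, 1, 1024⟩ ⟨1, 3, 16⟩ ⟨4, 1, 12⟩ :=
  .sx lf158 nd155 (by decide +kernel)

theorem nd157 : Cov [kP3, kP4]
    ⟨255, 1, 256⟩ ⟨1, 3, 16⟩ ⟨4, 1, 12⟩ :=
  .sx lf157 nd156 (by decide +kernel)

theorem nd158 : Cov [kP3, kP4]
    ⟨63, 1, 64⟩ ⟨1, 3, 16⟩ ⟨4, 1, 12⟩ :=
  .sx lf156 nd157 (by decide +kernel)

theorem nd159 : Cov [kP3, kP4]
    ⟨15, 1, 16⟩ ⟨1, 3, 16⟩ ⟨4, 1, 12⟩ :=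
  .sx lf155 nd158 (by decide +kernel)

theorem nd160 : Cov [kP3, kP4]
    ⟨60, 3, 64⟩ ⟨2, 3, 32⟩ ⟨5, 1, 12⟩ :=
  .sz lf164 lf165 (by decide +kernel)

theorem nd161 : Cov [kP3, kP4]
    ⟨60, 3, 64⟩ ⟨1, 3, 16⟩ ⟨5, 1, 12⟩ :=
  .sy nd160 lf166 (by decide +kernel)

theorem nd162 : Cov [kP3, kP4]
    ⟨252, 3, 256⟩ ⟨2, 3, 32⟩ ⟨5, 1, 12⟩ :=
  .sz lf167 lf168 (by decide +kernel)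

theorem nd163 : Cov [kP3, kP4]
    ⟨252, 3, 256⟩ ⟨1, 3, 16⟩ ⟨5, 1, 12⟩ :=
  .sy nd162 lf169 (by decide +kernel)

theorem nd164 : Cov [kP3, kP4]
    ⟨1020, 3, 1024⟩ ⟨2, 3, 32⟩ ⟨5, 1, 12⟩ :=
  .sz lf170 lf171 (by decide +kernel)

theorem nd165 : Cov [kP3, kP4]
    ⟨4092, 3, 4096⟩ ⟨2, 3, 32⟩ ⟨5, 1, 12⟩ :=
  .sz lf172 lf173 (by decide +kernel)

theorem nd166 : Cov [kP3, kP4]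
    ⟨4095, 1, 4096⟩ ⟨2, 3, 32⟩ ⟨10, 1, 24⟩ :=
  .sx lf174 lf175 (by decide +kernel)

theorem nd167 : Cov [kP4]
    ⟨16383, 1, 16384⟩ ⟨2, 3, 32⟩ ⟨11, 1, 24⟩ :=
  .sx lf178 lf179 (by decide +kernel)

theorem nd168 : Cov [kP3, kP4]
    ⟨16383, 1, 16384⟩ ⟨2, 3, 32⟩ ⟨11, 1, 24⟩ :=
  .un lf177 nd167 (by simp only [List.mem_cons, List.not_mem_nil, or_false]; tauto)

theorem nd169 : Cov [kP3, kP4]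
    ⟨4095, 1, 4096⟩ ⟨2, 3, 32⟩ ⟨11, 1, 24⟩ :=
  .sx lf176 nd168 (by decide +kernel)

theorem nd170 : Cov [kP3, kP4]
    ⟨4095, 1, 4096⟩ ⟨2, 3, 32⟩ ⟨5, 1, 12⟩ :=
  .sz nd166 nd169 (by decide +kernel)

theorem nd171 : Cov [kP3, kP4]
    ⟨1023, 1, 1024⟩ ⟨2, 3, 32⟩ ⟨5, 1, 12⟩ :=
  .sx nd165 nd170 (by decide +kernel)

theorem nd172 : Cov [kP3, kP4]
    ⟨255, 1, 256⟩ ⟨2, 3, 32⟩ ⟨5, 1, 12⟩ :=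
  .sx nd164 nd171 (by decide +kernel)

theorem nd173 : Cov [kP3, kP4]
    ⟨16383, 1, 16384⟩ ⟨5, 3, 32⟩ ⟨5, 1, 12⟩ :=
  .sx lf183 lf184 (by decide +kernel)

theorem nd174 : Cov [kP3, kP4]
    ⟨4095, 1, 4096⟩ ⟨5, 3, 32⟩ ⟨5, 1, 12⟩ :=
  .sx lf182 nd173 (by decide +kernel)

theorem nd175 : Cov [kP3, kP4]
    ⟨1023, 1, 1024⟩ ⟨5, 3, 32⟩ ⟨5, 1, 12⟩ :=
  .sx lf181 nd174 (by decide +kernel)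

theorem nd176 : Cov [kP3, kP4]
    ⟨255, 1, 256⟩ ⟨5, 3, 32⟩ ⟨5, 1, 12⟩ :=
  .sx lf180 nd175 (by decide +kernel)

theorem nd177 : Cov [kP3, kP4]
    ⟨255, 1, 256⟩ ⟨1, 3, 16⟩ ⟨5, 1, 12⟩ :=
  .sy nd172 nd176 (by decide +kernel)

theorem nd178 : Cov [kP3, kP4]
    ⟨63, 1, 64⟩ ⟨1, 3, 16⟩ ⟨5, 1, 12⟩ :=
  .sx nd163 nd177 (by decide +kernel)

theorem nd179 : Cov [kP3, kP4]
    ⟨15, 1, 16⟩ ⟨1, 3, 16⟩ ⟨5, 1, 12⟩ :=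
  .sx nd161 nd178 (by decide +kernel)

theorem nd180 : Cov [kP3, kP4]
    ⟨15, 1, 16⟩ ⟨1, 3, 16⟩ ⟨2, 1, 6⟩ :=
  .sz nd159 nd179 (by decide +kernel)

theorem nd181 : Cov [kP3, kP4]
    ⟨15, 1, 16⟩ ⟨0, 1, 4⟩ ⟨2, 1, 6⟩ :=
  .sy nd151 nd180 (by decide +kernel)

theorem nd182 : Cov [kP3, kP4]
    ⟨3, 1, 4⟩ ⟨0, 1, 4⟩ ⟨2, 1, 6⟩ :=
  .sx nd19 nd181 (by decide +kernel)

theorem nd183 : Cov [kP3, kP4]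
    ⟨57, 3, 64⟩ ⟨1, 1, 4⟩ ⟨2, 1, 6⟩ :=
  .sz lf187 lf188 (by decide +kernel)

theorem nd184 : Cov [kP3, kP4]
    ⟨27, 3, 32⟩ ⟨1, 1, 4⟩ ⟨2, 1, 6⟩ :=
  .sx lf186 nd183 (by decide +kernel)

theorem nd185 : Cov [kP3, kP4]
    ⟨12, 3, 16⟩ ⟨1, 1, 4⟩ ⟨2, 1, 6⟩ :=
  .sx lf185 nd184 (by decide +kernel)

theorem nd186 : Cov [kP3, kP4]
    ⟨120, 3, 128⟩ ⟨1, 1, 4⟩ ⟨2, 1, 6⟩ :=
  .sz lf189 lf190 (by decide +kernel)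

theorem nd187 : Cov [kP3, kP4]
    ⟨123, 3, 128⟩ ⟨1, 1, 4⟩ ⟨2, 1, 6⟩ :=
  .sz lf191 lf192 (by decide +kernel)

theorem nd188 : Cov [kP3, kP4]
    ⟨60, 3, 64⟩ ⟨1, 1, 4⟩ ⟨2, 1, 6⟩ :=
  .sx nd186 nd187 (by decide +kernel)

theorem nd189 : Cov [kP3, kP4]
    ⟨504, 3, 512⟩ ⟨1, 1, 4⟩ ⟨2, 1, 6⟩ :=
  .sz lf193 lf194 (by decide +kernel)

theorem nd190 : Cov [kP3, kP4]
    ⟨507, 3, 512⟩ ⟨1, 1, 4⟩ ⟨2, 1, 6⟩ :=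
  .sz lf195 lf196 (by decide +kernel)

theorem nd191 : Cov [kP3, kP4]
    ⟨252, 3, 256⟩ ⟨1, 1, 4⟩ ⟨2, 1, 6⟩ :=
  .sx nd189 nd190 (by decide +kernel)

theorem nd192 : Cov [kP3, kP4]
    ⟨1020, 3, 1024⟩ ⟨1, 1, 4⟩ ⟨2, 1, 6⟩ :=
  .sz lf197 lf198 (by decide +kernel)

theorem nd193 : Cov [kP3, kP4]
    ⟨4092, 3, 4096⟩ ⟨1, 1, 4⟩ ⟨2, 1, 6⟩ :=
  .sz lf199 lf200 (by decide +kernel)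

theorem nd194 : Cov [kP3]
    ⟨16380, 3, 16384⟩ ⟨1, 1, 4⟩ ⟨2, 1, 6⟩ :=
  .sz lf202 lf203 (by decide +kernel)

theorem nd195 : Cov [kP3, kP4]
    ⟨16380, 3, 16384⟩ ⟨1, 1, 4⟩ ⟨2, 1, 6⟩ :=
  .un lf201 nd194 (by simp only [List.mem_cons, List.not_mem_nil, or_false]; tauto)

theorem nd196 : Cov [kP3]
    ⟨65532, 3, 65536⟩ ⟨1, 1, 4⟩ ⟨2, 1, 6⟩ :=
  .sz lf205 lf206 (by decide +kernel)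

theorem nd197 : Cov [kP3, kP4]
    ⟨65532, 3, 65536⟩ ⟨1, 1, 4⟩ ⟨2, 1, 6⟩ :=
  .un lf204 nd196 (by simp only [List.mem_cons, List.not_mem_nil, or_false]; tauto)

theorem nd198 : Cov [kP3, kP4]
    ⟨262140, 3, 262144⟩ ⟨1, 1, 4⟩ ⟨2, 1, 6⟩ :=
  .sz lf207 lf208 (by decide +kernel)

theorem nd199 : Cov [kP3, kP4]
    ⟨1048572, 3, 1048576⟩ ⟨1, 1, 4⟩ ⟨2, 1, 6⟩ :=
  .sz lf209 lf210 (by decide +kernel)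

theorem nd200 : Cov [kP3, kP4]
    ⟨1048575, 1, 1048576⟩ ⟨1, 1, 4⟩ ⟨5, 1, 12⟩ :=
  .sx lf212 lf213 (by decide +kernel)

theorem nd201 : Cov [kP3, kP4]
    ⟨1048575, 1, 1048576⟩ ⟨1, 1, 4⟩ ⟨2, 1, 6⟩ :=
  .sz lf211 nd200 (by decide +kernel)

theorem nd202 : Cov [kP3, kP4]
    ⟨262143, 1, 262144⟩ ⟨1, 1, 4⟩ ⟨2, 1, 6⟩ :=
  .sx nd199 nd201 (by decide +kernel)

theorem nd203 : Cov [kP3, kP4]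
    ⟨65535, 1, 65536⟩ ⟨1, 1, 4⟩ ⟨2, 1, 6⟩ :=
  .sx nd198 nd202 (by decide +kernel)

theorem nd204 : Cov [kP3, kP4]
    ⟨16383, 1, 16384⟩ ⟨1, 1, 4⟩ ⟨2, 1, 6⟩ :=
  .sx nd197 nd203 (by decide +kernel)

theorem nd205 : Cov [kP3, kP4]
    ⟨4095, 1, 4096⟩ ⟨1, 1, 4⟩ ⟨2, 1, 6⟩ :=
  .sx nd195 nd204 (by decide +kernel)

theorem nd206 : Cov [kP3, kP4]
    ⟨1023, 1, 1024⟩ ⟨1, 1, 4⟩ ⟨2, 1, 6⟩ :=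
  .sx nd193 nd205 (by decide +kernel)

theorem nd207 : Cov [kP3, kP4]
    ⟨255, 1, 256⟩ ⟨1, 1, 4⟩ ⟨2, 1, 6⟩ :=
  .sx nd192 nd206 (by decide +kernel)

theorem nd208 : Cov [kP3, kP4]
    ⟨63, 1, 64⟩ ⟨1, 1, 4⟩ ⟨2, 1, 6⟩ :=
  .sx nd191 nd207 (by decide +kernel)

theorem nd209 : Cov [kP3, kP4]
    ⟨15, 1, 16⟩ ⟨1, 1, 4⟩ ⟨2, 1, 6⟩ :=
  .sx nd188 nd208 (by decide +kernel)

theorem nd210 : Cov [kP3, kP4]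
    ⟨3, 1, 4⟩ ⟨1, 1, 4⟩ ⟨2, 1, 6⟩ :=
  .sx nd185 nd209 (by decide +kernel)

theorem nd211 : Cov [kP3, kP4]
    ⟨3, 1, 4⟩ ⟨0, 1, 2⟩ ⟨2, 1, 6⟩ :=
  .sy nd182 nd210 (by decide +kernel)

theorem nd212 : Cov [kP3, kP4]
    ⟨57, 3, 64⟩ ⟨1, 1, 2⟩ ⟨2, 1, 6⟩ :=
  .sy lf216 lf217 (by decide +kernel)

theorem nd213 : Cov [kP3, kP4]
    ⟨27, 3, 32⟩ ⟨1, 1, 2⟩ ⟨2, 1, 6⟩ :=
  .sx lf215 nd212 (by decide +kernel)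

theorem nd214 : Cov [kP3, kP4]
    ⟨12, 3, 16⟩ ⟨1, 1, 2⟩ ⟨2, 1, 6⟩ :=
  .sx lf214 nd213 (by decide +kernel)

theorem nd215 : Cov [kP3, kP4]
    ⟨120, 3, 128⟩ ⟨1, 1, 2⟩ ⟨2, 1, 6⟩ :=
  .sy lf218 lf219 (by decide +kernel)

theorem nd216 : Cov [kP3]
    ⟨123, 3, 128⟩ ⟨3, 1, 4⟩ ⟨2, 1, 6⟩ :=
  .sx lf222 lf223 (by decide +kernel)

theorem nd217 : Cov [kP3, kP4]
    ⟨123, 3, 128⟩ ⟨3, 1, 4⟩ ⟨2, 1, 6⟩ :=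
  .un lf221 nd216 (by simp only [List.mem_cons, List.not_mem_nil, or_false]; tauto)

theorem nd218 : Cov [kP3, kP4]
    ⟨123, 3, 128⟩ ⟨1, 1, 2⟩ ⟨2, 1, 6⟩ :=
  .sy lf220 nd217 (by decide +kernel)

theorem nd219 : Cov [kP3, kP4]
    ⟨60, 3, 64⟩ ⟨1, 1, 2⟩ ⟨2, 1, 6⟩ :=
  .sx nd215 nd218 (by decide +kernel)

theorem nd220 : Cov [kP3, kP4]
    ⟨504, 3, 512⟩ ⟨1, 1, 2⟩ ⟨2, 1, 6⟩ :=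
  .sy lf224 lf225 (by decide +kernel)

theorem nd221 : Cov [kP3, kP4]
    ⟨507, 3, 512⟩ ⟨1, 1, 2⟩ ⟨2, 1, 6⟩ :=
  .sy lf226 lf227 (by decide +kernel)

theorem nd222 : Cov [kP3, kP4]
    ⟨252, 3, 256⟩ ⟨1, 1, 2⟩ ⟨2, 1, 6⟩ :=
  .sx nd220 nd221 (by decide +kernel)

theorem nd223 : Cov [kP3, kP4]
    ⟨1020, 3, 1024⟩ ⟨1, 1, 2⟩ ⟨2, 1, 6⟩ :=
  .sx lf228 lf229 (by decide +kernel)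

theorem nd224 : Cov [kP3]
    ⟨16777212, 3, 16777216⟩ ⟨1, 1, 2⟩ ⟨2, 1, 6⟩ :=
  .sy lf237 lf238 (by decide +kernel)

theorem nd225 : Cov [kP3, kP4]
    ⟨16777212, 3, 16777216⟩ ⟨1, 1, 2⟩ ⟨2, 1, 6⟩ :=
  .un lf236 nd224 (by simp only [List.mem_cons, List.not_mem_nil, or_false]; tauto)

theorem nd226 : Cov [kP3, kP4]
    ⟨16777215, 1, 16777216⟩ ⟨3, 1, 4⟩ ⟨2, 1, 6⟩ :=
  .sx lf240 lf241 (by decide +kernel)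

theorem nd227 : Cov [kP3, kP4]
    ⟨16777215, 1, 16777216⟩ ⟨1, 1, 2⟩ ⟨2, 1, 6⟩ :=
  .sy lf239 nd226 (by decide +kernel)

theorem nd228 : Cov [kP3, kP4]
    ⟨4194303, 1, 4194304⟩ ⟨1, 1, 2⟩ ⟨2, 1, 6⟩ :=
  .sx nd225 nd227 (by decide +kernel)

theorem nd229 : Cov [kP3, kP4]
    ⟨1048575, 1, 1048576⟩ ⟨1, 1, 2⟩ ⟨2, 1, 6⟩ :=
  .sx lf235 nd228 (by decide +kernel)

theorem nd230 : Cov [kP3, kP4]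
    ⟨262143, 1, 262144⟩ ⟨1, 1, 2⟩ ⟨2, 1, 6⟩ :=
  .sx lf234 nd229 (by decide +kernel)

theorem nd231 : Cov [kP3, kP4]
    ⟨65535, 1, 65536⟩ ⟨1, 1, 2⟩ ⟨2, 1, 6⟩ :=
  .sx lf233 nd230 (by decide +kernel)

theorem nd232 : Cov [kP3, kP4]
    ⟨16383, 1, 16384⟩ ⟨1, 1, 2⟩ ⟨2, 1, 6⟩ :=
  .sx lf232 nd231 (by decide +kernel)

theorem nd233 : Cov [kP3, kP4]
    ⟨4095, 1, 4096⟩ ⟨1, 1, 2⟩ ⟨2, 1, 6⟩ :=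
  .sx lf231 nd232 (by decide +kernel)

theorem nd234 : Cov [kP3, kP4]
    ⟨1023, 1, 1024⟩ ⟨1, 1, 2⟩ ⟨2, 1, 6⟩ :=
  .sx lf230 nd233 (by decide +kernel)

theorem nd235 : Cov [kP3, kP4]
    ⟨255, 1, 256⟩ ⟨1, 1, 2⟩ ⟨2, 1, 6⟩ :=
  .sx nd223 nd234 (by decide +kernel)

theorem nd236 : Cov [kP3, kP4]
    ⟨63, 1, 64⟩ ⟨1, 1, 2⟩ ⟨2, 1, 6⟩ :=
  .sx nd222 nd235 (by decide +kernel)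

theorem nd237 : Cov [kP3, kP4]
    ⟨15, 1, 16⟩ ⟨1, 1, 2⟩ ⟨2, 1, 6⟩ :=
  .sx nd219 nd236 (by decide +kernel)

theorem nd238 : Cov [kP3, kP4]
    ⟨3, 1, 4⟩ ⟨1, 1, 2⟩ ⟨2, 1, 6⟩ :=
  .sx nd214 nd237 (by decide +kernel)

theorem nd239 : Cov [kP3, kP4]
    ⟨3, 1, 4⟩ ⟨0, 1, 1⟩ ⟨2, 1, 6⟩ :=
  .sy nd211 nd238 (by decide +kernel)

theorem nd240 : Cov [kP3, kP4]
    ⟨1, 1, 2⟩ ⟨0, 1, 1⟩ ⟨2, 1, 6⟩ :=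
  .sx nd8 nd239 (by decide +kernel)

theorem covO : Cov [kP3, kP4]
    ⟨1, 1, 2⟩ ⟨0, 1, 1⟩ ⟨2, 1, 6⟩ := nd240

end Crest.Agent.R163.Bx.BxO
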