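import Crest.Agent.R163.BxV

/-! # Row 163: certificate leaves -/

set_option autoImplicit false
set_option Elab.async false

namespace Crest.Agent.R163.Bx.BxP

open Kr

theorem lf0 : Cov [kP1, kP2]
    ⟨0, 1, 8⟩ ⟨0, 1, 1⟩ ⟨2, 1, 6⟩ :=
  .leafU ⟨.cen 7, .cen 7, .cen 7, .cen 7, .cen 7, .cen 7, 434, 24, 16, 24⟩ (by decide +kernel)

theorem lf1 : Cov [kP1, kP2]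
    ⟨1, 1, 8⟩ ⟨0, 1, 4⟩ ⟨2, 1, 6⟩ :=
  .leafU ⟨.mk 87 6 5 10, .mk 107 7 5 11, .mk 104 7 5 8, .mk 108 7 5 12, .mk 69 6 5 4, .mk 69 6 5 3, 374, 15, 10, 15⟩ (by decide +kernel)

theorem lf2 : Cov [kP1, kP2]
    ⟨1, 1, 8⟩ ⟨1, 1, 4⟩ ⟨4, 1, 12⟩ :=
  .leafU ⟨.mk 82 6 5 8, .mk 116 7 5 8, .mk 104 7 5 8, .mk 114 7 5 8, .mk 66 6 5 3, .mk 69 6 5 3, 389, 15, 10, 15⟩ (by decide +kernel)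

theorem lf3 : Cov [kP1, kP2]
    ⟨1, 1, 8⟩ ⟨1, 1, 4⟩ ⟨5, 1, 12⟩ :=
  .leafU ⟨.mk 82 6 5 8, .mk 116 7 5 8, .mk 104 7 5 8, .mk 111 7 5 9, .mk 67 6 5 3, .mk 70 6 5 3, 390, 15, 10, 15⟩ (by decide +kernel)

theorem lf4 : Cov [kP1, kP2]
    ⟨1, 1, 8⟩ ⟨1, 1, 2⟩ ⟨2, 1, 6⟩ :=
  .leafU ⟨.cen 7, .cen 7, .cen 7, .cen 7, .cen 7, .cen 7, 453, 24, 16, 24⟩ (by decide +kernel)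

theorem lf5 : Cov [kP1, kP2]
    ⟨2, 1, 8⟩ ⟨0, 1, 4⟩ ⟨2, 1, 6⟩ :=
  .leafU ⟨.mk 101 6 5 11, .mk 94 7 5 14, .mk 88 7 5 8, .mk 95 7 5 16, .mk 72 6 5 5, .mk 73 6 5 4, 375, 15, 10, 15⟩ (by decide +kernel)

theorem lf6 : Cov [kP1, kP2]
    ⟨3, 1, 8⟩ ⟨0, 1, 4⟩ ⟨2, 1, 6⟩ :=
  .leafU ⟨.mk 116 6 5 13, .mk 81 7 5 17, .mk 72 7 5 8, .mk 83 7 5 19, .mk 75 6 5 6, .mk 76 6 5 4, 377, 15, 10, 15⟩ (by decide +kernel)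

theorem lf7 : Cov [kP1, kP2]
    ⟨2, 1, 8⟩ ⟨1, 1, 4⟩ ⟨2, 1, 6⟩ :=
  .leafU ⟨.mk 94 6 5 10, .mk 109 7 5 11, .mk 88 7 5 8, .mk 102 7 5 13, .mk 68 6 5 4, .mk 73 6 5 4, 376, 15, 10, 15⟩ (by decide +kernel)

theorem lf8 : Cov [kP1, kP2]
    ⟨3, 1, 8⟩ ⟨1, 1, 4⟩ ⟨2, 1, 6⟩ :=
  .leafU ⟨.mk 105 6 5 11, .mk 102 7 5 14, .mk 72 7 5 8, .mk 92 7 5 16, .mk 70 6 5 4, .mk 76 6 5 4, 377, 15, 10, 15⟩ (by decide +kernel)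

theorem lf9 : Cov [kP2]
    ⟨1, 1, 4⟩ ⟨1, 1, 2⟩ ⟨2, 1, 6⟩ :=
  .leafU ⟨.mk 88 6 5 16, .mk 68 6 5 12, .mk 80 7 5 16, .mk 105 7 5 18, .mk 124 7 5 12, .mk 75 6 5 6, 351, 15, 10, 15⟩ (by decide +kernel)

theorem lf10 : Cov [kP1]
    ⟨2, 1, 8⟩ ⟨1, 1, 2⟩ ⟨2, 1, 6⟩ :=
  .leafU ⟨.mk 83 6 5 11, .mk 67 6 5 9, .mk 88 7 5 8, .mk 110 7 5 13, .mk 125 7 5 9, .mk 73 6 5 4, 359, 15, 10, 15⟩ (by decide +kernel)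

theorem lf11 : Cov [kP1]
    ⟨3, 1, 8⟩ ⟨1, 1, 2⟩ ⟨2, 1, 6⟩ :=
  .leafU ⟨.mk 90 6 5 14, .mk 68 6 5 12, .mk 72 7 5 8, .mk 104 7 5 16, .mk 124 7 5 12, .mk 76 6 5 4, 361, 15, 10, 15⟩ (by decide +kernel)

end Crest.Agent.R163.Bx.BxP
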