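import Crest.Agent.R163.BxV

/-! # Row 163: certificate leaves -/

set_option autoImplicit false
set_option Elab.async false

namespace Crest.Agent.R163.Bx.BxR

open Kr

theorem lf0 : Cov [kKnot 5247 5415 (-6679), kKnot 4054 2231 (-9817), kKnot 3350 0 (-18721)]
    ⟨0, 1, 2⟩ ⟨0, 1, 1⟩ ⟨3535, 938, 10000⟩ :=
  .leafU ⟨.mk 96 6 5 32, .mk 112 7 5 48, .mk 96 7 5 32, .mk 99 7 5 29, .mk 68 6 5 12, .mk 71 6 5 8, 492, 15, 10, 15⟩ (by decide +kernel)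

theorem lf1 : Cov [kKnot 6325 9017 (-3109)]
    ⟨0, 1, 2⟩ ⟨0, 1, 2⟩ ⟨3535, 938, 10000⟩ :=
  .leafU ⟨.mk 96 6 5 32, .mk 96 7 5 32, .mk 96 7 5 32, .mk 99 7 5 29, .mk 71 6 5 8, .mk 71 6 5 8, 502, 15, 10, 15⟩ (by decide +kernel)

theorem lf2 : Cov [kKnot 9116 18418 (-236), kKnot 8880 17592 (-360), kKnot 8608 16649 (-530), kKnot 8296 15577 (-764), kKnot 7938 14366 (-1059), kKnot 7523 12965 (-1515), kKnot 7014 11268 (-2173)]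
    ⟨0, 1, 4⟩ ⟨0, 1, 2⟩ ⟨3535, 938, 10000⟩ :=
  .leafU ⟨.mk 80 6 5 16, .mk 112 7 5 16, .mk 112 7 5 16, .mk 114 7 5 15, .mk 68 6 5 4, .mk 68 6 5 4, 516, 15, 10, 15⟩ (by decide +kernel)

theorem lf3 : Cov [kKnot 7014 11268 (-2173)]
    ⟨1, 1, 4⟩ ⟨0, 1, 2⟩ ⟨3535, 938, 10000⟩ :=
  .leafU ⟨.mk 106 6 5 22, .mk 92 7 5 28, .mk 80 7 5 16, .mk 92 7 5 22, .mk 72 6 5 7, .mk 74 6 5 5, 518, 15, 10, 15⟩ (by decide +kernel)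

theorem lf4 : Cov [kKnot 7938 14366 (-1059), kKnot 7523 12965 (-1515)]
    ⟨1, 1, 4⟩ ⟨0, 1, 4⟩ ⟨3535, 938, 10000⟩ :=
  .leafU ⟨.mk 109 6 5 19, .mk 86 7 5 22, .mk 80 7 5 16, .mk 90 7 5 20, .mk 73 6 5 6, .mk 74 6 5 5, 528, 15, 10, 15⟩ (by decide +kernel)

theorem lf5 : Cov [kKnot 9116 18418 (-236), kKnot 8880 17592 (-360), kKnot 8608 16649 (-530), kKnot 8296 15577 (-764)]
    ⟨2, 1, 8⟩ ⟨0, 1, 4⟩ ⟨3535, 938, 10000⟩ :=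
  .leafU ⟨.mk 101 6 5 11, .mk 94 7 5 14, .mk 88 7 5 8, .mk 97 7 5 13, .mk 71 6 5 4, .mk 72 6 5 3, 542, 15, 10, 15⟩ (by decide +kernel)

theorem lf6 : Cov [kKnot 9116 18418 (-236), kKnot 8880 17592 (-360), kKnot 8608 16649 (-530), kKnot 8296 15577 (-764)]
    ⟨3, 1, 8⟩ ⟨0, 1, 4⟩ ⟨3535, 938, 10000⟩ :=
  .leafU ⟨.mk 116 6 5 13, .mk 81 7 5 17, .mk 72 7 5 8, .mk 86 7 5 16, .mk 74 6 5 5, .mk 75 6 5 4, 544, 15, 10, 15⟩ (by decide +kernel)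

theorem lf7 : Cov [kKnot 9116 18418 (-236), kKnot 8880 17592 (-360), kKnot 8608 16649 (-530), kKnot 8296 15577 (-764), kKnot 7938 14366 (-1059), kKnot 7523 12965 (-1515)]
    ⟨1, 1, 4⟩ ⟨1, 1, 4⟩ ⟨3535, 938, 10000⟩ :=
  .leafU ⟨.mk 100 6 5 16, .mk 104 7 5 16, .mk 80 7 5 16, .mk 98 7 5 17, .mk 69 6 5 4, .mk 74 6 5 5, 528, 15, 10, 15⟩ (by decide +kernel)

theorem lf8 : Cov [kKnot 8608 16649 (-530), kKnot 8296 15577 (-764), kKnot 7938 14366 (-1059), kKnot 7523 12965 (-1515), kKnot 7014 11268 (-2173), kKnot 6325 9017 (-3109)]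
    ⟨0, 1, 2⟩ ⟨1, 1, 2⟩ ⟨3535, 938, 10000⟩ :=
  .leafU ⟨.mk 84 6 5 20, .mk 68 6 5 12, .mk 96 7 5 32, .mk 110 7 5 18, .mk 124 7 5 12, .mk 71 6 5 8, 502, 15, 10, 15⟩ (by decide +kernel)

theorem lf9 : Cov [kKnot 9116 18418 (-236), kKnot 8880 17592 (-360)]
    ⟨0, 1, 4⟩ ⟨1, 1, 2⟩ ⟨3535, 938, 10000⟩ :=
  .leafU ⟨.mk 74 6 4 10, .mk 66 6 4 6, .mk 112 7 4 16, .mk 119 7 4 9, .mk 126 7 4 6, .mk 68 6 4 4, 459, 12, 8, 12⟩ (by decide +kernel)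

theorem lf10 : Cov [kKnot 9116 18418 (-236), kKnot 8880 17592 (-360)]
    ⟨1, 1, 4⟩ ⟨1, 1, 2⟩ ⟨3535, 938, 10000⟩ :=
  .leafU ⟨.mk 88 6 5 16, .mk 68 6 5 12, .mk 80 7 5 16, .mk 107 7 5 16, .mk 124 7 5 12, .mk 74 6 5 5, 518, 15, 10, 15⟩ (by decide +kernel)

theorem lf11 : Cov [kKnot 4054 2231 (-9817), kKnot 3350 0 (-18721)]
    ⟨2, 1, 4⟩ ⟨0, 1, 2⟩ ⟨3535, 938, 10000⟩ :=
  .leafU ⟨.mk 66 5 5 14, .mk 72 7 5 40, .mk 96 8 5 32, .mk 71 7 5 29, .mk 76 6 5 10, .mk 80 6 5 6, 522, 15, 10, 15⟩ (by decide +kernel)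

theorem lf12 : Cov [kKnot 9116 18418 (-236), kKnot 8880 17592 (-360), kKnot 8608 16649 (-530), kKnot 8296 15577 (-764), kKnot 7523 12965 (-1515), kKnot 7014 11268 (-2173), kKnot 6325 9017 (-3109), kKnot 5247 5415 (-6679)]
    ⟨4, 1, 8⟩ ⟨0, 1, 4⟩ ⟨3535, 938, 10000⟩ :=
  .leafU ⟨.mk 65 5 5 7, .mk 68 7 5 20, .mk 112 8 5 16, .mk 74 7 5 18, .mk 76 6 5 6, .mk 79 6 5 4, 546, 15, 10, 15⟩ (by decide +kernel)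

theorem lf13 : Cov [kKnot 7938 14366 (-1059)]
    ⟨4, 1, 8⟩ ⟨0, 1, 16⟩ ⟨3535, 938, 10000⟩ :=
  .leafU ⟨.mk 67 5 5 5, .mk 118 8 5 22, .mk 112 8 5 16, .mk 71 7 5 15, .mk 78 6 5 4, .mk 79 6 5 4, 566, 15, 10, 15⟩ (by decide +kernel)

theorem lf14 : Cov [kKnot 7938 14366 (-1059)]
    ⟨4, 1, 8⟩ ⟨1, 3, 16⟩ ⟨3535, 938, 10000⟩ :=
  .leafU ⟨.mk 64 5 5 7, .mk 72 7 5 17, .mk 112 8 5 16, .mk 76 7 5 17, .mk 76 6 5 5, .mk 79 6 5 4, 566, 15, 10, 15⟩ (by decide +kernel)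

theorem lf15 : Cov [kKnot 9116 18418 (-236), kKnot 8880 17592 (-360)]
    ⟨5, 1, 8⟩ ⟨0, 1, 4⟩ ⟨3535, 938, 10000⟩ :=
  .leafU ⟨.mk 72 5 5 8, .mk 110 8 5 46, .mk 80 8 5 16, .mk 124 8 5 41, .mk 79 6 5 7, .mk 82 6 5 4, 549, 15, 10, 15⟩ (by decide +kernel)

theorem lf16 : Cov [kKnot 8608 16649 (-530), kKnot 8296 15577 (-764), kKnot 7938 14366 (-1059), kKnot 7523 12965 (-1515), kKnot 7014 11268 (-2173), kKnot 6325 9017 (-3109), kKnot 5247 5415 (-6679)]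
    ⟨5, 1, 8⟩ ⟨0, 1, 16⟩ ⟨3535, 938, 10000⟩ :=
  .leafU ⟨.mk 75 5 5 5, .mk 88 8 5 24, .mk 80 8 5 16, .mk 116 8 5 33, .mk 81 6 5 5, .mk 82 6 5 4, 570, 15, 10, 15⟩ (by decide +kernel)

theorem lf17 : Cov [kKnot 8608 16649 (-530), kKnot 8296 15577 (-764), kKnot 7938 14366 (-1059), kKnot 7523 12965 (-1515), kKnot 7014 11268 (-2173), kKnot 6325 9017 (-3109), kKnot 5247 5415 (-6679)]
    ⟨5, 1, 8⟩ ⟨1, 3, 16⟩ ⟨3535, 938, 10000⟩ :=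
  .leafU ⟨.mk 71 5 5 7, .mk 119 8 5 37, .mk 80 8 5 16, .mk 64 7 5 19, .mk 78 6 5 6, .mk 82 6 5 4, 569, 15, 10, 15⟩ (by decide +kernel)

theorem lf18 : Cov [kKnot 7523 12965 (-1515), kKnot 7014 11268 (-2173), kKnot 6325 9017 (-3109), kKnot 5247 5415 (-6679)]
    ⟨2, 1, 4⟩ ⟨1, 1, 4⟩ ⟨3535, 938, 10000⟩ :=
  .leafU ⟨.mk 123 6 5 19, .mk 90 7 5 22, .mk 96 8 5 32, .mk 79 7 5 21, .mk 72 6 5 6, .mk 80 6 5 6, 532, 15, 10, 15⟩ (by decide +kernel)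

theorem lf19 : Cov [kKnot 9116 18418 (-236), kKnot 8880 17592 (-360), kKnot 8608 16649 (-530), kKnot 8296 15577 (-764), kKnot 7938 14366 (-1059)]
    ⟨4, 1, 8⟩ ⟨1, 1, 4⟩ ⟨3535, 938, 10000⟩ :=
  .leafU ⟨.mk 117 6 4 13, .mk 95 7 4 17, .mk 112 8 4 16, .mk 85 7 4 16, .mk 71 6 4 5, .mk 79 6 4 4, 482, 12, 8, 12⟩ (by decide +kernel)

theorem lf20 : Cov [kKnot 9116 18418 (-236), kKnot 8880 17592 (-360), kKnot 8608 16649 (-530), kKnot 8296 15577 (-764), kKnot 7938 14366 (-1059)]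
    ⟨5, 1, 8⟩ ⟨1, 1, 4⟩ ⟨3535, 938, 10000⟩ :=
  .leafU ⟨.mk 64 5 4 7, .mk 88 7 4 20, .mk 80 8 4 16, .mk 75 7 4 18, .mk 72 6 4 6, .mk 82 6 4 4, 484, 12, 8, 12⟩ (by decide +kernel)

theorem lf21 : Cov [kKnot 9116 18418 (-236), kKnot 8880 17592 (-360), kKnot 8608 16649 (-530), kKnot 8296 15577 (-764), kKnot 7938 14366 (-1059), kKnot 7523 12965 (-1515), kKnot 7014 11268 (-2173), kKnot 6325 9017 (-3109), kKnot 5247 5415 (-6679), kKnot 4054 2231 (-9817), kKnot 3350 0 (-18721)]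
    ⟨24, 3, 32⟩ ⟨0, 1, 16⟩ ⟨3535, 938, 10000⟩ :=
  .leafU ⟨.mk 82 5 5 5, .mk 122 9 5 42, .mk 104 9 5 24, .mk 95 8 5 33, .mk 84 6 5 5, .mk 85 6 5 5, 605, 15, 10, 15⟩ (by decide +kernel)

theorem lf22 : Cov [kKnot 9116 18418 (-236), kKnot 8880 17592 (-360), kKnot 8608 16649 (-530), kKnot 8296 15577 (-764), kKnot 7938 14366 (-1059), kKnot 7523 12965 (-1515), kKnot 7014 11268 (-2173), kKnot 4054 2231 (-9817), kKnot 3350 0 (-18721)]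
    ⟨27, 3, 32⟩ ⟨0, 1, 16⟩ ⟨3535, 938, 10000⟩ :=
  .leafU ⟨.mk 88 5 5 5, .mk 76 9 5 45, .mk 112 10 5 48, .mk 76 8 5 35, .mk 86 6 5 5, .mk 87 6 5 4, 612, 15, 10, 15⟩ (by decide +kernel)

theorem lf23 : Cov [kKnot 6325 9017 (-3109), kKnot 5247 5415 (-6679)]
    ⟨54, 3, 64⟩ ⟨0, 1, 16⟩ ⟨3535, 938, 10000⟩ :=
  .leafU ⟨.mk 86 5 5 3, .mk 88 9 5 33, .mk 68 9 5 12, .mk 81 8 5 30, .mk 85 6 5 5, .mk 86 6 5 4, 625, 15, 10, 15⟩ (by decide +kernel)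

end Crest.Agent.R163.Bx.BxR
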