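import Crest.Agent.R163.BxV

/-! # Row 163: certificate leaves -/

set_option autoImplicit false
set_option Elab.async false

namespace Crest.Agent.R163.Bx.BxR

open Kr

theorem lf24 : Cov [kKnot 6325 9017 (-3109), kKnot 5247 5415 (-6679)]
    ⟨57, 3, 64⟩ ⟨0, 1, 16⟩ ⟨3535, 938, 10000⟩ :=
  .leafU ⟨.mk 89 5 5 3, .mk 65 9 5 34, .mk 88 10 5 24, .mk 72 8 5 31, .mk 87 6 5 5, .mk 87 6 5 4, 630, 15, 10, 15⟩ (by decide +kernel)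

theorem lf25 : Cov [kKnot 3350 0 (-18721)]
    ⟨12, 3, 16⟩ ⟨1, 3, 16⟩ ⟨3535, 938, 10000⟩ :=
  .leafU ⟨.mk 80 5 5 10, .mk 87 8 5 49, .mk 80 9 5 48, .mk 99 8 5 48, .mk 81 6 5 8, .mk 86 6 5 6, 591, 15, 10, 15⟩ (by decide +kernel)

theorem lf26 : Cov [kKnot 9116 18418 (-236), kKnot 8880 17592 (-360), kKnot 8608 16649 (-530), kKnot 8296 15577 (-764), kKnot 7938 14366 (-1059), kKnot 7523 12965 (-1515), kKnot 7014 11268 (-2173), kKnot 6325 9017 (-3109), kKnot 5247 5415 (-6679), kKnot 4054 2231 (-9817)]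
    ⟨24, 3, 32⟩ ⟨1, 3, 16⟩ ⟨3535, 938, 10000⟩ :=
  .leafU ⟨.mk 77 5 5 7, .mk 98 8 5 38, .mk 104 9 5 24, .mk 109 8 5 38, .mk 80 6 5 6, .mk 85 6 5 5, 603, 15, 10, 15⟩ (by decide +kernel)

theorem lf27 : Cov [kKnot 9116 18418 (-236), kKnot 8880 17592 (-360), kKnot 8608 16649 (-530), kKnot 4054 2231 (-9817)]
    ⟨27, 3, 32⟩ ⟨1, 3, 16⟩ ⟨3535, 938, 10000⟩ :=
  .leafU ⟨.mk 83 5 5 8, .mk 80 8 5 42, .mk 112 10 5 48, .mk 92 8 5 41, .mk 82 6 5 7, .mk 87 6 5 4, 609, 15, 10, 15⟩ (by decide +kernel)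

theorem lf28 : Cov [kKnot 8296 15577 (-764), kKnot 7938 14366 (-1059), kKnot 7523 12965 (-1515), kKnot 7014 11268 (-2173), kKnot 6325 9017 (-3109)]
    ⟨27, 3, 32⟩ ⟨2, 3, 32⟩ ⟨3535, 938, 10000⟩ :=
  .leafU ⟨.mk 84 5 5 6, .mk 65 8 5 27, .mk 112 10 5 48, .mk 86 8 5 36, .mk 83 6 5 6, .mk 87 6 5 4, 620, 15, 10, 15⟩ (by decide +kernel)

theorem lf29 : Cov [kKnot 5247 5415 (-6679)]
    ⟨54, 3, 64⟩ ⟨2, 3, 32⟩ ⟨3535, 938, 10000⟩ :=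
  .leafU ⟨.mk 83 5 4 4, .mk 70 8 4 21, .mk 68 9 4 12, .mk 91 8 4 31, .mk 83 6 4 5, .mk 86 6 4 4, 551, 12, 8, 12⟩ (by decide +kernel)

theorem lf30 : Cov [kKnot 5247 5415 (-6679)]
    ⟨57, 3, 64⟩ ⟨2, 3, 32⟩ ⟨3535, 938, 10000⟩ :=
  .leafU ⟨.mk 86 5 5 4, .mk 120 9 5 43, .mk 88 10 5 24, .mk 83 8 5 32, .mk 84 6 5 5, .mk 87 6 5 4, 637, 15, 10, 15⟩ (by decide +kernel)

theorem lf31 : Cov [kKnot 8296 15577 (-764), kKnot 7938 14366 (-1059), kKnot 7523 12965 (-1515), kKnot 7014 11268 (-2173), kKnot 6325 9017 (-3109), kKnot 5247 5415 (-6679)]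
    ⟨27, 3, 32⟩ ⟨5, 3, 32⟩ ⟨3535, 938, 10000⟩ :=
  .leafU ⟨.mk 80 5 5 5, .mk 97 8 5 25, .mk 112 10 5 48, .mk 99 8 5 33, .mk 80 6 5 5, .mk 87 6 5 4, 618, 15, 10, 15⟩ (by decide +kernel)

theorem lf32 : Cov [kKnot 4054 2231 (-9817), kKnot 3350 0 (-18721)]
    ⟨12, 3, 16⟩ ⟨1, 1, 4⟩ ⟨3535, 938, 10000⟩ :=
  .leafU ⟨.mk 71 5 5 10, .mk 79 7 5 26, .mk 80 9 5 48, .mk 126 8 5 46, .mk 75 6 5 7, .mk 86 6 5 6, 569, 15, 10, 15⟩ (by decide +kernel)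

theorem lf33 : Cov [kKnot 9116 18418 (-236), kKnot 8880 17592 (-360), kKnot 8608 16649 (-530), kKnot 8296 15577 (-764), kKnot 7938 14366 (-1059), kKnot 7523 12965 (-1515), kKnot 7014 11268 (-2173), kKnot 6325 9017 (-3109), kKnot 5247 5415 (-6679)]
    ⟨24, 3, 32⟩ ⟨1, 1, 4⟩ ⟨3535, 938, 10000⟩ :=
  .leafU ⟨.mk 69 5 4 7, .mk 82 7 4 22, .mk 104 9 4 24, .mk 68 7 4 19, .mk 74 6 4 6, .mk 85 6 4 5, 510, 12, 8, 12⟩ (by decide +kernel)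

theorem lf34 : Cov [kKnot 9116 18418 (-236), kKnot 8880 17592 (-360), kKnot 8608 16649 (-530), kKnot 8296 15577 (-764), kKnot 7938 14366 (-1059), kKnot 7523 12965 (-1515), kKnot 7014 11268 (-2173), kKnot 6325 9017 (-3109), kKnot 5247 5415 (-6679)]
    ⟨27, 3, 32⟩ ⟨1, 1, 4⟩ ⟨3535, 938, 10000⟩ :=
  .leafU ⟨.mk 73 5 5 8, .mk 77 7 5 24, .mk 112 10 5 48, .mk 121 8 5 40, .mk 75 6 5 7, .mk 87 6 5 4, 586, 15, 10, 15⟩ (by decide +kernel)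

theorem lf35 : Cov [kKnot 9116 18418 (-236), kKnot 8880 17592 (-360), kKnot 8608 16649 (-530), kKnot 8296 15577 (-764), kKnot 7938 14366 (-1059), kKnot 7523 12965 (-1515), kKnot 7014 11268 (-2173), kKnot 6325 9017 (-3109), kKnot 5247 5415 (-6679), kKnot 4054 2231 (-9817), kKnot 3350 0 (-18721)]
    ⟨60, 3, 64⟩ ⟨0, 1, 64⟩ ⟨3535, 938, 10000⟩ :=
  .leafU ⟨.mk 93 5 5 2, .mk 103 11 5 71, .mk 80 11 5 48, .mk 119 9 5 58, .mk 88 6 5 5, .mk 89 6 5 4, 661, 15, 10, 15⟩ (by decide +kernel)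

theorem lf36 : Cov [kKnot 9116 18418 (-236), kKnot 8880 17592 (-360), kKnot 8608 16649 (-530), kKnot 8296 15577 (-764), kKnot 7938 14366 (-1059), kKnot 7523 12965 (-1515), kKnot 7014 11268 (-2173), kKnot 6325 9017 (-3109), kKnot 5247 5415 (-6679), kKnot 4054 2231 (-9817), kKnot 3350 0 (-18721)]
    ⟨60, 3, 64⟩ ⟨1, 3, 64⟩ ⟨3535, 938, 10000⟩ :=
  .leafU ⟨.mk 92 5 5 3, .mk 97 10 5 58, .mk 80 11 5 48, .mk 127 9 5 62, .mk 87 6 5 5, .mk 89 6 5 4, 657, 15, 10, 15⟩ (by decide +kernel)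

theorem lf37 : Cov [kKnot 9116 18418 (-236), kKnot 8880 17592 (-360), kKnot 8608 16649 (-530), kKnot 8296 15577 (-764), kKnot 7938 14366 (-1059), kKnot 7523 12965 (-1515), kKnot 7014 11268 (-2173), kKnot 6325 9017 (-3109), kKnot 5247 5415 (-6679), kKnot 4054 2231 (-9817), kKnot 3350 0 (-18721)]
    ⟨252, 3, 256⟩ ⟨0, 1, 256⟩ ⟨3535, 938, 10000⟩ :=
  .leafU ⟨.mk 95 5 4 1, .mk 104 13 4 72, .mk 80 13 4 48, .mk 106 9 4 51, .mk 89 6 4 4, .mk 89 6 4 4, 627, 12, 8, 12⟩ (by decide +kernel)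

theorem lf38 : Cov [kKnot 9116 18418 (-236), kKnot 8880 17592 (-360), kKnot 8608 16649 (-530), kKnot 8296 15577 (-764), kKnot 7938 14366 (-1059), kKnot 7523 12965 (-1515), kKnot 7014 11268 (-2173), kKnot 6325 9017 (-3109), kKnot 5247 5415 (-6679), kKnot 4054 2231 (-9817), kKnot 3350 0 (-18721)]
    ⟨252, 3, 256⟩ ⟨1, 3, 256⟩ ⟨3535, 938, 10000⟩ :=
  .leafU ⟨.mk 95 5 4 1, .mk 99 12 4 60, .mk 80 13 4 48, .mk 108 9 4 52, .mk 89 6 4 4, .mk 89 6 4 4, 624, 12, 8, 12⟩ (by decide +kernel)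

theorem lf39 : Cov [kKnot 9116 18418 (-236), kKnot 8880 17592 (-360), kKnot 8608 16649 (-530), kKnot 8296 15577 (-764), kKnot 7938 14366 (-1059), kKnot 7523 12965 (-1515), kKnot 7014 11268 (-2173), kKnot 6325 9017 (-3109), kKnot 5247 5415 (-6679), kKnot 4054 2231 (-9817), kKnot 3350 0 (-18721)]
    ⟨1020, 3, 1024⟩ ⟨0, 1, 1024⟩ ⟨3535, 938, 10000⟩ :=
  .leafU ⟨.mk 96 5 4 1, .mk 104 15 4 72, .mk 80 15 4 48, .mk 103 9 4 49, .mk 90 6 4 4, .mk 90 6 4 4, 682, 12, 8, 12⟩ (by decide +kernel)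

theorem lf40 : Cov [kKnot 9116 18418 (-236), kKnot 8880 17592 (-360), kKnot 8608 16649 (-530), kKnot 8296 15577 (-764), kKnot 7938 14366 (-1059), kKnot 7523 12965 (-1515), kKnot 7014 11268 (-2173), kKnot 6325 9017 (-3109), kKnot 5247 5415 (-6679), kKnot 4054 2231 (-9817), kKnot 3350 0 (-18721)]
    ⟨1020, 3, 1024⟩ ⟨1, 3, 1024⟩ ⟨3535, 938, 10000⟩ :=
  .leafU ⟨.mk 96 5 4 1, .mk 100 14 4 61, .mk 80 15 4 48, .mk 104 9 4 50, .mk 89 6 4 4, .mk 90 6 4 4, 678, 12, 8, 12⟩ (by decide +kernel)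

theorem lf41 : Cov [kKnot 9116 18418 (-236), kKnot 8880 17592 (-360), kKnot 8608 16649 (-530), kKnot 8296 15577 (-764), kKnot 7938 14366 (-1059)]
    ⟨4092, 3, 4096⟩ ⟨0, 1, 1024⟩ ⟨3535, 938, 10000⟩ :=
  .leafU ⟨.mk 96 5 5 1, .bot 80 15, .mk 80 17 5 48, .mk 102 9 5 49, .mk 90 6 5 4, .mk 90 6 5 4, 796, 15, 10, 15⟩ (by decide +kernel)

theorem lf42 : Cov [kKnot 7523 12965 (-1515), kKnot 7014 11268 (-2173), kKnot 6325 9017 (-3109), kKnot 5247 5415 (-6679), kKnot 4054 2231 (-9817), kKnot 3350 0 (-18721)]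
    ⟨4092, 3, 4096⟩ ⟨0, 1, 4096⟩ ⟨3535, 938, 10000⟩ :=
  .leafU ⟨.mk 96 5 4 1, .mk 104 17 4 72, .mk 80 17 4 48, .mk 102 9 4 49, .mk 90 6 4 4, .mk 90 6 4 4, 737, 12, 8, 12⟩ (by decide +kernel)

theorem lf43 : Cov [kKnot 7523 12965 (-1515), kKnot 7014 11268 (-2173), kKnot 6325 9017 (-3109), kKnot 5247 5415 (-6679), kKnot 4054 2231 (-9817), kKnot 3350 0 (-18721)]
    ⟨4092, 3, 4096⟩ ⟨1, 3, 4096⟩ ⟨3535, 938, 10000⟩ :=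
  .leafU ⟨.mk 96 5 4 1, .mk 100 16 4 61, .mk 80 17 4 48, .mk 102 9 4 49, .mk 90 6 4 4, .mk 90 6 4 4, 733, 12, 8, 12⟩ (by decide +kernel)

theorem lf44 : Cov [kKnot 9116 18418 (-236), kKnot 8880 17592 (-360), kKnot 8608 16649 (-530), kKnot 8296 15577 (-764), kKnot 7938 14366 (-1059)]
    ⟨4095, 1, 4096⟩ ⟨0, 1, 4096⟩ ⟨3535, 938, 10000⟩ :=
  .leafU ⟨.mk 96 5 5 1, .bot 80 17, .bot 64 18, .mk 102 9 5 49, .mk 90 6 5 4, .mk 90 6 5 4, 784, 15, 10, 15⟩ (by decide +kernel)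

theorem lf45 : Cov [kKnot 7523 12965 (-1515), kKnot 7014 11268 (-2173), kKnot 6325 9017 (-3109), kKnot 4054 2231 (-9817), kKnot 3350 0 (-18721)]
    ⟨16380, 3, 16384⟩ ⟨0, 1, 4096⟩ ⟨3535, 938, 10000⟩ :=
  .leafU ⟨.mk 96 5 5 1, .bot 80 17, .mk 80 19 5 48, .mk 102 9 5 49, .mk 90 6 5 4, .mk 90 6 5 4, 855, 15, 10, 15⟩ (by decide +kernel)

theorem lf46 : Cov [kKnot 5247 5415 (-6679)]
    ⟨16380, 3, 16384⟩ ⟨0, 1, 16384⟩ ⟨3535, 938, 10000⟩ :=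
  .leafU ⟨.mk 96 5 4 1, .mk 104 19 4 72, .mk 80 19 4 48, .mk 102 9 4 49, .mk 90 6 4 4, .mk 90 6 4 4, 791, 12, 8, 12⟩ (by decide +kernel)

theorem lf47 : Cov [kKnot 5247 5415 (-6679)]
    ⟨16380, 3, 16384⟩ ⟨1, 3, 16384⟩ ⟨3535, 938, 10000⟩ :=
  .leafU ⟨.mk 96 5 4 1, .mk 100 18 4 61, .mk 80 19 4 48, .mk 102 9 4 49, .mk 90 6 4 4, .mk 90 6 4 4, 788, 12, 8, 12⟩ (by decide +kernel)

end Crest.Agent.R163.Bx.BxR
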