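import Crest.Agent.R163.BxV

/-! # Row 163: certificate leaves -/

set_option autoImplicit false
set_option Elab.async false

namespace Crest.Agent.R163.Bx.BxR

open Kr

theorem lf48 : Cov [kKnot 7523 12965 (-1515), kKnot 7014 11268 (-2173), kKnot 6325 9017 (-3109)]
    ⟨16383, 1, 16384⟩ ⟨0, 1, 4096⟩ ⟨3535, 938, 10000⟩ :=
  .leafU ⟨.mk 96 5 5 1, .bot 112 18, .bot 64 20, .mk 102 9 5 49, .mk 90 6 5 4, .mk 90 6 5 4, 814, 15, 10, 15⟩ (by decide +kernel)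

theorem lf49 : Cov [kKnot 4054 2231 (-9817), kKnot 3350 0 (-18721)]
    ⟨16383, 1, 16384⟩ ⟨0, 1, 16384⟩ ⟨3535, 938, 10000⟩ :=
  .leafU ⟨.mk 96 5 5 1, .bot 80 19, .bot 64 20, .mk 102 9 5 49, .mk 90 6 5 4, .mk 90 6 5 4, 833, 15, 10, 15⟩ (by decide +kernel)

theorem lf50 : Cov [kKnot 5247 5415 (-6679)]
    ⟨65532, 3, 65536⟩ ⟨0, 1, 16384⟩ ⟨3535, 938, 10000⟩ :=
  .leafU ⟨.mk 96 5 4 1, .bot 80 19, .mk 80 21 4 48, .mk 102 9 4 49, .mk 90 6 4 4, .mk 90 6 4 4, 775, 12, 8, 12⟩ (by decide +kernel)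

theorem lf51 : Cov [kKnot 5247 5415 (-6679)]
    ⟨65535, 1, 65536⟩ ⟨0, 1, 16384⟩ ⟨3535, 938, 10000⟩ :=
  .leafU ⟨.mk 96 5 4 1, .bot 112 20, .bot 64 22, .mk 102 9 4 49, .mk 90 6 4 4, .mk 90 6 4 4, 735, 12, 8, 12⟩ (by decide +kernel)

theorem lf52 : Cov [kKnot 5247 5415 (-6679), kKnot 4054 2231 (-9817), kKnot 3350 0 (-18721)]
    ⟨16383, 1, 16384⟩ ⟨1, 3, 16384⟩ ⟨3535, 938, 10000⟩ :=
  .leafU ⟨.mk 96 5 4 1, .mk 68 18 4 44, .bot 64 20, .mk 102 9 4 49, .mk 90 6 4 4, .mk 90 6 4 4, 741, 12, 8, 12⟩ (by decide +kernel)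

theorem lf53 : Cov [kKnot 9116 18418 (-236), kKnot 8880 17592 (-360), kKnot 8608 16649 (-530), kKnot 8296 15577 (-764), kKnot 7938 14366 (-1059), kKnot 7523 12965 (-1515), kKnot 7014 11268 (-2173), kKnot 6325 9017 (-3109), kKnot 5247 5415 (-6679), kKnot 4054 2231 (-9817), kKnot 3350 0 (-18721)]
    ⟨4095, 1, 4096⟩ ⟨1, 3, 4096⟩ ⟨3535, 938, 10000⟩ :=
  .leafU ⟨.mk 96 5 4 1, .mk 68 16 4 44, .bot 64 18, .mk 102 9 4 49, .mk 90 6 4 4, .mk 90 6 4 4, 694, 12, 8, 12⟩ (by decide +kernel)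

theorem lf54 : Cov [kKnot 9116 18418 (-236), kKnot 8880 17592 (-360), kKnot 8608 16649 (-530), kKnot 8296 15577 (-764), kKnot 7938 14366 (-1059), kKnot 7523 12965 (-1515), kKnot 7014 11268 (-2173)]
    ⟨1023, 1, 1024⟩ ⟨1, 3, 1024⟩ ⟨3535, 938, 10000⟩ :=
  .leafU ⟨.mk 96 5 5 1, .mk 68 14 5 44, .bot 64 16, .mk 103 9 5 49, .mk 90 6 5 4, .mk 90 6 5 4, 753, 15, 10, 15⟩ (by decide +kernel)

theorem lf55 : Cov [kKnot 6325 9017 (-3109), kKnot 5247 5415 (-6679), kKnot 4054 2231 (-9817), kKnot 3350 0 (-18721)]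
    ⟨4092, 3, 4096⟩ ⟨1, 3, 1024⟩ ⟨3535, 938, 10000⟩ :=
  .leafU ⟨.mk 96 5 4 1, .mk 70 14 4 43, .mk 80 17 4 48, .mk 103 9 4 49, .mk 90 6 4 4, .mk 90 6 4 4, 712, 12, 8, 12⟩ (by decide +kernel)

theorem lf56 : Cov [kKnot 6325 9017 (-3109), kKnot 5247 5415 (-6679), kKnot 4054 2231 (-9817), kKnot 3350 0 (-18721)]
    ⟨4095, 1, 4096⟩ ⟨1, 3, 1024⟩ ⟨3535, 938, 10000⟩ :=
  .leafU ⟨.mk 96 5 5 1, .mk 124 15 5 76, .bot 64 18, .mk 103 9 5 49, .mk 90 6 5 4, .mk 90 6 5 4, 784, 15, 10, 15⟩ (by decide +kernel)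

theorem lf57 : Cov [kKnot 9116 18418 (-236), kKnot 8880 17592 (-360), kKnot 8608 16649 (-530), kKnot 8296 15577 (-764), kKnot 7938 14366 (-1059), kKnot 7523 12965 (-1515), kKnot 7014 11268 (-2173), kKnot 6325 9017 (-3109), kKnot 5247 5415 (-6679), kKnot 4054 2231 (-9817), kKnot 3350 0 (-18721)]
    ⟨1020, 3, 1024⟩ ⟨1, 3, 256⟩ ⟨3535, 938, 10000⟩ :=
  .leafU ⟨.mk 95 5 4 1, .mk 70 12 4 43, .mk 80 15 4 48, .mk 106 9 4 51, .mk 89 6 4 4, .mk 90 6 4 4, 657, 12, 8, 12⟩ (by decide +kernel)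

theorem lf58 : Cov [kKnot 9116 18418 (-236), kKnot 8880 17592 (-360), kKnot 8608 16649 (-530), kKnot 8296 15577 (-764), kKnot 7938 14366 (-1059)]
    ⟨1023, 1, 1024⟩ ⟨1, 3, 256⟩ ⟨3535, 938, 10000⟩ :=
  .leafU ⟨.mk 96 5 5 1, .mk 124 13 5 76, .bot 64 16, .mk 105 9 5 50, .mk 89 6 5 4, .mk 90 6 5 4, 724, 15, 10, 15⟩ (by decide +kernel)

theorem lf59 : Cov [kKnot 7523 12965 (-1515), kKnot 7014 11268 (-2173), kKnot 6325 9017 (-3109), kKnot 5247 5415 (-6679), kKnot 4054 2231 (-9817), kKnot 3350 0 (-18721)]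
    ⟨4092, 3, 4096⟩ ⟨1, 3, 256⟩ ⟨3535, 938, 10000⟩ :=
  .leafU ⟨.mk 95 5 4 1, .mk 125 13 4 76, .mk 80 17 4 48, .mk 105 9 4 50, .mk 89 6 4 4, .mk 90 6 4 4, 689, 12, 8, 12⟩ (by decide +kernel)

theorem lf60 : Cov [kKnot 7523 12965 (-1515), kKnot 7014 11268 (-2173), kKnot 6325 9017 (-3109), kKnot 4054 2231 (-9817), kKnot 3350 0 (-18721)]
    ⟨4095, 1, 4096⟩ ⟨1, 3, 256⟩ ⟨3535, 938, 10000⟩ :=
  .leafU ⟨.mk 96 5 5 1, .mk 121 13 5 73, .bot 64 18, .mk 105 9 5 50, .mk 89 6 5 4, .mk 90 6 5 4, 754, 15, 10, 15⟩ (by decide +kernel)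

theorem lf61 : Cov [kKnot 5247 5415 (-6679)]
    ⟨16380, 3, 16384⟩ ⟨1, 3, 256⟩ ⟨3535, 938, 10000⟩ :=
  .leafU ⟨.mk 96 5 4 1, .mk 121 13 4 73, .mk 80 19 4 48, .mk 105 9 4 50, .mk 89 6 4 4, .mk 90 6 4 4, 721, 12, 8, 12⟩ (by decide +kernel)

theorem lf62 : Cov [kKnot 5247 5415 (-6679)]
    ⟨16383, 1, 16384⟩ ⟨1, 3, 256⟩ ⟨3535, 938, 10000⟩ :=
  .leafU ⟨.mk 96 5 4 1, .mk 120 13 4 73, .bot 64 20, .mk 105 9 4 50, .mk 89 6 4 4, .mk 90 6 4 4, 671, 12, 8, 12⟩ (by decide +kernel)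

theorem lf63 : Cov [kKnot 9116 18418 (-236), kKnot 8880 17592 (-360), kKnot 8608 16649 (-530), kKnot 8296 15577 (-764), kKnot 7938 14366 (-1059), kKnot 7523 12965 (-1515), kKnot 7014 11268 (-2173), kKnot 6325 9017 (-3109), kKnot 5247 5415 (-6679), kKnot 4054 2231 (-9817), kKnot 3350 0 (-18721)]
    ⟨252, 3, 256⟩ ⟨1, 3, 64⟩ ⟨3535, 938, 10000⟩ :=
  .leafU ⟨.mk 94 5 4 2, .mk 69 10 4 42, .mk 80 13 4 48, .mk 117 9 4 56, .mk 88 6 4 4, .mk 89 6 4 4, 603, 12, 8, 12⟩ (by decide +kernel)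

theorem lf64 : Cov [kKnot 9116 18418 (-236), kKnot 8880 17592 (-360), kKnot 8608 16649 (-530), kKnot 8296 15577 (-764), kKnot 7938 14366 (-1059), kKnot 7523 12965 (-1515), kKnot 7014 11268 (-2173), kKnot 6325 9017 (-3109), kKnot 5247 5415 (-6679), kKnot 4054 2231 (-9817), kKnot 3350 0 (-18721)]
    ⟨1020, 3, 1024⟩ ⟨1, 3, 64⟩ ⟨3535, 938, 10000⟩ :=
  .leafU ⟨.mk 94 5 4 2, .mk 125 11 4 76, .mk 80 15 4 48, .mk 114 9 4 55, .mk 88 6 4 4, .mk 90 6 4 4, 634, 12, 8, 12⟩ (by decide +kernel)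

theorem lf65 : Cov [kKnot 9116 18418 (-236), kKnot 8880 17592 (-360), kKnot 8608 16649 (-530), kKnot 8296 15577 (-764), kKnot 7938 14366 (-1059), kKnot 7523 12965 (-1515), kKnot 7014 11268 (-2173), kKnot 6325 9017 (-3109), kKnot 5247 5415 (-6679), kKnot 4054 2231 (-9817), kKnot 3350 0 (-18721)]
    ⟨4092, 3, 4096⟩ ⟨1, 3, 64⟩ ⟨3535, 938, 10000⟩ :=
  .leafU ⟨.mk 94 5 4 2, .mk 121 11 4 73, .mk 80 17 4 48, .mk 113 9 4 55, .mk 88 6 4 4, .mk 90 6 4 4, 666, 12, 8, 12⟩ (by decide +kernel)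

theorem lf66 : Cov [kKnot 9116 18418 (-236), kKnot 8880 17592 (-360), kKnot 8608 16649 (-530), kKnot 8296 15577 (-764)]
    ⟨4095, 1, 4096⟩ ⟨1, 3, 64⟩ ⟨3535, 938, 10000⟩ :=
  .leafU ⟨.mk 94 5 5 2, .mk 120 11 5 73, .bot 64 18, .mk 113 9 5 55, .mk 88 6 5 4, .mk 90 6 5 4, 726, 15, 10, 15⟩ (by decide +kernel)

theorem lf67 : Cov [kKnot 7938 14366 (-1059), kKnot 7523 12965 (-1515), kKnot 7014 11268 (-2173), kKnot 6325 9017 (-3109), kKnot 5247 5415 (-6679), kKnot 4054 2231 (-9817), kKnot 3350 0 (-18721)]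
    ⟨16380, 3, 16384⟩ ⟨1, 3, 64⟩ ⟨3535, 938, 10000⟩ :=
  .leafU ⟨.mk 94 5 4 2, .mk 120 11 4 73, .mk 80 19 4 48, .mk 113 9 4 55, .mk 88 6 4 4, .mk 90 6 4 4, 697, 12, 8, 12⟩ (by decide +kernel)

theorem lf68 : Cov [kKnot 7938 14366 (-1059), kKnot 7523 12965 (-1515), kKnot 7014 11268 (-2173), kKnot 6325 9017 (-3109), kKnot 4054 2231 (-9817), kKnot 3350 0 (-18721)]
    ⟨16383, 1, 16384⟩ ⟨1, 3, 64⟩ ⟨3535, 938, 10000⟩ :=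
  .leafU ⟨.mk 94 5 5 2, .mk 120 11 5 73, .bot 64 20, .mk 113 9 5 55, .mk 88 6 5 4, .mk 90 6 5 4, 756, 15, 10, 15⟩ (by decide +kernel)

theorem lf69 : Cov [kKnot 5247 5415 (-6679)]
    ⟨65532, 3, 65536⟩ ⟨1, 3, 64⟩ ⟨3535, 938, 10000⟩ :=
  .leafU ⟨.mk 94 5 4 2, .mk 120 11 4 73, .mk 80 21 4 48, .mk 113 9 4 55, .mk 88 6 4 4, .mk 90 6 4 4, 729, 12, 8, 12⟩ (by decide +kernel)

theorem lf70 : Cov [kKnot 5247 5415 (-6679)]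
    ⟨65535, 1, 65536⟩ ⟨1, 3, 64⟩ ⟨3535, 938, 10000⟩ :=
  .leafU ⟨.mk 94 5 5 2, .mk 120 11 5 73, .bot 64 22, .mk 113 9 5 54, .mk 88 6 5 4, .mk 90 6 5 4, 786, 15, 10, 15⟩ (by decide +kernel)

theorem lf71 : Cov [kKnot 9116 18418 (-236), kKnot 8880 17592 (-360), kKnot 8608 16649 (-530), kKnot 4054 2231 (-9817), kKnot 3350 0 (-18721)]
    ⟨60, 3, 64⟩ ⟨1, 3, 16⟩ ⟨3535, 938, 10000⟩ :=
  .leafU ⟨.mk 86 5 5 7, .mk 67 8 5 40, .mk 80 11 5 48, .mk 80 8 5 39, .mk 83 6 5 7, .mk 89 6 5 4, 632, 15, 10, 15⟩ (by decide +kernel)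

end Crest.Agent.R163.Bx.BxR
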