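import Crest.Agent.R163.BxV

/-! # Row 163: certificate leaves -/

set_option autoImplicit false
set_option Elab.async false

namespace Crest.Agent.R163.Bx.BxR

open Kr

theorem lf72 : Cov [kKnot 8296 15577 (-764), kKnot 7938 14366 (-1059), kKnot 7523 12965 (-1515), kKnot 7014 11268 (-2173), kKnot 6325 9017 (-3109)]
    ⟨60, 3, 64⟩ ⟨2, 3, 32⟩ ⟨3535, 938, 10000⟩ :=
  .leafU ⟨.mk 89 5 5 5, .mk 100 9 5 45, .mk 80 11 5 48, .mk 74 8 5 33, .mk 85 6 5 5, .mk 89 6 5 4, 643, 15, 10, 15⟩ (by decide +kernel)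

theorem lf73 : Cov [kKnot 5247 5415 (-6679)]
    ⟨120, 3, 128⟩ ⟨2, 3, 32⟩ ⟨3535, 938, 10000⟩ :=
  .leafU ⟨.mk 88 5 4 4, .mk 105 9 4 40, .mk 104 11 4 24, .mk 76 8 4 31, .mk 85 6 4 5, .mk 88 6 4 4, 569, 12, 8, 12⟩ (by decide +kernel)

theorem lf74 : Cov [kKnot 5247 5415 (-6679)]
    ⟨123, 3, 128⟩ ⟨2, 3, 32⟩ ⟨3535, 938, 10000⟩ :=
  .leafU ⟨.mk 89 5 4 4, .mk 95 9 4 41, .mk 112 12 4 48, .mk 72 8 4 31, .mk 85 6 4 5, .mk 89 6 4 4, 573, 12, 8, 12⟩ (by decide +kernel)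

theorem lf75 : Cov [kKnot 8296 15577 (-764), kKnot 7938 14366 (-1059), kKnot 7523 12965 (-1515), kKnot 7014 11268 (-2173), kKnot 6325 9017 (-3109), kKnot 5247 5415 (-6679)]
    ⟨60, 3, 64⟩ ⟨5, 3, 32⟩ ⟨3535, 938, 10000⟩ :=
  .leafU ⟨.mk 84 5 5 4, .mk 85 8 5 22, .mk 80 11 5 48, .mk 88 8 5 32, .mk 81 6 5 5, .mk 89 6 5 4, 641, 15, 10, 15⟩ (by decide +kernel)

theorem lf76 : Cov [kKnot 9116 18418 (-236), kKnot 8880 17592 (-360), kKnot 8608 16649 (-530), kKnot 8296 15577 (-764), kKnot 7938 14366 (-1059), kKnot 7523 12965 (-1515), kKnot 7014 11268 (-2173), kKnot 4054 2231 (-9817), kKnot 3350 0 (-18721)]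
    ⟨252, 3, 256⟩ ⟨1, 3, 16⟩ ⟨3535, 938, 10000⟩ :=
  .leafU ⟨.mk 88 5 5 5, .mk 123 9 5 74, .mk 80 13 5 48, .mk 75 8 5 37, .mk 84 6 5 7, .mk 89 6 5 4, 672, 15, 10, 15⟩ (by decide +kernel)

theorem lf77 : Cov [kKnot 6325 9017 (-3109), kKnot 5247 5415 (-6679)]
    ⟨252, 3, 256⟩ ⟨2, 3, 32⟩ ⟨3535, 938, 10000⟩ :=
  .leafU ⟨.mk 90 5 4 3, .mk 88 9 4 39, .mk 80 13 4 48, .mk 69 8 4 31, .mk 85 6 4 5, .mk 89 6 4 4, 591, 12, 8, 12⟩ (by decide +kernel)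

theorem lf78 : Cov [kKnot 6325 9017 (-3109), kKnot 5247 5415 (-6679)]
    ⟨252, 3, 256⟩ ⟨5, 3, 32⟩ ⟨3535, 938, 10000⟩ :=
  .leafU ⟨.mk 86 5 4 3, .mk 80 8 4 20, .mk 80 13 4 48, .mk 83 8 4 29, .mk 82 6 4 5, .mk 89 6 4 4, 589, 12, 8, 12⟩ (by decide +kernel)

theorem lf79 : Cov [kKnot 9116 18418 (-236), kKnot 8880 17592 (-360), kKnot 8608 16649 (-530), kKnot 8296 15577 (-764), kKnot 7938 14366 (-1059), kKnot 7523 12965 (-1515), kKnot 7014 11268 (-2173), kKnot 6325 9017 (-3109), kKnot 5247 5415 (-6679), kKnot 4054 2231 (-9817), kKnot 3350 0 (-18721)]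
    ⟨1020, 3, 1024⟩ ⟨1, 3, 16⟩ ⟨3535, 938, 10000⟩ :=
  .leafU ⟨.mk 88 5 5 5, .mk 121 9 5 73, .mk 80 15 5 48, .mk 74 8 5 37, .mk 84 6 5 6, .mk 90 6 5 4, 711, 15, 10, 15⟩ (by decide +kernel)

theorem lf80 : Cov [kKnot 9116 18418 (-236), kKnot 8880 17592 (-360), kKnot 8608 16649 (-530), kKnot 8296 15577 (-764), kKnot 7938 14366 (-1059), kKnot 7523 12965 (-1515), kKnot 7014 11268 (-2173), kKnot 6325 9017 (-3109), kKnot 5247 5415 (-6679), kKnot 4054 2231 (-9817), kKnot 3350 0 (-18721)]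
    ⟨4092, 3, 4096⟩ ⟨1, 3, 16⟩ ⟨3535, 938, 10000⟩ :=
  .leafU ⟨.mk 88 5 5 5, .mk 120 9 5 73, .mk 80 17 5 48, .mk 73 8 5 37, .mk 84 6 5 6, .mk 90 6 5 4, 751, 15, 10, 15⟩ (by decide +kernel)

theorem lf81 : Cov [kKnot 9116 18418 (-236), kKnot 8880 17592 (-360), kKnot 8608 16649 (-530), kKnot 8296 15577 (-764), kKnot 7938 14366 (-1059), kKnot 7523 12965 (-1515), kKnot 7014 11268 (-2173), kKnot 6325 9017 (-3109), kKnot 5247 5415 (-6679), kKnot 4054 2231 (-9817), kKnot 3350 0 (-18721)]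
    ⟨16380, 3, 16384⟩ ⟨1, 3, 16⟩ ⟨3535, 938, 10000⟩ :=
  .leafU ⟨.mk 88 5 5 5, .mk 120 9 5 73, .mk 80 19 5 48, .mk 73 8 5 36, .mk 84 6 5 6, .mk 90 6 5 4, 790, 15, 10, 15⟩ (by decide +kernel)

theorem lf82 : Cov [kKnot 9116 18418 (-236), kKnot 8880 17592 (-360), kKnot 8608 16649 (-530)]
    ⟨16383, 1, 16384⟩ ⟨2, 3, 32⟩ ⟨3535, 938, 10000⟩ :=
  .leafU ⟨.mk 91 5 5 3, .mk 84 9 5 37, .bot 64 20, .mk 67 8 5 30, .mk 86 6 5 5, .mk 90 6 5 4, 743, 15, 10, 15⟩ (by decide +kernel)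

theorem lf83 : Cov [kKnot 8296 15577 (-764), kKnot 7938 14366 (-1059), kKnot 7523 12965 (-1515), kKnot 7014 11268 (-2173), kKnot 6325 9017 (-3109), kKnot 5247 5415 (-6679), kKnot 4054 2231 (-9817), kKnot 3350 0 (-18721)]
    ⟨65532, 3, 65536⟩ ⟨2, 3, 32⟩ ⟨3535, 938, 10000⟩ :=
  .leafU ⟨.mk 91 5 4 3, .mk 84 9 4 37, .mk 80 21 4 48, .mk 67 8 4 30, .mk 86 6 4 5, .mk 90 6 4 4, 716, 12, 8, 12⟩ (by decide +kernel)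

theorem lf84 : Cov [kKnot 8296 15577 (-764), kKnot 7938 14366 (-1059), kKnot 7523 12965 (-1515), kKnot 3350 0 (-18721)]
    ⟨65535, 1, 65536⟩ ⟨2, 3, 32⟩ ⟨3535, 938, 10000⟩ :=
  .leafU ⟨.mk 91 5 5 3, .mk 84 9 5 37, .bot 64 22, .mk 67 8 5 30, .mk 86 6 5 5, .mk 90 6 5 4, 773, 15, 10, 15⟩ (by decide +kernel)

theorem lf85 : Cov [kKnot 7014 11268 (-2173), kKnot 6325 9017 (-3109), kKnot 5247 5415 (-6679), kKnot 4054 2231 (-9817)]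
    ⟨262140, 3, 262144⟩ ⟨2, 3, 32⟩ ⟨3535, 938, 10000⟩ :=
  .leafU ⟨.mk 91 5 4 3, .mk 84 9 4 37, .mk 80 23 4 48, .mk 67 8 4 30, .mk 86 6 4 5, .mk 90 6 4 4, 748, 12, 8, 12⟩ (by decide +kernel)

theorem lf86 : Cov [kKnot 7014 11268 (-2173), kKnot 6325 9017 (-3109), kKnot 4054 2231 (-9817)]
    ⟨262143, 1, 262144⟩ ⟨2, 3, 32⟩ ⟨3535, 938, 10000⟩ :=
  .leafU ⟨.mk 91 5 5 3, .mk 84 9 5 37, .bot 64 24, .mk 67 8 5 30, .mk 86 6 5 5, .mk 90 6 5 4, 803, 15, 10, 15⟩ (by decide +kernel)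

theorem lf87 : Cov [kKnot 5247 5415 (-6679)]
    ⟨1048572, 3, 1048576⟩ ⟨2, 3, 32⟩ ⟨3535, 938, 10000⟩ :=
  .leafU ⟨.mk 91 5 4 3, .mk 84 9 4 37, .mk 80 25 4 48, .mk 67 8 4 30, .mk 86 6 4 5, .mk 90 6 4 4, 779, 12, 8, 12⟩ (by decide +kernel)

theorem lf88 : Cov [kKnot 5247 5415 (-6679)]
    ⟨1048575, 1, 1048576⟩ ⟨2, 3, 32⟩ ⟨3535, 938, 10000⟩ :=
  .leafU ⟨.mk 91 5 5 3, .mk 84 9 5 37, .bot 64 26, .mk 67 8 5 30, .mk 86 6 5 5, .mk 90 6 5 4, 832, 15, 10, 15⟩ (by decide +kernel)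

theorem lf89 : Cov [kKnot 9116 18418 (-236), kKnot 8880 17592 (-360), kKnot 8608 16649 (-530), kKnot 8296 15577 (-764), kKnot 7938 14366 (-1059), kKnot 7523 12965 (-1515), kKnot 7014 11268 (-2173), kKnot 6325 9017 (-3109), kKnot 5247 5415 (-6679), kKnot 4054 2231 (-9817), kKnot 3350 0 (-18721)]
    ⟨65532, 3, 65536⟩ ⟨5, 3, 32⟩ ⟨3535, 938, 10000⟩ :=
  .leafU ⟨.mk 86 5 4 3, .mk 78 8 4 19, .mk 80 21 4 48, .mk 81 8 4 28, .mk 82 6 4 4, .mk 90 6 4 4, 714, 12, 8, 12⟩ (by decide +kernel)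

theorem lf90 : Cov [kKnot 9116 18418 (-236), kKnot 8880 17592 (-360), kKnot 8608 16649 (-530), kKnot 3350 0 (-18721)]
    ⟨65535, 1, 65536⟩ ⟨5, 3, 32⟩ ⟨3535, 938, 10000⟩ :=
  .leafU ⟨.mk 86 5 5 3, .mk 78 8 5 19, .bot 64 22, .mk 81 8 5 28, .mk 82 6 5 4, .mk 90 6 5 4, 773, 15, 10, 15⟩ (by decide +kernel)

theorem lf91 : Cov [kKnot 8296 15577 (-764), kKnot 7938 14366 (-1059), kKnot 7523 12965 (-1515), kKnot 7014 11268 (-2173), kKnot 6325 9017 (-3109), kKnot 5247 5415 (-6679), kKnot 4054 2231 (-9817)]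
    ⟨262140, 3, 262144⟩ ⟨5, 3, 32⟩ ⟨3535, 938, 10000⟩ :=
  .leafU ⟨.mk 86 5 4 3, .mk 78 8 4 19, .mk 80 23 4 48, .mk 81 8 4 28, .mk 82 6 4 4, .mk 90 6 4 4, 745, 12, 8, 12⟩ (by decide +kernel)

theorem lf92 : Cov [kKnot 8296 15577 (-764), kKnot 7938 14366 (-1059), kKnot 7523 12965 (-1515), kKnot 4054 2231 (-9817)]
    ⟨262143, 1, 262144⟩ ⟨5, 3, 32⟩ ⟨3535, 938, 10000⟩ :=
  .leafU ⟨.mk 86 5 5 3, .mk 78 8 5 19, .bot 64 24, .mk 81 8 5 28, .mk 82 6 5 4, .mk 90 6 5 4, 802, 15, 10, 15⟩ (by decide +kernel)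

theorem lf93 : Cov [kKnot 7014 11268 (-2173), kKnot 6325 9017 (-3109), kKnot 5247 5415 (-6679)]
    ⟨1048572, 3, 1048576⟩ ⟨5, 3, 32⟩ ⟨3535, 938, 10000⟩ :=
  .leafU ⟨.mk 86 5 4 3, .mk 78 8 4 19, .mk 80 25 4 48, .mk 81 8 4 28, .mk 82 6 4 4, .mk 90 6 4 4, 777, 12, 8, 12⟩ (by decide +kernel)

theorem lf94 : Cov [kKnot 7014 11268 (-2173), kKnot 6325 9017 (-3109)]
    ⟨1048575, 1, 1048576⟩ ⟨5, 3, 32⟩ ⟨3535, 938, 10000⟩ :=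
  .leafU ⟨.mk 86 5 5 3, .mk 78 8 5 19, .bot 64 26, .mk 81 8 5 28, .mk 82 6 5 4, .mk 90 6 5 4, 832, 15, 10, 15⟩ (by decide +kernel)

theorem lf95 : Cov [kKnot 5247 5415 (-6679)]
    ⟨4194300, 3, 4194304⟩ ⟨5, 3, 32⟩ ⟨3535, 938, 10000⟩ :=
  .leafU ⟨.mk 86 5 4 3, .mk 78 8 4 19, .mk 80 27 4 48, .mk 81 8 4 28, .mk 82 6 4 4, .mk 90 6 4 4, 808, 12, 8, 12⟩ (by decide +kernel)

end Crest.Agent.R163.Bx.BxR
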