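import Crest.Agent.R163.BxV

/-! # Row 163: certificate leaves -/

set_option autoImplicit false
set_option Elab.async false

namespace Crest.Agent.R163.Bx.BxR

open Kr

theorem lf96 : Cov [kKnot 5247 5415 (-6679)]
    ⟨4194303, 1, 4194304⟩ ⟨5, 3, 32⟩ ⟨3535, 938, 10000⟩ :=
  .leafU ⟨.mk 86 5 4 3, .mk 78 8 4 19, .bot 64 28, .mk 81 8 4 28, .mk 82 6 4 4, .mk 90 6 4 4, 734, 12, 8, 12⟩ (by decide +kernel)

theorem lf97 : Cov [kKnot 9116 18418 (-236), kKnot 8880 17592 (-360), kKnot 8608 16649 (-530), kKnot 8296 15577 (-764), kKnot 6325 9017 (-3109), kKnot 5247 5415 (-6679), kKnot 4054 2231 (-9817), kKnot 3350 0 (-18721)]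
    ⟨60, 3, 64⟩ ⟨1, 1, 4⟩ ⟨3535, 938, 10000⟩ :=
  .leafU ⟨.mk 76 5 5 8, .mk 74 7 5 25, .mk 80 11 5 48, .mk 111 8 5 39, .mk 75 6 5 7, .mk 89 6 5 4, 609, 15, 10, 15⟩ (by decide +kernel)

theorem lf98 : Cov [kKnot 7938 14366 (-1059), kKnot 7523 12965 (-1515), kKnot 7014 11268 (-2173)]
    ⟨120, 3, 128⟩ ⟨1, 1, 4⟩ ⟨3535, 938, 10000⟩ :=
  .leafU ⟨.mk 76 5 4 7, .mk 75 7 4 24, .mk 104 11 4 24, .mk 114 8 4 37, .mk 75 6 4 7, .mk 88 6 4 4, 541, 12, 8, 12⟩ (by decide +kernel)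

theorem lf99 : Cov [kKnot 7938 14366 (-1059), kKnot 7523 12965 (-1515), kKnot 7014 11268 (-2173)]
    ⟨123, 3, 128⟩ ⟨1, 1, 4⟩ ⟨3535, 938, 10000⟩ :=
  .leafU ⟨.mk 77 5 4 7, .mk 73 7 4 25, .mk 112 12 4 48, .mk 110 8 4 38, .mk 76 6 4 7, .mk 89 6 4 4, 545, 12, 8, 12⟩ (by decide +kernel)

theorem lf100 : Cov [kKnot 9116 18418 (-236), kKnot 8880 17592 (-360), kKnot 8608 16649 (-530), kKnot 8296 15577 (-764), kKnot 7938 14366 (-1059), kKnot 7523 12965 (-1515), kKnot 7014 11268 (-2173), kKnot 6325 9017 (-3109), kKnot 5247 5415 (-6679), kKnot 4054 2231 (-9817), kKnot 3350 0 (-18721)]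
    ⟨252, 3, 256⟩ ⟨1, 1, 4⟩ ⟨3535, 938, 10000⟩ :=
  .leafU ⟨.mk 78 5 5 7, .mk 72 7 5 25, .mk 80 13 5 48, .mk 108 8 5 38, .mk 76 6 5 7, .mk 89 6 5 4, 649, 15, 10, 15⟩ (by decide +kernel)

theorem lf101 : Cov [kKnot 9116 18418 (-236), kKnot 8880 17592 (-360), kKnot 8608 16649 (-530), kKnot 8296 15577 (-764), kKnot 7938 14366 (-1059), kKnot 7523 12965 (-1515), kKnot 7014 11268 (-2173), kKnot 6325 9017 (-3109), kKnot 5247 5415 (-6679), kKnot 4054 2231 (-9817), kKnot 3350 0 (-18721)]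
    ⟨1020, 3, 1024⟩ ⟨1, 1, 4⟩ ⟨3535, 938, 10000⟩ :=
  .leafU ⟨.mk 78 5 4 7, .mk 72 7 4 25, .mk 80 15 4 48, .mk 107 8 4 37, .mk 76 6 4 7, .mk 90 6 4 4, 594, 12, 8, 12⟩ (by decide +kernel)

theorem lf102 : Cov [kKnot 9116 18418 (-236), kKnot 8880 17592 (-360), kKnot 8608 16649 (-530), kKnot 8296 15577 (-764), kKnot 7938 14366 (-1059), kKnot 7523 12965 (-1515), kKnot 7014 11268 (-2173), kKnot 6325 9017 (-3109), kKnot 5247 5415 (-6679), kKnot 4054 2231 (-9817), kKnot 3350 0 (-18721)]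
    ⟨4092, 3, 4096⟩ ⟨1, 1, 4⟩ ⟨3535, 938, 10000⟩ :=
  .leafU ⟨.mk 78 5 4 7, .mk 72 7 4 25, .mk 80 17 4 48, .mk 106 8 4 37, .mk 76 6 4 7, .mk 90 6 4 4, 626, 12, 8, 12⟩ (by decide +kernel)

theorem lf103 : Cov [kKnot 9116 18418 (-236), kKnot 8880 17592 (-360), kKnot 8608 16649 (-530), kKnot 8296 15577 (-764), kKnot 7938 14366 (-1059), kKnot 7523 12965 (-1515), kKnot 7014 11268 (-2173), kKnot 6325 9017 (-3109), kKnot 5247 5415 (-6679), kKnot 4054 2231 (-9817), kKnot 3350 0 (-18721)]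
    ⟨16380, 3, 16384⟩ ⟨1, 1, 4⟩ ⟨3535, 938, 10000⟩ :=
  .leafU ⟨.mk 78 5 4 7, .mk 72 7 4 25, .mk 80 19 4 48, .mk 106 8 4 37, .mk 76 6 4 7, .mk 90 6 4 4, 657, 12, 8, 12⟩ (by decide +kernel)

theorem lf104 : Cov [kKnot 9116 18418 (-236), kKnot 8880 17592 (-360), kKnot 8608 16649 (-530), kKnot 8296 15577 (-764), kKnot 7938 14366 (-1059), kKnot 7523 12965 (-1515), kKnot 7014 11268 (-2173), kKnot 6325 9017 (-3109), kKnot 5247 5415 (-6679), kKnot 4054 2231 (-9817), kKnot 3350 0 (-18721)]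
    ⟨65532, 3, 65536⟩ ⟨1, 1, 4⟩ ⟨3535, 938, 10000⟩ :=
  .leafU ⟨.mk 78 5 4 7, .mk 72 7 4 25, .mk 80 21 4 48, .mk 106 8 4 37, .mk 76 6 4 7, .mk 90 6 4 4, 688, 12, 8, 12⟩ (by decide +kernel)

theorem lf105 : Cov [kKnot 9116 18418 (-236), kKnot 8880 17592 (-360), kKnot 8608 16649 (-530), kKnot 8296 15577 (-764), kKnot 7938 14366 (-1059), kKnot 7523 12965 (-1515), kKnot 7014 11268 (-2173), kKnot 6325 9017 (-3109), kKnot 5247 5415 (-6679), kKnot 4054 2231 (-9817), kKnot 3350 0 (-18721)]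
    ⟨262140, 3, 262144⟩ ⟨1, 1, 4⟩ ⟨3535, 938, 10000⟩ :=
  .leafU ⟨.mk 78 5 4 7, .mk 72 7 4 25, .mk 80 23 4 48, .mk 106 8 4 37, .mk 76 6 4 7, .mk 90 6 4 4, 720, 12, 8, 12⟩ (by decide +kernel)

theorem lf106 : Cov [kKnot 4054 2231 (-9817), kKnot 3350 0 (-18721)]
    ⟨262143, 1, 262144⟩ ⟨1, 1, 4⟩ ⟨3535, 938, 10000⟩ :=
  .leafU ⟨.mk 78 5 5 7, .mk 72 7 5 25, .bot 64 24, .mk 106 8 5 37, .mk 76 6 5 7, .mk 90 6 5 4, 772, 15, 10, 15⟩ (by decide +kernel)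

theorem lf107 : Cov [kKnot 9116 18418 (-236), kKnot 8880 17592 (-360), kKnot 8608 16649 (-530), kKnot 8296 15577 (-764), kKnot 7938 14366 (-1059), kKnot 7523 12965 (-1515), kKnot 7014 11268 (-2173), kKnot 6325 9017 (-3109), kKnot 5247 5415 (-6679)]
    ⟨1048572, 3, 1048576⟩ ⟨1, 1, 4⟩ ⟨3535, 938, 10000⟩ :=
  .leafU ⟨.mk 78 5 4 7, .mk 72 7 4 25, .mk 80 25 4 48, .mk 106 8 4 37, .mk 76 6 4 7, .mk 90 6 4 4, 751, 12, 8, 12⟩ (by decide +kernel)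

theorem lf108 : Cov [kKnot 9116 18418 (-236), kKnot 8880 17592 (-360), kKnot 8608 16649 (-530), kKnot 8296 15577 (-764), kKnot 7938 14366 (-1059), kKnot 7523 12965 (-1515), kKnot 7014 11268 (-2173), kKnot 6325 9017 (-3109), kKnot 5247 5415 (-6679)]
    ⟨4194300, 3, 4194304⟩ ⟨1, 1, 4⟩ ⟨3535, 938, 10000⟩ :=
  .leafU ⟨.mk 78 5 4 7, .mk 72 7 4 25, .mk 80 27 4 48, .mk 106 8 4 37, .mk 76 6 4 7, .mk 90 6 4 4, 782, 12, 8, 12⟩ (by decide +kernel)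

theorem lf109 : Cov [kKnot 9116 18418 (-236), kKnot 8880 17592 (-360), kKnot 8608 16649 (-530), kKnot 8296 15577 (-764), kKnot 7938 14366 (-1059), kKnot 7523 12965 (-1515), kKnot 7014 11268 (-2173), kKnot 6325 9017 (-3109), kKnot 5247 5415 (-6679)]
    ⟨4194303, 1, 4194304⟩ ⟨1, 1, 4⟩ ⟨3535, 938, 10000⟩ :=
  .leafU ⟨.mk 78 5 5 7, .mk 72 7 5 25, .bot 64 28, .mk 106 8 5 37, .mk 76 6 5 7, .mk 90 6 5 4, 832, 15, 10, 15⟩ (by decide +kernel)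

theorem lf110 : Cov [kKnot 8608 16649 (-530), kKnot 8296 15577 (-764), kKnot 7938 14366 (-1059), kKnot 7523 12965 (-1515), kKnot 7014 11268 (-2173), kKnot 6325 9017 (-3109), kKnot 5247 5415 (-6679), kKnot 4054 2231 (-9817), kKnot 3350 0 (-18721)]
    ⟨2, 1, 4⟩ ⟨1, 1, 2⟩ ⟨3535, 938, 10000⟩ :=
  .leafU ⟨.mk 102 6 5 22, .mk 70 6 5 18, .mk 96 8 5 32, .mk 96 7 5 22, .mk 123 7 5 17, .mk 80 6 5 6, 522, 15, 10, 15⟩ (by decide +kernel)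

theorem lf111 : Cov [kKnot 9116 18418 (-236), kKnot 8880 17592 (-360)]
    ⟨4, 1, 8⟩ ⟨1, 1, 2⟩ ⟨3535, 938, 10000⟩ :=
  .leafU ⟨.mk 97 6 4 17, .mk 69 6 4 15, .mk 112 8 4 16, .mk 100 7 4 17, .mk 124 7 4 14, .mk 79 6 4 4, 474, 12, 8, 12⟩ (by decide +kernel)

theorem lf112 : Cov [kKnot 9116 18418 (-236), kKnot 8880 17592 (-360)]
    ⟨5, 1, 8⟩ ⟨1, 1, 2⟩ ⟨3535, 938, 10000⟩ :=
  .leafU ⟨.mk 104 6 5 20, .mk 70 6 5 18, .mk 80 8 5 16, .mk 94 7 5 20, .mk 123 7 5 17, .mk 82 6 5 4, 538, 15, 10, 15⟩ (by decide +kernel)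

theorem lf113 : Cov [kKnot 4054 2231 (-9817), kKnot 3350 0 (-18721)]
    ⟨12, 3, 16⟩ ⟨1, 1, 2⟩ ⟨3535, 938, 10000⟩ :=
  .leafU ⟨.mk 114 6 5 26, .mk 72 6 5 23, .mk 80 9 5 48, .mk 86 7 5 26, .mk 121 7 5 21, .mk 86 6 5 6, 558, 15, 10, 15⟩ (by decide +kernel)

theorem lf114 : Cov [kKnot 9116 18418 (-236), kKnot 8880 17592 (-360), kKnot 8608 16649 (-530), kKnot 8296 15577 (-764), kKnot 7938 14366 (-1059), kKnot 7523 12965 (-1515), kKnot 7014 11268 (-2173), kKnot 6325 9017 (-3109), kKnot 5247 5415 (-6679)]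
    ⟨24, 3, 32⟩ ⟨1, 1, 2⟩ ⟨3535, 938, 10000⟩ :=
  .leafU ⟨.mk 110 6 5 22, .mk 71 6 5 21, .mk 104 9 5 24, .mk 89 7 5 23, .mk 122 7 5 19, .mk 85 6 5 5, 571, 15, 10, 15⟩ (by decide +kernel)

theorem lf115 : Cov [kKnot 8608 16649 (-530), kKnot 8296 15577 (-764), kKnot 7938 14366 (-1059), kKnot 7523 12965 (-1515), kKnot 7014 11268 (-2173), kKnot 6325 9017 (-3109), kKnot 5247 5415 (-6679)]
    ⟨27, 3, 32⟩ ⟨1, 1, 2⟩ ⟨3535, 938, 10000⟩ :=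
  .leafU ⟨.mk 115 6 5 24, .mk 72 6 5 23, .mk 112 10 5 48, .mk 85 7 5 25, .mk 121 7 5 21, .mk 87 6 5 4, 576, 15, 10, 15⟩ (by decide +kernel)

theorem lf116 : Cov [kKnot 9116 18418 (-236), kKnot 8880 17592 (-360)]
    ⟨54, 3, 64⟩ ⟨1, 1, 2⟩ ⟨3535, 938, 10000⟩ :=
  .leafU ⟨.mk 113 6 5 23, .mk 71 6 5 22, .mk 68 9 5 12, .mk 87 7 5 23, .mk 122 7 5 20, .mk 86 6 5 4, 589, 15, 10, 15⟩ (by decide +kernel)

theorem lf117 : Cov [kKnot 9116 18418 (-236), kKnot 8880 17592 (-360)]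
    ⟨57, 3, 64⟩ ⟨1, 1, 2⟩ ⟨3535, 938, 10000⟩ :=
  .leafU ⟨.mk 116 6 5 24, .mk 72 6 5 23, .mk 88 10 5 24, .mk 84 7 5 24, .mk 121 7 5 21, .mk 87 6 5 4, 592, 15, 10, 15⟩ (by decide +kernel)

theorem lf118 : Cov [kKnot 6325 9017 (-3109), kKnot 5247 5415 (-6679), kKnot 4054 2231 (-9817), kKnot 3350 0 (-18721)]
    ⟨60, 3, 64⟩ ⟨1, 1, 2⟩ ⟨3535, 938, 10000⟩ :=
  .leafU ⟨.mk 118 6 5 25, .mk 72 6 5 24, .mk 80 11 5 48, .mk 82 7 5 25, .mk 121 7 5 22, .mk 89 6 5 4, 598, 15, 10, 15⟩ (by decide +kernel)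

theorem lf119 : Cov [kKnot 9116 18418 (-236), kKnot 8880 17592 (-360), kKnot 8608 16649 (-530), kKnot 8296 15577 (-764), kKnot 7938 14366 (-1059), kKnot 7523 12965 (-1515), kKnot 7014 11268 (-2173)]
    ⟨120, 3, 128⟩ ⟨1, 1, 2⟩ ⟨3535, 938, 10000⟩ :=
  .leafU ⟨.mk 117 6 5 24, .mk 72 6 5 24, .mk 104 11 5 24, .mk 83 7 5 24, .mk 121 7 5 21, .mk 88 6 5 4, 611, 15, 10, 15⟩ (by decide +kernel)

end Crest.Agent.R163.Bx.BxR
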