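import Crest.Agent.R163.BxR0
import Crest.Agent.R163.BxR1
import Crest.Agent.R163.BxR2
import Crest.Agent.R163.BxR3
import Crest.Agent.R163.BxR4
import Crest.Agent.R163.BxR5

/-! # Row 163: certificate tree -/

set_option autoImplicit false
set_option Elab.async false

namespace Crest.Agent.R163.Bx.BxR

open Kr

theorem nd0 : Cov [kKnot 9116 18418 (-236), kKnot 8880 17592 (-360), kKnot 8608 16649 (-530), kKnot 8296 15577 (-764)]
    ⟨1, 1, 4⟩ ⟨0, 1, 4⟩ ⟨3535, 938, 10000⟩ :=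
  .sx lf5 lf6 (by decide +kernel)

theorem nd1 : Cov [kKnot 9116 18418 (-236), kKnot 8880 17592 (-360), kKnot 8608 16649 (-530), kKnot 8296 15577 (-764), kKnot 7938 14366 (-1059), kKnot 7523 12965 (-1515)]
    ⟨1, 1, 4⟩ ⟨0, 1, 4⟩ ⟨3535, 938, 10000⟩ :=
  .un lf4 nd0 (by simp only [List.mem_cons, List.not_mem_nil, or_false]; tauto)

theorem nd2 : Cov [kKnot 9116 18418 (-236), kKnot 8880 17592 (-360), kKnot 8608 16649 (-530), kKnot 8296 15577 (-764), kKnot 7938 14366 (-1059), kKnot 7523 12965 (-1515)]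
    ⟨1, 1, 4⟩ ⟨0, 1, 2⟩ ⟨3535, 938, 10000⟩ :=
  .sy nd1 lf7 (by decide +kernel)

theorem nd3 : Cov [kKnot 9116 18418 (-236), kKnot 8880 17592 (-360), kKnot 8608 16649 (-530), kKnot 8296 15577 (-764), kKnot 7938 14366 (-1059), kKnot 7523 12965 (-1515), kKnot 7014 11268 (-2173)]
    ⟨1, 1, 4⟩ ⟨0, 1, 2⟩ ⟨3535, 938, 10000⟩ :=
  .un lf3 nd2 (by simp only [List.mem_cons, List.not_mem_nil, or_false]; tauto)

theorem nd4 : Cov [kKnot 9116 18418 (-236), kKnot 8880 17592 (-360), kKnot 8608 16649 (-530), kKnot 8296 15577 (-764), kKnot 7938 14366 (-1059), kKnot 7523 12965 (-1515), kKnot 7014 11268 (-2173)]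
    ⟨0, 1, 2⟩ ⟨0, 1, 2⟩ ⟨3535, 938, 10000⟩ :=
  .sx lf2 nd3 (by decide +kernel)

theorem nd5 : Cov [kKnot 9116 18418 (-236), kKnot 8880 17592 (-360), kKnot 8608 16649 (-530), kKnot 8296 15577 (-764), kKnot 7938 14366 (-1059), kKnot 7523 12965 (-1515), kKnot 7014 11268 (-2173), kKnot 6325 9017 (-3109)]
    ⟨0, 1, 2⟩ ⟨0, 1, 2⟩ ⟨3535, 938, 10000⟩ :=
  .un lf1 nd4 (by simp only [List.mem_cons, List.not_mem_nil, or_false]; tauto)

theorem nd6 : Cov [kKnot 9116 18418 (-236), kKnot 8880 17592 (-360)]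
    ⟨0, 1, 2⟩ ⟨1, 1, 2⟩ ⟨3535, 938, 10000⟩ :=
  .sx lf9 lf10 (by decide +kernel)

theorem nd7 : Cov [kKnot 9116 18418 (-236), kKnot 8880 17592 (-360), kKnot 8608 16649 (-530), kKnot 8296 15577 (-764), kKnot 7938 14366 (-1059), kKnot 7523 12965 (-1515), kKnot 7014 11268 (-2173), kKnot 6325 9017 (-3109)]
    ⟨0, 1, 2⟩ ⟨1, 1, 2⟩ ⟨3535, 938, 10000⟩ :=
  .un lf8 nd6 (by simp only [List.mem_cons, List.not_mem_nil, or_false]; tauto)

theorem nd8 : Cov [kKnot 9116 18418 (-236), kKnot 8880 17592 (-360), kKnot 8608 16649 (-530), kKnot 8296 15577 (-764), kKnot 7938 14366 (-1059), kKnot 7523 12965 (-1515), kKnot 7014 11268 (-2173), kKnot 6325 9017 (-3109)]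
    ⟨0, 1, 2⟩ ⟨0, 1, 1⟩ ⟨3535, 938, 10000⟩ :=
  .sy nd5 nd7 (by decide +kernel)

theorem nd9 : Cov [kKnot 9116 18418 (-236), kKnot 8880 17592 (-360), kKnot 8608 16649 (-530), kKnot 8296 15577 (-764), kKnot 7938 14366 (-1059), kKnot 7523 12965 (-1515), kKnot 7014 11268 (-2173), kKnot 6325 9017 (-3109), kKnot 5247 5415 (-6679), kKnot 4054 2231 (-9817), kKnot 3350 0 (-18721)]
    ⟨0, 1, 2⟩ ⟨0, 1, 1⟩ ⟨3535, 938, 10000⟩ :=
  .un lf0 nd8 (by simp only [List.mem_cons, List.not_mem_nil, or_false]; tauto)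

theorem nd10 : Cov [kKnot 7938 14366 (-1059)]
    ⟨4, 1, 8⟩ ⟨0, 1, 4⟩ ⟨3535, 938, 10000⟩ :=
  .sy lf13 lf14 (by decide +kernel)

theorem nd11 : Cov [kKnot 9116 18418 (-236), kKnot 8880 17592 (-360), kKnot 8608 16649 (-530), kKnot 8296 15577 (-764), kKnot 7938 14366 (-1059), kKnot 7523 12965 (-1515), kKnot 7014 11268 (-2173), kKnot 6325 9017 (-3109), kKnot 5247 5415 (-6679)]
    ⟨4, 1, 8⟩ ⟨0, 1, 4⟩ ⟨3535, 938, 10000⟩ :=
  .un lf12 nd10 (by simp only [List.mem_cons, List.not_mem_nil, or_false]; tauto)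

theorem nd12 : Cov [kKnot 8608 16649 (-530), kKnot 8296 15577 (-764), kKnot 7938 14366 (-1059), kKnot 7523 12965 (-1515), kKnot 7014 11268 (-2173), kKnot 6325 9017 (-3109), kKnot 5247 5415 (-6679)]
    ⟨5, 1, 8⟩ ⟨0, 1, 4⟩ ⟨3535, 938, 10000⟩ :=
  .sy lf16 lf17 (by decide +kernel)

theorem nd13 : Cov [kKnot 9116 18418 (-236), kKnot 8880 17592 (-360), kKnot 8608 16649 (-530), kKnot 8296 15577 (-764), kKnot 7938 14366 (-1059), kKnot 7523 12965 (-1515), kKnot 7014 11268 (-2173), kKnot 6325 9017 (-3109), kKnot 5247 5415 (-6679)]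
    ⟨5, 1, 8⟩ ⟨0, 1, 4⟩ ⟨3535, 938, 10000⟩ :=
  .un lf15 nd12 (by simp only [List.mem_cons, List.not_mem_nil, or_false]; tauto)

theorem nd14 : Cov [kKnot 9116 18418 (-236), kKnot 8880 17592 (-360), kKnot 8608 16649 (-530), kKnot 8296 15577 (-764), kKnot 7938 14366 (-1059), kKnot 7523 12965 (-1515), kKnot 7014 11268 (-2173), kKnot 6325 9017 (-3109), kKnot 5247 5415 (-6679)]
    ⟨2, 1, 4⟩ ⟨0, 1, 4⟩ ⟨3535, 938, 10000⟩ :=
  .sx nd11 nd13 (by decide +kernel)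

theorem nd15 : Cov [kKnot 9116 18418 (-236), kKnot 8880 17592 (-360), kKnot 8608 16649 (-530), kKnot 8296 15577 (-764), kKnot 7938 14366 (-1059)]
    ⟨2, 1, 4⟩ ⟨1, 1, 4⟩ ⟨3535, 938, 10000⟩ :=
  .sx lf19 lf20 (by decide +kernel)

theorem nd16 : Cov [kKnot 9116 18418 (-236), kKnot 8880 17592 (-360), kKnot 8608 16649 (-530), kKnot 8296 15577 (-764), kKnot 7938 14366 (-1059), kKnot 7523 12965 (-1515), kKnot 7014 11268 (-2173), kKnot 6325 9017 (-3109), kKnot 5247 5415 (-6679)]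
    ⟨2, 1, 4⟩ ⟨1, 1, 4⟩ ⟨3535, 938, 10000⟩ :=
  .un lf18 nd15 (by simp only [List.mem_cons, List.not_mem_nil, or_false]; tauto)

theorem nd17 : Cov [kKnot 9116 18418 (-236), kKnot 8880 17592 (-360), kKnot 8608 16649 (-530), kKnot 8296 15577 (-764), kKnot 7938 14366 (-1059), kKnot 7523 12965 (-1515), kKnot 7014 11268 (-2173), kKnot 6325 9017 (-3109), kKnot 5247 5415 (-6679)]
    ⟨2, 1, 4⟩ ⟨0, 1, 2⟩ ⟨3535, 938, 10000⟩ :=
  .sy nd14 nd16 (by decide +kernel)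

theorem nd18 : Cov [kKnot 9116 18418 (-236), kKnot 8880 17592 (-360), kKnot 8608 16649 (-530), kKnot 8296 15577 (-764), kKnot 7938 14366 (-1059), kKnot 7523 12965 (-1515), kKnot 7014 11268 (-2173), kKnot 6325 9017 (-3109), kKnot 5247 5415 (-6679), kKnot 4054 2231 (-9817), kKnot 3350 0 (-18721)]
    ⟨2, 1, 4⟩ ⟨0, 1, 2⟩ ⟨3535, 938, 10000⟩ :=
  .un lf11 nd17 (by simp only [List.mem_cons, List.not_mem_nil, or_false]; tauto)

theorem nd19 : Cov [kKnot 6325 9017 (-3109), kKnot 5247 5415 (-6679)]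
    ⟨27, 3, 32⟩ ⟨0, 1, 16⟩ ⟨3535, 938, 10000⟩ :=
  .sx lf23 lf24 (by decide +kernel)

theorem nd20 : Cov [kKnot 9116 18418 (-236), kKnot 8880 17592 (-360), kKnot 8608 16649 (-530), kKnot 8296 15577 (-764), kKnot 7938 14366 (-1059), kKnot 7523 12965 (-1515), kKnot 7014 11268 (-2173), kKnot 6325 9017 (-3109), kKnot 5247 5415 (-6679), kKnot 4054 2231 (-9817), kKnot 3350 0 (-18721)]
    ⟨27, 3, 32⟩ ⟨0, 1, 16⟩ ⟨3535, 938, 10000⟩ :=
  .un lf22 nd19 (by simp only [List.mem_cons, List.not_mem_nil, or_false]; tauto)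

theorem nd21 : Cov [kKnot 9116 18418 (-236), kKnot 8880 17592 (-360), kKnot 8608 16649 (-530), kKnot 8296 15577 (-764), kKnot 7938 14366 (-1059), kKnot 7523 12965 (-1515), kKnot 7014 11268 (-2173), kKnot 6325 9017 (-3109), kKnot 5247 5415 (-6679), kKnot 4054 2231 (-9817), kKnot 3350 0 (-18721)]
    ⟨12, 3, 16⟩ ⟨0, 1, 16⟩ ⟨3535, 938, 10000⟩ :=
  .sx lf21 nd20 (by decide +kernel)

theorem nd22 : Cov [kKnot 5247 5415 (-6679)]
    ⟨27, 3, 32⟩ ⟨2, 3, 32⟩ ⟨3535, 938, 10000⟩ :=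
  .sx lf29 lf30 (by decide +kernel)

theorem nd23 : Cov [kKnot 8296 15577 (-764), kKnot 7938 14366 (-1059), kKnot 7523 12965 (-1515), kKnot 7014 11268 (-2173), kKnot 6325 9017 (-3109), kKnot 5247 5415 (-6679)]
    ⟨27, 3, 32⟩ ⟨2, 3, 32⟩ ⟨3535, 938, 10000⟩ :=
  .un lf28 nd22 (by simp only [List.mem_cons, List.not_mem_nil, or_false]; tauto)

theorem nd24 : Cov [kKnot 8296 15577 (-764), kKnot 7938 14366 (-1059), kKnot 7523 12965 (-1515), kKnot 7014 11268 (-2173), kKnot 6325 9017 (-3109), kKnot 5247 5415 (-6679)]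
    ⟨27, 3, 32⟩ ⟨1, 3, 16⟩ ⟨3535, 938, 10000⟩ :=
  .sy nd23 lf31 (by decide +kernel)

theorem nd25 : Cov [kKnot 9116 18418 (-236), kKnot 8880 17592 (-360), kKnot 8608 16649 (-530), kKnot 8296 15577 (-764), kKnot 7938 14366 (-1059), kKnot 7523 12965 (-1515), kKnot 7014 11268 (-2173), kKnot 6325 9017 (-3109), kKnot 5247 5415 (-6679), kKnot 4054 2231 (-9817)]
    ⟨27, 3, 32⟩ ⟨1, 3, 16⟩ ⟨3535, 938, 10000⟩ :=
  .un lf27 nd24 (by simp only [List.mem_cons, List.not_mem_nil, or_false]; tauto)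

theorem nd26 : Cov [kKnot 9116 18418 (-236), kKnot 8880 17592 (-360), kKnot 8608 16649 (-530), kKnot 8296 15577 (-764), kKnot 7938 14366 (-1059), kKnot 7523 12965 (-1515), kKnot 7014 11268 (-2173), kKnot 6325 9017 (-3109), kKnot 5247 5415 (-6679), kKnot 4054 2231 (-9817)]
    ⟨12, 3, 16⟩ ⟨1, 3, 16⟩ ⟨3535, 938, 10000⟩ :=
  .sx lf26 nd25 (by decide +kernel)

theorem nd27 : Cov [kKnot 9116 18418 (-236), kKnot 8880 17592 (-360), kKnot 8608 16649 (-530), kKnot 8296 15577 (-764), kKnot 7938 14366 (-1059), kKnot 7523 12965 (-1515), kKnot 7014 11268 (-2173), kKnot 6325 9017 (-3109), kKnot 5247 5415 (-6679), kKnot 4054 2231 (-9817), kKnot 3350 0 (-18721)]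
    ⟨12, 3, 16⟩ ⟨1, 3, 16⟩ ⟨3535, 938, 10000⟩ :=
  .un lf25 nd26 (by simp only [List.mem_cons, List.not_mem_nil, or_false]; tauto)

theorem nd28 : Cov [kKnot 9116 18418 (-236), kKnot 8880 17592 (-360), kKnot 8608 16649 (-530), kKnot 8296 15577 (-764), kKnot 7938 14366 (-1059), kKnot 7523 12965 (-1515), kKnot 7014 11268 (-2173), kKnot 6325 9017 (-3109), kKnot 5247 5415 (-6679), kKnot 4054 2231 (-9817), kKnot 3350 0 (-18721)]
    ⟨12, 3, 16⟩ ⟨0, 1, 4⟩ ⟨3535, 938, 10000⟩ :=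
  .sy nd21 nd27 (by decide +kernel)

theorem nd29 : Cov [kKnot 9116 18418 (-236), kKnot 8880 17592 (-360), kKnot 8608 16649 (-530), kKnot 8296 15577 (-764), kKnot 7938 14366 (-1059), kKnot 7523 12965 (-1515), kKnot 7014 11268 (-2173), kKnot 6325 9017 (-3109), kKnot 5247 5415 (-6679)]
    ⟨12, 3, 16⟩ ⟨1, 1, 4⟩ ⟨3535, 938, 10000⟩ :=
  .sx lf33 lf34 (by decide +kernel)

theorem nd30 : Cov [kKnot 9116 18418 (-236), kKnot 8880 17592 (-360), kKnot 8608 16649 (-530), kKnot 8296 15577 (-764), kKnot 7938 14366 (-1059), kKnot 7523 12965 (-1515), kKnot 7014 11268 (-2173), kKnot 6325 9017 (-3109), kKnot 5247 5415 (-6679), kKnot 4054 2231 (-9817), kKnot 3350 0 (-18721)]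
    ⟨12, 3, 16⟩ ⟨1, 1, 4⟩ ⟨3535, 938, 10000⟩ :=
  .un lf32 nd29 (by simp only [List.mem_cons, List.not_mem_nil, or_false]; tauto)

theorem nd31 : Cov [kKnot 9116 18418 (-236), kKnot 8880 17592 (-360), kKnot 8608 16649 (-530), kKnot 8296 15577 (-764), kKnot 7938 14366 (-1059), kKnot 7523 12965 (-1515), kKnot 7014 11268 (-2173), kKnot 6325 9017 (-3109), kKnot 5247 5415 (-6679), kKnot 4054 2231 (-9817), kKnot 3350 0 (-18721)]
    ⟨12, 3, 16⟩ ⟨0, 1, 2⟩ ⟨3535, 938, 10000⟩ :=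
  .sy nd28 nd30 (by decide +kernel)

theorem nd32 : Cov [kKnot 9116 18418 (-236), kKnot 8880 17592 (-360), kKnot 8608 16649 (-530), kKnot 8296 15577 (-764), kKnot 7938 14366 (-1059), kKnot 7523 12965 (-1515), kKnot 7014 11268 (-2173), kKnot 6325 9017 (-3109), kKnot 5247 5415 (-6679), kKnot 4054 2231 (-9817), kKnot 3350 0 (-18721)]
    ⟨60, 3, 64⟩ ⟨0, 1, 16⟩ ⟨3535, 938, 10000⟩ :=
  .sy lf35 lf36 (by decide +kernel)

theorem nd33 : Cov [kKnot 9116 18418 (-236), kKnot 8880 17592 (-360), kKnot 8608 16649 (-530), kKnot 8296 15577 (-764), kKnot 7938 14366 (-1059), kKnot 7523 12965 (-1515), kKnot 7014 11268 (-2173), kKnot 6325 9017 (-3109), kKnot 5247 5415 (-6679), kKnot 4054 2231 (-9817), kKnot 3350 0 (-18721)]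
    ⟨252, 3, 256⟩ ⟨0, 1, 64⟩ ⟨3535, 938, 10000⟩ :=
  .sy lf37 lf38 (by decide +kernel)

theorem nd34 : Cov [kKnot 9116 18418 (-236), kKnot 8880 17592 (-360), kKnot 8608 16649 (-530), kKnot 8296 15577 (-764), kKnot 7938 14366 (-1059), kKnot 7523 12965 (-1515), kKnot 7014 11268 (-2173), kKnot 6325 9017 (-3109), kKnot 5247 5415 (-6679), kKnot 4054 2231 (-9817), kKnot 3350 0 (-18721)]
    ⟨1020, 3, 1024⟩ ⟨0, 1, 256⟩ ⟨3535, 938, 10000⟩ :=
  .sy lf39 lf40 (by decide +kernel)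

theorem nd35 : Cov [kKnot 7523 12965 (-1515), kKnot 7014 11268 (-2173), kKnot 6325 9017 (-3109), kKnot 5247 5415 (-6679), kKnot 4054 2231 (-9817), kKnot 3350 0 (-18721)]
    ⟨4092, 3, 4096⟩ ⟨0, 1, 1024⟩ ⟨3535, 938, 10000⟩ :=
  .sy lf42 lf43 (by decide +kernel)

theorem nd36 : Cov [kKnot 9116 18418 (-236), kKnot 8880 17592 (-360), kKnot 8608 16649 (-530), kKnot 8296 15577 (-764), kKnot 7938 14366 (-1059), kKnot 7523 12965 (-1515), kKnot 7014 11268 (-2173), kKnot 6325 9017 (-3109), kKnot 5247 5415 (-6679), kKnot 4054 2231 (-9817), kKnot 3350 0 (-18721)]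
    ⟨4092, 3, 4096⟩ ⟨0, 1, 1024⟩ ⟨3535, 938, 10000⟩ :=
  .un lf41 nd35 (by simp only [List.mem_cons, List.not_mem_nil, or_false]; tauto)

theorem nd37 : Cov [kKnot 5247 5415 (-6679)]
    ⟨16380, 3, 16384⟩ ⟨0, 1, 4096⟩ ⟨3535, 938, 10000⟩ :=
  .sy lf46 lf47 (by decide +kernel)

theorem nd38 : Cov [kKnot 7523 12965 (-1515), kKnot 7014 11268 (-2173), kKnot 6325 9017 (-3109), kKnot 5247 5415 (-6679), kKnot 4054 2231 (-9817), kKnot 3350 0 (-18721)]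
    ⟨16380, 3, 16384⟩ ⟨0, 1, 4096⟩ ⟨3535, 938, 10000⟩ :=
  .un lf45 nd37 (by simp only [List.mem_cons, List.not_mem_nil, or_false]; tauto)

theorem nd39 : Cov [kKnot 5247 5415 (-6679)]
    ⟨16383, 1, 16384⟩ ⟨0, 1, 16384⟩ ⟨3535, 938, 10000⟩ :=
  .sx lf50 lf51 (by decide +kernel)

theorem nd40 : Cov [kKnot 5247 5415 (-6679), kKnot 4054 2231 (-9817), kKnot 3350 0 (-18721)]
    ⟨16383, 1, 16384⟩ ⟨0, 1, 16384⟩ ⟨3535, 938, 10000⟩ :=
  .un lf49 nd39 (by simp only [List.mem_cons, List.not_mem_nil, or_false]; tauto)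

theorem nd41 : Cov [kKnot 5247 5415 (-6679), kKnot 4054 2231 (-9817), kKnot 3350 0 (-18721)]
    ⟨16383, 1, 16384⟩ ⟨0, 1, 4096⟩ ⟨3535, 938, 10000⟩ :=
  .sy nd40 lf52 (by decide +kernel)

theorem nd42 : Cov [kKnot 7523 12965 (-1515), kKnot 7014 11268 (-2173), kKnot 6325 9017 (-3109), kKnot 5247 5415 (-6679), kKnot 4054 2231 (-9817), kKnot 3350 0 (-18721)]
    ⟨16383, 1, 16384⟩ ⟨0, 1, 4096⟩ ⟨3535, 938, 10000⟩ :=
  .un lf48 nd41 (by simp only [List.mem_cons, List.not_mem_nil, or_false]; tauto)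

theorem nd43 : Cov [kKnot 7523 12965 (-1515), kKnot 7014 11268 (-2173), kKnot 6325 9017 (-3109), kKnot 5247 5415 (-6679), kKnot 4054 2231 (-9817), kKnot 3350 0 (-18721)]
    ⟨4095, 1, 4096⟩ ⟨0, 1, 4096⟩ ⟨3535, 938, 10000⟩ :=
  .sx nd38 nd42 (by decide +kernel)

theorem nd44 : Cov [kKnot 9116 18418 (-236), kKnot 8880 17592 (-360), kKnot 8608 16649 (-530), kKnot 8296 15577 (-764), kKnot 7938 14366 (-1059), kKnot 7523 12965 (-1515), kKnot 7014 11268 (-2173), kKnot 6325 9017 (-3109), kKnot 5247 5415 (-6679), kKnot 4054 2231 (-9817), kKnot 3350 0 (-18721)]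
    ⟨4095, 1, 4096⟩ ⟨0, 1, 4096⟩ ⟨3535, 938, 10000⟩ :=
  .un lf44 nd43 (by simp only [List.mem_cons, List.not_mem_nil, or_false]; tauto)

theorem nd45 : Cov [kKnot 9116 18418 (-236), kKnot 8880 17592 (-360), kKnot 8608 16649 (-530), kKnot 8296 15577 (-764), kKnot 7938 14366 (-1059), kKnot 7523 12965 (-1515), kKnot 7014 11268 (-2173), kKnot 6325 9017 (-3109), kKnot 5247 5415 (-6679), kKnot 4054 2231 (-9817), kKnot 3350 0 (-18721)]
    ⟨4095, 1, 4096⟩ ⟨0, 1, 1024⟩ ⟨3535, 938, 10000⟩ :=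
  .sy nd44 lf53 (by decide +kernel)

theorem nd46 : Cov [kKnot 9116 18418 (-236), kKnot 8880 17592 (-360), kKnot 8608 16649 (-530), kKnot 8296 15577 (-764), kKnot 7938 14366 (-1059), kKnot 7523 12965 (-1515), kKnot 7014 11268 (-2173), kKnot 6325 9017 (-3109), kKnot 5247 5415 (-6679), kKnot 4054 2231 (-9817), kKnot 3350 0 (-18721)]
    ⟨1023, 1, 1024⟩ ⟨0, 1, 1024⟩ ⟨3535, 938, 10000⟩ :=
  .sx nd36 nd45 (by decide +kernel)

theorem nd47 : Cov [kKnot 6325 9017 (-3109), kKnot 5247 5415 (-6679), kKnot 4054 2231 (-9817), kKnot 3350 0 (-18721)]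
    ⟨1023, 1, 1024⟩ ⟨1, 3, 1024⟩ ⟨3535, 938, 10000⟩ :=
  .sx lf55 lf56 (by decide +kernel)

theorem nd48 : Cov [kKnot 9116 18418 (-236), kKnot 8880 17592 (-360), kKnot 8608 16649 (-530), kKnot 8296 15577 (-764), kKnot 7938 14366 (-1059), kKnot 7523 12965 (-1515), kKnot 7014 11268 (-2173), kKnot 6325 9017 (-3109), kKnot 5247 5415 (-6679), kKnot 4054 2231 (-9817), kKnot 3350 0 (-18721)]
    ⟨1023, 1, 1024⟩ ⟨1, 3, 1024⟩ ⟨3535, 938, 10000⟩ :=
  .un lf54 nd47 (by simp only [List.mem_cons, List.not_mem_nil, or_false]; tauto)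

theorem nd49 : Cov [kKnot 9116 18418 (-236), kKnot 8880 17592 (-360), kKnot 8608 16649 (-530), kKnot 8296 15577 (-764), kKnot 7938 14366 (-1059), kKnot 7523 12965 (-1515), kKnot 7014 11268 (-2173), kKnot 6325 9017 (-3109), kKnot 5247 5415 (-6679), kKnot 4054 2231 (-9817), kKnot 3350 0 (-18721)]
    ⟨1023, 1, 1024⟩ ⟨0, 1, 256⟩ ⟨3535, 938, 10000⟩ :=
  .sy nd46 nd48 (by decide +kernel)

theorem nd50 : Cov [kKnot 9116 18418 (-236), kKnot 8880 17592 (-360), kKnot 8608 16649 (-530), kKnot 8296 15577 (-764), kKnot 7938 14366 (-1059), kKnot 7523 12965 (-1515), kKnot 7014 11268 (-2173), kKnot 6325 9017 (-3109), kKnot 5247 5415 (-6679), kKnot 4054 2231 (-9817), kKnot 3350 0 (-18721)]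
    ⟨255, 1, 256⟩ ⟨0, 1, 256⟩ ⟨3535, 938, 10000⟩ :=
  .sx nd34 nd49 (by decide +kernel)

theorem nd51 : Cov [kKnot 5247 5415 (-6679)]
    ⟨4095, 1, 4096⟩ ⟨1, 3, 256⟩ ⟨3535, 938, 10000⟩ :=
  .sx lf61 lf62 (by decide +kernel)

theorem nd52 : Cov [kKnot 7523 12965 (-1515), kKnot 7014 11268 (-2173), kKnot 6325 9017 (-3109), kKnot 5247 5415 (-6679), kKnot 4054 2231 (-9817), kKnot 3350 0 (-18721)]
    ⟨4095, 1, 4096⟩ ⟨1, 3, 256⟩ ⟨3535, 938, 10000⟩ :=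
  .un lf60 nd51 (by simp only [List.mem_cons, List.not_mem_nil, or_false]; tauto)

theorem nd53 : Cov [kKnot 7523 12965 (-1515), kKnot 7014 11268 (-2173), kKnot 6325 9017 (-3109), kKnot 5247 5415 (-6679), kKnot 4054 2231 (-9817), kKnot 3350 0 (-18721)]
    ⟨1023, 1, 1024⟩ ⟨1, 3, 256⟩ ⟨3535, 938, 10000⟩ :=
  .sx lf59 nd52 (by decide +kernel)

theorem nd54 : Cov [kKnot 9116 18418 (-236), kKnot 8880 17592 (-360), kKnot 8608 16649 (-530), kKnot 8296 15577 (-764), kKnot 7938 14366 (-1059), kKnot 7523 12965 (-1515), kKnot 7014 11268 (-2173), kKnot 6325 9017 (-3109), kKnot 5247 5415 (-6679), kKnot 4054 2231 (-9817), kKnot 3350 0 (-18721)]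
    ⟨1023, 1, 1024⟩ ⟨1, 3, 256⟩ ⟨3535, 938, 10000⟩ :=
  .un lf58 nd53 (by simp only [List.mem_cons, List.not_mem_nil, or_false]; tauto)

theorem nd55 : Cov [kKnot 9116 18418 (-236), kKnot 8880 17592 (-360), kKnot 8608 16649 (-530), kKnot 8296 15577 (-764), kKnot 7938 14366 (-1059), kKnot 7523 12965 (-1515), kKnot 7014 11268 (-2173), kKnot 6325 9017 (-3109), kKnot 5247 5415 (-6679), kKnot 4054 2231 (-9817), kKnot 3350 0 (-18721)]
    ⟨255, 1, 256⟩ ⟨1, 3, 256⟩ ⟨3535, 938, 10000⟩ :=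
  .sx lf57 nd54 (by decide +kernel)

theorem nd56 : Cov [kKnot 9116 18418 (-236), kKnot 8880 17592 (-360), kKnot 8608 16649 (-530), kKnot 8296 15577 (-764), kKnot 7938 14366 (-1059), kKnot 7523 12965 (-1515), kKnot 7014 11268 (-2173), kKnot 6325 9017 (-3109), kKnot 5247 5415 (-6679), kKnot 4054 2231 (-9817), kKnot 3350 0 (-18721)]
    ⟨255, 1, 256⟩ ⟨0, 1, 64⟩ ⟨3535, 938, 10000⟩ :=
  .sy nd50 nd55 (by decide +kernel)

theorem nd57 : Cov [kKnot 9116 18418 (-236), kKnot 8880 17592 (-360), kKnot 8608 16649 (-530), kKnot 8296 15577 (-764), kKnot 7938 14366 (-1059), kKnot 7523 12965 (-1515), kKnot 7014 11268 (-2173), kKnot 6325 9017 (-3109), kKnot 5247 5415 (-6679), kKnot 4054 2231 (-9817), kKnot 3350 0 (-18721)]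
    ⟨63, 1, 64⟩ ⟨0, 1, 64⟩ ⟨3535, 938, 10000⟩ :=
  .sx nd33 nd56 (by decide +kernel)

theorem nd58 : Cov [kKnot 5247 5415 (-6679)]
    ⟨16383, 1, 16384⟩ ⟨1, 3, 64⟩ ⟨3535, 938, 10000⟩ :=
  .sx lf69 lf70 (by decide +kernel)

theorem nd59 : Cov [kKnot 7938 14366 (-1059), kKnot 7523 12965 (-1515), kKnot 7014 11268 (-2173), kKnot 6325 9017 (-3109), kKnot 5247 5415 (-6679), kKnot 4054 2231 (-9817), kKnot 3350 0 (-18721)]
    ⟨16383, 1, 16384⟩ ⟨1, 3, 64⟩ ⟨3535, 938, 10000⟩ :=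
  .un lf68 nd58 (by simp only [List.mem_cons, List.not_mem_nil, or_false]; tauto)

theorem nd60 : Cov [kKnot 7938 14366 (-1059), kKnot 7523 12965 (-1515), kKnot 7014 11268 (-2173), kKnot 6325 9017 (-3109), kKnot 5247 5415 (-6679), kKnot 4054 2231 (-9817), kKnot 3350 0 (-18721)]
    ⟨4095, 1, 4096⟩ ⟨1, 3, 64⟩ ⟨3535, 938, 10000⟩ :=
  .sx lf67 nd59 (by decide +kernel)

theorem nd61 : Cov [kKnot 9116 18418 (-236), kKnot 8880 17592 (-360), kKnot 8608 16649 (-530), kKnot 8296 15577 (-764), kKnot 7938 14366 (-1059), kKnot 7523 12965 (-1515), kKnot 7014 11268 (-2173), kKnot 6325 9017 (-3109), kKnot 5247 5415 (-6679), kKnot 4054 2231 (-9817), kKnot 3350 0 (-18721)]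
    ⟨4095, 1, 4096⟩ ⟨1, 3, 64⟩ ⟨3535, 938, 10000⟩ :=
  .un lf66 nd60 (by simp only [List.mem_cons, List.not_mem_nil, or_false]; tauto)

theorem nd62 : Cov [kKnot 9116 18418 (-236), kKnot 8880 17592 (-360), kKnot 8608 16649 (-530), kKnot 8296 15577 (-764), kKnot 7938 14366 (-1059), kKnot 7523 12965 (-1515), kKnot 7014 11268 (-2173), kKnot 6325 9017 (-3109), kKnot 5247 5415 (-6679), kKnot 4054 2231 (-9817), kKnot 3350 0 (-18721)]
    ⟨1023, 1, 1024⟩ ⟨1, 3, 64⟩ ⟨3535, 938, 10000⟩ :=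
  .sx lf65 nd61 (by decide +kernel)

theorem nd63 : Cov [kKnot 9116 18418 (-236), kKnot 8880 17592 (-360), kKnot 8608 16649 (-530), kKnot 8296 15577 (-764), kKnot 7938 14366 (-1059), kKnot 7523 12965 (-1515), kKnot 7014 11268 (-2173), kKnot 6325 9017 (-3109), kKnot 5247 5415 (-6679), kKnot 4054 2231 (-9817), kKnot 3350 0 (-18721)]
    ⟨255, 1, 256⟩ ⟨1, 3, 64⟩ ⟨3535, 938, 10000⟩ :=
  .sx lf64 nd62 (by decide +kernel)

theorem nd64 : Cov [kKnot 9116 18418 (-236), kKnot 8880 17592 (-360), kKnot 8608 16649 (-530), kKnot 8296 15577 (-764), kKnot 7938 14366 (-1059), kKnot 7523 12965 (-1515), kKnot 7014 11268 (-2173), kKnot 6325 9017 (-3109), kKnot 5247 5415 (-6679), kKnot 4054 2231 (-9817), kKnot 3350 0 (-18721)]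
    ⟨63, 1, 64⟩ ⟨1, 3, 64⟩ ⟨3535, 938, 10000⟩ :=
  .sx lf63 nd63 (by decide +kernel)

theorem nd65 : Cov [kKnot 9116 18418 (-236), kKnot 8880 17592 (-360), kKnot 8608 16649 (-530), kKnot 8296 15577 (-764), kKnot 7938 14366 (-1059), kKnot 7523 12965 (-1515), kKnot 7014 11268 (-2173), kKnot 6325 9017 (-3109), kKnot 5247 5415 (-6679), kKnot 4054 2231 (-9817), kKnot 3350 0 (-18721)]
    ⟨63, 1, 64⟩ ⟨0, 1, 16⟩ ⟨3535, 938, 10000⟩ :=
  .sy nd57 nd64 (by decide +kernel)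

theorem nd66 : Cov [kKnot 9116 18418 (-236), kKnot 8880 17592 (-360), kKnot 8608 16649 (-530), kKnot 8296 15577 (-764), kKnot 7938 14366 (-1059), kKnot 7523 12965 (-1515), kKnot 7014 11268 (-2173), kKnot 6325 9017 (-3109), kKnot 5247 5415 (-6679), kKnot 4054 2231 (-9817), kKnot 3350 0 (-18721)]
    ⟨15, 1, 16⟩ ⟨0, 1, 16⟩ ⟨3535, 938, 10000⟩ :=
  .sx nd32 nd65 (by decide +kernel)

theorem nd67 : Cov [kKnot 5247 5415 (-6679)]
    ⟨60, 3, 64⟩ ⟨2, 3, 32⟩ ⟨3535, 938, 10000⟩ :=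
  .sx lf73 lf74 (by decide +kernel)

theorem nd68 : Cov [kKnot 8296 15577 (-764), kKnot 7938 14366 (-1059), kKnot 7523 12965 (-1515), kKnot 7014 11268 (-2173), kKnot 6325 9017 (-3109), kKnot 5247 5415 (-6679)]
    ⟨60, 3, 64⟩ ⟨2, 3, 32⟩ ⟨3535, 938, 10000⟩ :=
  .un lf72 nd67 (by simp only [List.mem_cons, List.not_mem_nil, or_false]; tauto)

theorem nd69 : Cov [kKnot 8296 15577 (-764), kKnot 7938 14366 (-1059), kKnot 7523 12965 (-1515), kKnot 7014 11268 (-2173), kKnot 6325 9017 (-3109), kKnot 5247 5415 (-6679)]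
    ⟨60, 3, 64⟩ ⟨1, 3, 16⟩ ⟨3535, 938, 10000⟩ :=
  .sy nd68 lf75 (by decide +kernel)

theorem nd70 : Cov [kKnot 9116 18418 (-236), kKnot 8880 17592 (-360), kKnot 8608 16649 (-530), kKnot 8296 15577 (-764), kKnot 7938 14366 (-1059), kKnot 7523 12965 (-1515), kKnot 7014 11268 (-2173), kKnot 6325 9017 (-3109), kKnot 5247 5415 (-6679), kKnot 4054 2231 (-9817), kKnot 3350 0 (-18721)]
    ⟨60, 3, 64⟩ ⟨1, 3, 16⟩ ⟨3535, 938, 10000⟩ :=
  .un lf71 nd69 (by simp only [List.mem_cons, List.not_mem_nil, or_false]; tauto)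

theorem nd71 : Cov [kKnot 6325 9017 (-3109), kKnot 5247 5415 (-6679)]
    ⟨252, 3, 256⟩ ⟨1, 3, 16⟩ ⟨3535, 938, 10000⟩ :=
  .sy lf77 lf78 (by decide +kernel)

theorem nd72 : Cov [kKnot 9116 18418 (-236), kKnot 8880 17592 (-360), kKnot 8608 16649 (-530), kKnot 8296 15577 (-764), kKnot 7938 14366 (-1059), kKnot 7523 12965 (-1515), kKnot 7014 11268 (-2173), kKnot 6325 9017 (-3109), kKnot 5247 5415 (-6679), kKnot 4054 2231 (-9817), kKnot 3350 0 (-18721)]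
    ⟨252, 3, 256⟩ ⟨1, 3, 16⟩ ⟨3535, 938, 10000⟩ :=
  .un lf76 nd71 (by simp only [List.mem_cons, List.not_mem_nil, or_false]; tauto)

theorem nd73 : Cov [kKnot 5247 5415 (-6679)]
    ⟨262143, 1, 262144⟩ ⟨2, 3, 32⟩ ⟨3535, 938, 10000⟩ :=
  .sx lf87 lf88 (by decide +kernel)

theorem nd74 : Cov [kKnot 7014 11268 (-2173), kKnot 6325 9017 (-3109), kKnot 5247 5415 (-6679), kKnot 4054 2231 (-9817)]
    ⟨262143, 1, 262144⟩ ⟨2, 3, 32⟩ ⟨3535, 938, 10000⟩ :=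
  .un lf86 nd73 (by simp only [List.mem_cons, List.not_mem_nil, or_false]; tauto)

theorem nd75 : Cov [kKnot 7014 11268 (-2173), kKnot 6325 9017 (-3109), kKnot 5247 5415 (-6679), kKnot 4054 2231 (-9817)]
    ⟨65535, 1, 65536⟩ ⟨2, 3, 32⟩ ⟨3535, 938, 10000⟩ :=
  .sx lf85 nd74 (by decide +kernel)

theorem nd76 : Cov [kKnot 8296 15577 (-764), kKnot 7938 14366 (-1059), kKnot 7523 12965 (-1515), kKnot 7014 11268 (-2173), kKnot 6325 9017 (-3109), kKnot 5247 5415 (-6679), kKnot 4054 2231 (-9817), kKnot 3350 0 (-18721)]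
    ⟨65535, 1, 65536⟩ ⟨2, 3, 32⟩ ⟨3535, 938, 10000⟩ :=
  .un lf84 nd75 (by simp only [List.mem_cons, List.not_mem_nil, or_false]; tauto)

theorem nd77 : Cov [kKnot 8296 15577 (-764), kKnot 7938 14366 (-1059), kKnot 7523 12965 (-1515), kKnot 7014 11268 (-2173), kKnot 6325 9017 (-3109), kKnot 5247 5415 (-6679), kKnot 4054 2231 (-9817), kKnot 3350 0 (-18721)]
    ⟨16383, 1, 16384⟩ ⟨2, 3, 32⟩ ⟨3535, 938, 10000⟩ :=
  .sx lf83 nd76 (by decide +kernel)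

theorem nd78 : Cov [kKnot 9116 18418 (-236), kKnot 8880 17592 (-360), kKnot 8608 16649 (-530), kKnot 8296 15577 (-764), kKnot 7938 14366 (-1059), kKnot 7523 12965 (-1515), kKnot 7014 11268 (-2173), kKnot 6325 9017 (-3109), kKnot 5247 5415 (-6679), kKnot 4054 2231 (-9817), kKnot 3350 0 (-18721)]
    ⟨16383, 1, 16384⟩ ⟨2, 3, 32⟩ ⟨3535, 938, 10000⟩ :=
  .un lf82 nd77 (by simp only [List.mem_cons, List.not_mem_nil, or_false]; tauto)

theorem nd79 : Cov [kKnot 5247 5415 (-6679)]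
    ⟨1048575, 1, 1048576⟩ ⟨5, 3, 32⟩ ⟨3535, 938, 10000⟩ :=
  .sx lf95 lf96 (by decide +kernel)

theorem nd80 : Cov [kKnot 7014 11268 (-2173), kKnot 6325 9017 (-3109), kKnot 5247 5415 (-6679)]
    ⟨1048575, 1, 1048576⟩ ⟨5, 3, 32⟩ ⟨3535, 938, 10000⟩ :=
  .un lf94 nd79 (by simp only [List.mem_cons, List.not_mem_nil, or_false]; tauto)

theorem nd81 : Cov [kKnot 7014 11268 (-2173), kKnot 6325 9017 (-3109), kKnot 5247 5415 (-6679)]
    ⟨262143, 1, 262144⟩ ⟨5, 3, 32⟩ ⟨3535, 938, 10000⟩ :=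
  .sx lf93 nd80 (by decide +kernel)

theorem nd82 : Cov [kKnot 8296 15577 (-764), kKnot 7938 14366 (-1059), kKnot 7523 12965 (-1515), kKnot 7014 11268 (-2173), kKnot 6325 9017 (-3109), kKnot 5247 5415 (-6679), kKnot 4054 2231 (-9817)]
    ⟨262143, 1, 262144⟩ ⟨5, 3, 32⟩ ⟨3535, 938, 10000⟩ :=
  .un lf92 nd81 (by simp only [List.mem_cons, List.not_mem_nil, or_false]; tauto)

theorem nd83 : Cov [kKnot 8296 15577 (-764), kKnot 7938 14366 (-1059), kKnot 7523 12965 (-1515), kKnot 7014 11268 (-2173), kKnot 6325 9017 (-3109), kKnot 5247 5415 (-6679), kKnot 4054 2231 (-9817)]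
    ⟨65535, 1, 65536⟩ ⟨5, 3, 32⟩ ⟨3535, 938, 10000⟩ :=
  .sx lf91 nd82 (by decide +kernel)

theorem nd84 : Cov [kKnot 9116 18418 (-236), kKnot 8880 17592 (-360), kKnot 8608 16649 (-530), kKnot 8296 15577 (-764), kKnot 7938 14366 (-1059), kKnot 7523 12965 (-1515), kKnot 7014 11268 (-2173), kKnot 6325 9017 (-3109), kKnot 5247 5415 (-6679), kKnot 4054 2231 (-9817), kKnot 3350 0 (-18721)]
    ⟨65535, 1, 65536⟩ ⟨5, 3, 32⟩ ⟨3535, 938, 10000⟩ :=
  .un lf90 nd83 (by simp only [List.mem_cons, List.not_mem_nil, or_false]; tauto)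

theorem nd85 : Cov [kKnot 9116 18418 (-236), kKnot 8880 17592 (-360), kKnot 8608 16649 (-530), kKnot 8296 15577 (-764), kKnot 7938 14366 (-1059), kKnot 7523 12965 (-1515), kKnot 7014 11268 (-2173), kKnot 6325 9017 (-3109), kKnot 5247 5415 (-6679), kKnot 4054 2231 (-9817), kKnot 3350 0 (-18721)]
    ⟨16383, 1, 16384⟩ ⟨5, 3, 32⟩ ⟨3535, 938, 10000⟩ :=
  .sx lf89 nd84 (by decide +kernel)

theorem nd86 : Cov [kKnot 9116 18418 (-236), kKnot 8880 17592 (-360), kKnot 8608 16649 (-530), kKnot 8296 15577 (-764), kKnot 7938 14366 (-1059), kKnot 7523 12965 (-1515), kKnot 7014 11268 (-2173), kKnot 6325 9017 (-3109), kKnot 5247 5415 (-6679), kKnot 4054 2231 (-9817), kKnot 3350 0 (-18721)]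
    ⟨16383, 1, 16384⟩ ⟨1, 3, 16⟩ ⟨3535, 938, 10000⟩ :=
  .sy nd78 nd85 (by decide +kernel)

theorem nd87 : Cov [kKnot 9116 18418 (-236), kKnot 8880 17592 (-360), kKnot 8608 16649 (-530), kKnot 8296 15577 (-764), kKnot 7938 14366 (-1059), kKnot 7523 12965 (-1515), kKnot 7014 11268 (-2173), kKnot 6325 9017 (-3109), kKnot 5247 5415 (-6679), kKnot 4054 2231 (-9817), kKnot 3350 0 (-18721)]
    ⟨4095, 1, 4096⟩ ⟨1, 3, 16⟩ ⟨3535, 938, 10000⟩ :=
  .sx lf81 nd86 (by decide +kernel)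

theorem nd88 : Cov [kKnot 9116 18418 (-236), kKnot 8880 17592 (-360), kKnot 8608 16649 (-530), kKnot 8296 15577 (-764), kKnot 7938 14366 (-1059), kKnot 7523 12965 (-1515), kKnot 7014 11268 (-2173), kKnot 6325 9017 (-3109), kKnot 5247 5415 (-6679), kKnot 4054 2231 (-9817), kKnot 3350 0 (-18721)]
    ⟨1023, 1, 1024⟩ ⟨1, 3, 16⟩ ⟨3535, 938, 10000⟩ :=
  .sx lf80 nd87 (by decide +kernel)

theorem nd89 : Cov [kKnot 9116 18418 (-236), kKnot 8880 17592 (-360), kKnot 8608 16649 (-530), kKnot 8296 15577 (-764), kKnot 7938 14366 (-1059), kKnot 7523 12965 (-1515), kKnot 7014 11268 (-2173), kKnot 6325 9017 (-3109), kKnot 5247 5415 (-6679), kKnot 4054 2231 (-9817), kKnot 3350 0 (-18721)]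
    ⟨255, 1, 256⟩ ⟨1, 3, 16⟩ ⟨3535, 938, 10000⟩ :=
  .sx lf79 nd88 (by decide +kernel)

theorem nd90 : Cov [kKnot 9116 18418 (-236), kKnot 8880 17592 (-360), kKnot 8608 16649 (-530), kKnot 8296 15577 (-764), kKnot 7938 14366 (-1059), kKnot 7523 12965 (-1515), kKnot 7014 11268 (-2173), kKnot 6325 9017 (-3109), kKnot 5247 5415 (-6679), kKnot 4054 2231 (-9817), kKnot 3350 0 (-18721)]
    ⟨63, 1, 64⟩ ⟨1, 3, 16⟩ ⟨3535, 938, 10000⟩ :=
  .sx nd72 nd89 (by decide +kernel)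

theorem nd91 : Cov [kKnot 9116 18418 (-236), kKnot 8880 17592 (-360), kKnot 8608 16649 (-530), kKnot 8296 15577 (-764), kKnot 7938 14366 (-1059), kKnot 7523 12965 (-1515), kKnot 7014 11268 (-2173), kKnot 6325 9017 (-3109), kKnot 5247 5415 (-6679), kKnot 4054 2231 (-9817), kKnot 3350 0 (-18721)]
    ⟨15, 1, 16⟩ ⟨1, 3, 16⟩ ⟨3535, 938, 10000⟩ :=
  .sx nd70 nd90 (by decide +kernel)

theorem nd92 : Cov [kKnot 9116 18418 (-236), kKnot 8880 17592 (-360), kKnot 8608 16649 (-530), kKnot 8296 15577 (-764), kKnot 7938 14366 (-1059), kKnot 7523 12965 (-1515), kKnot 7014 11268 (-2173), kKnot 6325 9017 (-3109), kKnot 5247 5415 (-6679), kKnot 4054 2231 (-9817), kKnot 3350 0 (-18721)]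
    ⟨15, 1, 16⟩ ⟨0, 1, 4⟩ ⟨3535, 938, 10000⟩ :=
  .sy nd66 nd91 (by decide +kernel)

theorem nd93 : Cov [kKnot 7938 14366 (-1059), kKnot 7523 12965 (-1515), kKnot 7014 11268 (-2173)]
    ⟨60, 3, 64⟩ ⟨1, 1, 4⟩ ⟨3535, 938, 10000⟩ :=
  .sx lf98 lf99 (by decide +kernel)

theorem nd94 : Cov [kKnot 9116 18418 (-236), kKnot 8880 17592 (-360), kKnot 8608 16649 (-530), kKnot 8296 15577 (-764), kKnot 7938 14366 (-1059), kKnot 7523 12965 (-1515), kKnot 7014 11268 (-2173), kKnot 6325 9017 (-3109), kKnot 5247 5415 (-6679), kKnot 4054 2231 (-9817), kKnot 3350 0 (-18721)]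
    ⟨60, 3, 64⟩ ⟨1, 1, 4⟩ ⟨3535, 938, 10000⟩ :=
  .un lf97 nd93 (by simp only [List.mem_cons, List.not_mem_nil, or_false]; tauto)

theorem nd95 : Cov [kKnot 9116 18418 (-236), kKnot 8880 17592 (-360), kKnot 8608 16649 (-530), kKnot 8296 15577 (-764), kKnot 7938 14366 (-1059), kKnot 7523 12965 (-1515), kKnot 7014 11268 (-2173), kKnot 6325 9017 (-3109), kKnot 5247 5415 (-6679)]
    ⟨1048575, 1, 1048576⟩ ⟨1, 1, 4⟩ ⟨3535, 938, 10000⟩ :=
  .sx lf108 lf109 (by decide +kernel)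

theorem nd96 : Cov [kKnot 9116 18418 (-236), kKnot 8880 17592 (-360), kKnot 8608 16649 (-530), kKnot 8296 15577 (-764), kKnot 7938 14366 (-1059), kKnot 7523 12965 (-1515), kKnot 7014 11268 (-2173), kKnot 6325 9017 (-3109), kKnot 5247 5415 (-6679)]
    ⟨262143, 1, 262144⟩ ⟨1, 1, 4⟩ ⟨3535, 938, 10000⟩ :=
  .sx lf107 nd95 (by decide +kernel)

theorem nd97 : Cov [kKnot 9116 18418 (-236), kKnot 8880 17592 (-360), kKnot 8608 16649 (-530), kKnot 8296 15577 (-764), kKnot 7938 14366 (-1059), kKnot 7523 12965 (-1515), kKnot 7014 11268 (-2173), kKnot 6325 9017 (-3109), kKnot 5247 5415 (-6679), kKnot 4054 2231 (-9817), kKnot 3350 0 (-18721)]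
    ⟨262143, 1, 262144⟩ ⟨1, 1, 4⟩ ⟨3535, 938, 10000⟩ :=
  .un lf106 nd96 (by simp only [List.mem_cons, List.not_mem_nil, or_false]; tauto)

theorem nd98 : Cov [kKnot 9116 18418 (-236), kKnot 8880 17592 (-360), kKnot 8608 16649 (-530), kKnot 8296 15577 (-764), kKnot 7938 14366 (-1059), kKnot 7523 12965 (-1515), kKnot 7014 11268 (-2173), kKnot 6325 9017 (-3109), kKnot 5247 5415 (-6679), kKnot 4054 2231 (-9817), kKnot 3350 0 (-18721)]
    ⟨65535, 1, 65536⟩ ⟨1, 1, 4⟩ ⟨3535, 938, 10000⟩ :=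
  .sx lf105 nd97 (by decide +kernel)

theorem nd99 : Cov [kKnot 9116 18418 (-236), kKnot 8880 17592 (-360), kKnot 8608 16649 (-530), kKnot 8296 15577 (-764), kKnot 7938 14366 (-1059), kKnot 7523 12965 (-1515), kKnot 7014 11268 (-2173), kKnot 6325 9017 (-3109), kKnot 5247 5415 (-6679), kKnot 4054 2231 (-9817), kKnot 3350 0 (-18721)]
    ⟨16383, 1, 16384⟩ ⟨1, 1, 4⟩ ⟨3535, 938, 10000⟩ :=
  .sx lf104 nd98 (by decide +kernel)

theorem nd100 : Cov [kKnot 9116 18418 (-236), kKnot 8880 17592 (-360), kKnot 8608 16649 (-530), kKnot 8296 15577 (-764), kKnot 7938 14366 (-1059), kKnot 7523 12965 (-1515), kKnot 7014 11268 (-2173), kKnot 6325 9017 (-3109), kKnot 5247 5415 (-6679), kKnot 4054 2231 (-9817), kKnot 3350 0 (-18721)]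
    ⟨4095, 1, 4096⟩ ⟨1, 1, 4⟩ ⟨3535, 938, 10000⟩ :=
  .sx lf103 nd99 (by decide +kernel)

theorem nd101 : Cov [kKnot 9116 18418 (-236), kKnot 8880 17592 (-360), kKnot 8608 16649 (-530), kKnot 8296 15577 (-764), kKnot 7938 14366 (-1059), kKnot 7523 12965 (-1515), kKnot 7014 11268 (-2173), kKnot 6325 9017 (-3109), kKnot 5247 5415 (-6679), kKnot 4054 2231 (-9817), kKnot 3350 0 (-18721)]
    ⟨1023, 1, 1024⟩ ⟨1, 1, 4⟩ ⟨3535, 938, 10000⟩ :=
  .sx lf102 nd100 (by decide +kernel)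

theorem nd102 : Cov [kKnot 9116 18418 (-236), kKnot 8880 17592 (-360), kKnot 8608 16649 (-530), kKnot 8296 15577 (-764), kKnot 7938 14366 (-1059), kKnot 7523 12965 (-1515), kKnot 7014 11268 (-2173), kKnot 6325 9017 (-3109), kKnot 5247 5415 (-6679), kKnot 4054 2231 (-9817), kKnot 3350 0 (-18721)]
    ⟨255, 1, 256⟩ ⟨1, 1, 4⟩ ⟨3535, 938, 10000⟩ :=
  .sx lf101 nd101 (by decide +kernel)

theorem nd103 : Cov [kKnot 9116 18418 (-236), kKnot 8880 17592 (-360), kKnot 8608 16649 (-530), kKnot 8296 15577 (-764), kKnot 7938 14366 (-1059), kKnot 7523 12965 (-1515), kKnot 7014 11268 (-2173), kKnot 6325 9017 (-3109), kKnot 5247 5415 (-6679), kKnot 4054 2231 (-9817), kKnot 3350 0 (-18721)]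
    ⟨63, 1, 64⟩ ⟨1, 1, 4⟩ ⟨3535, 938, 10000⟩ :=
  .sx lf100 nd102 (by decide +kernel)

theorem nd104 : Cov [kKnot 9116 18418 (-236), kKnot 8880 17592 (-360), kKnot 8608 16649 (-530), kKnot 8296 15577 (-764), kKnot 7938 14366 (-1059), kKnot 7523 12965 (-1515), kKnot 7014 11268 (-2173), kKnot 6325 9017 (-3109), kKnot 5247 5415 (-6679), kKnot 4054 2231 (-9817), kKnot 3350 0 (-18721)]
    ⟨15, 1, 16⟩ ⟨1, 1, 4⟩ ⟨3535, 938, 10000⟩ :=
  .sx nd94 nd103 (by decide +kernel)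

theorem nd105 : Cov [kKnot 9116 18418 (-236), kKnot 8880 17592 (-360), kKnot 8608 16649 (-530), kKnot 8296 15577 (-764), kKnot 7938 14366 (-1059), kKnot 7523 12965 (-1515), kKnot 7014 11268 (-2173), kKnot 6325 9017 (-3109), kKnot 5247 5415 (-6679), kKnot 4054 2231 (-9817), kKnot 3350 0 (-18721)]
    ⟨15, 1, 16⟩ ⟨0, 1, 2⟩ ⟨3535, 938, 10000⟩ :=
  .sy nd92 nd104 (by decide +kernel)

theorem nd106 : Cov [kKnot 9116 18418 (-236), kKnot 8880 17592 (-360), kKnot 8608 16649 (-530), kKnot 8296 15577 (-764), kKnot 7938 14366 (-1059), kKnot 7523 12965 (-1515), kKnot 7014 11268 (-2173), kKnot 6325 9017 (-3109), kKnot 5247 5415 (-6679), kKnot 4054 2231 (-9817), kKnot 3350 0 (-18721)]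
    ⟨3, 1, 4⟩ ⟨0, 1, 2⟩ ⟨3535, 938, 10000⟩ :=
  .sx nd31 nd105 (by decide +kernel)

theorem nd107 : Cov [kKnot 9116 18418 (-236), kKnot 8880 17592 (-360), kKnot 8608 16649 (-530), kKnot 8296 15577 (-764), kKnot 7938 14366 (-1059), kKnot 7523 12965 (-1515), kKnot 7014 11268 (-2173), kKnot 6325 9017 (-3109), kKnot 5247 5415 (-6679), kKnot 4054 2231 (-9817), kKnot 3350 0 (-18721)]
    ⟨1, 1, 2⟩ ⟨0, 1, 2⟩ ⟨3535, 938, 10000⟩ :=
  .sx nd18 nd106 (by decide +kernel)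

theorem nd108 : Cov [kKnot 9116 18418 (-236), kKnot 8880 17592 (-360)]
    ⟨2, 1, 4⟩ ⟨1, 1, 2⟩ ⟨3535, 938, 10000⟩ :=
  .sx lf111 lf112 (by decide +kernel)

theorem nd109 : Cov [kKnot 9116 18418 (-236), kKnot 8880 17592 (-360), kKnot 8608 16649 (-530), kKnot 8296 15577 (-764), kKnot 7938 14366 (-1059), kKnot 7523 12965 (-1515), kKnot 7014 11268 (-2173), kKnot 6325 9017 (-3109), kKnot 5247 5415 (-6679), kKnot 4054 2231 (-9817), kKnot 3350 0 (-18721)]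
    ⟨2, 1, 4⟩ ⟨1, 1, 2⟩ ⟨3535, 938, 10000⟩ :=
  .un lf110 nd108 (by simp only [List.mem_cons, List.not_mem_nil, or_false]; tauto)

theorem nd110 : Cov [kKnot 9116 18418 (-236), kKnot 8880 17592 (-360)]
    ⟨27, 3, 32⟩ ⟨1, 1, 2⟩ ⟨3535, 938, 10000⟩ :=
  .sx lf116 lf117 (by decide +kernel)

theorem nd111 : Cov [kKnot 9116 18418 (-236), kKnot 8880 17592 (-360), kKnot 8608 16649 (-530), kKnot 8296 15577 (-764), kKnot 7938 14366 (-1059), kKnot 7523 12965 (-1515), kKnot 7014 11268 (-2173), kKnot 6325 9017 (-3109), kKnot 5247 5415 (-6679)]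
    ⟨27, 3, 32⟩ ⟨1, 1, 2⟩ ⟨3535, 938, 10000⟩ :=
  .un lf115 nd110 (by simp only [List.mem_cons, List.not_mem_nil, or_false]; tauto)

theorem nd112 : Cov [kKnot 9116 18418 (-236), kKnot 8880 17592 (-360), kKnot 8608 16649 (-530), kKnot 8296 15577 (-764), kKnot 7938 14366 (-1059), kKnot 7523 12965 (-1515), kKnot 7014 11268 (-2173), kKnot 6325 9017 (-3109), kKnot 5247 5415 (-6679)]
    ⟨12, 3, 16⟩ ⟨1, 1, 2⟩ ⟨3535, 938, 10000⟩ :=
  .sx lf114 nd111 (by decide +kernel)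

theorem nd113 : Cov [kKnot 9116 18418 (-236), kKnot 8880 17592 (-360), kKnot 8608 16649 (-530), kKnot 8296 15577 (-764), kKnot 7938 14366 (-1059), kKnot 7523 12965 (-1515), kKnot 7014 11268 (-2173), kKnot 6325 9017 (-3109), kKnot 5247 5415 (-6679), kKnot 4054 2231 (-9817), kKnot 3350 0 (-18721)]
    ⟨12, 3, 16⟩ ⟨1, 1, 2⟩ ⟨3535, 938, 10000⟩ :=
  .un lf113 nd112 (by simp only [List.mem_cons, List.not_mem_nil, or_false]; tauto)

theorem nd114 : Cov [kKnot 9116 18418 (-236), kKnot 8880 17592 (-360)]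
    ⟨123, 3, 128⟩ ⟨1, 1, 2⟩ ⟨3535, 938, 10000⟩ :=
  .sy lf121 lf122 (by decide +kernel)

theorem nd115 : Cov [kKnot 9116 18418 (-236), kKnot 8880 17592 (-360), kKnot 8608 16649 (-530), kKnot 8296 15577 (-764), kKnot 7938 14366 (-1059), kKnot 7523 12965 (-1515), kKnot 7014 11268 (-2173)]
    ⟨123, 3, 128⟩ ⟨1, 1, 2⟩ ⟨3535, 938, 10000⟩ :=
  .un lf120 nd114 (by simp only [List.mem_cons, List.not_mem_nil, or_false]; tauto)

theorem nd116 : Cov [kKnot 9116 18418 (-236), kKnot 8880 17592 (-360), kKnot 8608 16649 (-530), kKnot 8296 15577 (-764), kKnot 7938 14366 (-1059), kKnot 7523 12965 (-1515), kKnot 7014 11268 (-2173)]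
    ⟨60, 3, 64⟩ ⟨1, 1, 2⟩ ⟨3535, 938, 10000⟩ :=
  .sx lf119 nd115 (by decide +kernel)

theorem nd117 : Cov [kKnot 9116 18418 (-236), kKnot 8880 17592 (-360), kKnot 8608 16649 (-530), kKnot 8296 15577 (-764), kKnot 7938 14366 (-1059), kKnot 7523 12965 (-1515), kKnot 7014 11268 (-2173), kKnot 6325 9017 (-3109), kKnot 5247 5415 (-6679), kKnot 4054 2231 (-9817), kKnot 3350 0 (-18721)]
    ⟨60, 3, 64⟩ ⟨1, 1, 2⟩ ⟨3535, 938, 10000⟩ :=
  .un lf118 nd116 (by simp only [List.mem_cons, List.not_mem_nil, or_false]; tauto)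

theorem nd118 : Cov [kKnot 9116 18418 (-236), kKnot 8880 17592 (-360), kKnot 8608 16649 (-530), kKnot 8296 15577 (-764), kKnot 7938 14366 (-1059)]
    ⟨252, 3, 256⟩ ⟨1, 1, 2⟩ ⟨3535, 938, 10000⟩ :=
  .sx lf124 lf125 (by decide +kernel)

theorem nd119 : Cov [kKnot 9116 18418 (-236), kKnot 8880 17592 (-360), kKnot 8608 16649 (-530), kKnot 8296 15577 (-764), kKnot 7938 14366 (-1059), kKnot 7523 12965 (-1515), kKnot 7014 11268 (-2173), kKnot 6325 9017 (-3109), kKnot 5247 5415 (-6679), kKnot 4054 2231 (-9817), kKnot 3350 0 (-18721)]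
    ⟨252, 3, 256⟩ ⟨1, 1, 2⟩ ⟨3535, 938, 10000⟩ :=
  .un lf123 nd118 (by simp only [List.mem_cons, List.not_mem_nil, or_false]; tauto)

theorem nd120 : Cov [kKnot 9116 18418 (-236), kKnot 8880 17592 (-360)]
    ⟨67108863, 1, 67108864⟩ ⟨1, 1, 2⟩ ⟨3535, 938, 10000⟩ :=
  .sy lf139 lf140 (by decide +kernel)

theorem nd121 : Cov [kKnot 9116 18418 (-236), kKnot 8880 17592 (-360), kKnot 8608 16649 (-530), kKnot 8296 15577 (-764)]
    ⟨67108863, 1, 67108864⟩ ⟨1, 1, 2⟩ ⟨3535, 938, 10000⟩ :=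
  .un lf138 nd120 (by simp only [List.mem_cons, List.not_mem_nil, or_false]; tauto)

theorem nd122 : Cov [kKnot 9116 18418 (-236), kKnot 8880 17592 (-360), kKnot 8608 16649 (-530), kKnot 8296 15577 (-764)]
    ⟨16777215, 1, 16777216⟩ ⟨1, 1, 2⟩ ⟨3535, 938, 10000⟩ :=
  .sx lf137 nd121 (by decide +kernel)

theorem nd123 : Cov [kKnot 9116 18418 (-236), kKnot 8880 17592 (-360), kKnot 8608 16649 (-530), kKnot 8296 15577 (-764), kKnot 7938 14366 (-1059), kKnot 7523 12965 (-1515), kKnot 7014 11268 (-2173)]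
    ⟨16777215, 1, 16777216⟩ ⟨1, 1, 2⟩ ⟨3535, 938, 10000⟩ :=
  .un lf136 nd122 (by simp only [List.mem_cons, List.not_mem_nil, or_false]; tauto)

theorem nd124 : Cov [kKnot 9116 18418 (-236), kKnot 8880 17592 (-360), kKnot 8608 16649 (-530), kKnot 8296 15577 (-764), kKnot 7938 14366 (-1059), kKnot 7523 12965 (-1515), kKnot 7014 11268 (-2173)]
    ⟨4194303, 1, 4194304⟩ ⟨1, 1, 2⟩ ⟨3535, 938, 10000⟩ :=
  .sx lf135 nd123 (by decide +kernel)

theorem nd125 : Cov [kKnot 9116 18418 (-236), kKnot 8880 17592 (-360), kKnot 8608 16649 (-530), kKnot 8296 15577 (-764), kKnot 7938 14366 (-1059), kKnot 7523 12965 (-1515), kKnot 7014 11268 (-2173), kKnot 6325 9017 (-3109), kKnot 5247 5415 (-6679)]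
    ⟨4194303, 1, 4194304⟩ ⟨1, 1, 2⟩ ⟨3535, 938, 10000⟩ :=
  .un lf134 nd124 (by simp only [List.mem_cons, List.not_mem_nil, or_false]; tauto)

theorem nd126 : Cov [kKnot 9116 18418 (-236), kKnot 8880 17592 (-360), kKnot 8608 16649 (-530), kKnot 8296 15577 (-764), kKnot 7938 14366 (-1059), kKnot 7523 12965 (-1515), kKnot 7014 11268 (-2173), kKnot 6325 9017 (-3109), kKnot 5247 5415 (-6679)]
    ⟨1048575, 1, 1048576⟩ ⟨1, 1, 2⟩ ⟨3535, 938, 10000⟩ :=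
  .sx lf133 nd125 (by decide +kernel)

theorem nd127 : Cov [kKnot 9116 18418 (-236), kKnot 8880 17592 (-360), kKnot 8608 16649 (-530), kKnot 8296 15577 (-764), kKnot 7938 14366 (-1059), kKnot 7523 12965 (-1515), kKnot 7014 11268 (-2173), kKnot 6325 9017 (-3109), kKnot 5247 5415 (-6679)]
    ⟨262143, 1, 262144⟩ ⟨1, 1, 2⟩ ⟨3535, 938, 10000⟩ :=
  .sx lf132 nd126 (by decide +kernel)

theorem nd128 : Cov [kKnot 9116 18418 (-236), kKnot 8880 17592 (-360), kKnot 8608 16649 (-530), kKnot 8296 15577 (-764), kKnot 7938 14366 (-1059), kKnot 7523 12965 (-1515), kKnot 7014 11268 (-2173), kKnot 6325 9017 (-3109), kKnot 5247 5415 (-6679), kKnot 4054 2231 (-9817), kKnot 3350 0 (-18721)]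
    ⟨262143, 1, 262144⟩ ⟨1, 1, 2⟩ ⟨3535, 938, 10000⟩ :=
  .un lf131 nd127 (by simp only [List.mem_cons, List.not_mem_nil, or_false]; tauto)

theorem nd129 : Cov [kKnot 9116 18418 (-236), kKnot 8880 17592 (-360), kKnot 8608 16649 (-530), kKnot 8296 15577 (-764), kKnot 7938 14366 (-1059), kKnot 7523 12965 (-1515), kKnot 7014 11268 (-2173), kKnot 6325 9017 (-3109), kKnot 5247 5415 (-6679), kKnot 4054 2231 (-9817), kKnot 3350 0 (-18721)]
    ⟨65535, 1, 65536⟩ ⟨1, 1, 2⟩ ⟨3535, 938, 10000⟩ :=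
  .sx lf130 nd128 (by decide +kernel)

theorem nd130 : Cov [kKnot 9116 18418 (-236), kKnot 8880 17592 (-360), kKnot 8608 16649 (-530), kKnot 8296 15577 (-764), kKnot 7938 14366 (-1059), kKnot 7523 12965 (-1515), kKnot 7014 11268 (-2173), kKnot 6325 9017 (-3109), kKnot 5247 5415 (-6679), kKnot 4054 2231 (-9817), kKnot 3350 0 (-18721)]
    ⟨16383, 1, 16384⟩ ⟨1, 1, 2⟩ ⟨3535, 938, 10000⟩ :=
  .sx lf129 nd129 (by decide +kernel)

theorem nd131 : Cov [kKnot 9116 18418 (-236), kKnot 8880 17592 (-360), kKnot 8608 16649 (-530), kKnot 8296 15577 (-764), kKnot 7938 14366 (-1059), kKnot 7523 12965 (-1515), kKnot 7014 11268 (-2173), kKnot 6325 9017 (-3109), kKnot 5247 5415 (-6679), kKnot 4054 2231 (-9817), kKnot 3350 0 (-18721)]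
    ⟨4095, 1, 4096⟩ ⟨1, 1, 2⟩ ⟨3535, 938, 10000⟩ :=
  .sx lf128 nd130 (by decide +kernel)

theorem nd132 : Cov [kKnot 9116 18418 (-236), kKnot 8880 17592 (-360), kKnot 8608 16649 (-530), kKnot 8296 15577 (-764), kKnot 7938 14366 (-1059), kKnot 7523 12965 (-1515), kKnot 7014 11268 (-2173), kKnot 6325 9017 (-3109), kKnot 5247 5415 (-6679), kKnot 4054 2231 (-9817), kKnot 3350 0 (-18721)]
    ⟨1023, 1, 1024⟩ ⟨1, 1, 2⟩ ⟨3535, 938, 10000⟩ :=
  .sx lf127 nd131 (by decide +kernel)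

theorem nd133 : Cov [kKnot 9116 18418 (-236), kKnot 8880 17592 (-360), kKnot 8608 16649 (-530), kKnot 8296 15577 (-764), kKnot 7938 14366 (-1059), kKnot 7523 12965 (-1515), kKnot 7014 11268 (-2173), kKnot 6325 9017 (-3109), kKnot 5247 5415 (-6679), kKnot 4054 2231 (-9817), kKnot 3350 0 (-18721)]
    ⟨255, 1, 256⟩ ⟨1, 1, 2⟩ ⟨3535, 938, 10000⟩ :=
  .sx lf126 nd132 (by decide +kernel)

theorem nd134 : Cov [kKnot 9116 18418 (-236), kKnot 8880 17592 (-360), kKnot 8608 16649 (-530), kKnot 8296 15577 (-764), kKnot 7938 14366 (-1059), kKnot 7523 12965 (-1515), kKnot 7014 11268 (-2173), kKnot 6325 9017 (-3109), kKnot 5247 5415 (-6679), kKnot 4054 2231 (-9817), kKnot 3350 0 (-18721)]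
    ⟨63, 1, 64⟩ ⟨1, 1, 2⟩ ⟨3535, 938, 10000⟩ :=
  .sx nd119 nd133 (by decide +kernel)

theorem nd135 : Cov [kKnot 9116 18418 (-236), kKnot 8880 17592 (-360), kKnot 8608 16649 (-530), kKnot 8296 15577 (-764), kKnot 7938 14366 (-1059), kKnot 7523 12965 (-1515), kKnot 7014 11268 (-2173), kKnot 6325 9017 (-3109), kKnot 5247 5415 (-6679), kKnot 4054 2231 (-9817), kKnot 3350 0 (-18721)]
    ⟨15, 1, 16⟩ ⟨1, 1, 2⟩ ⟨3535, 938, 10000⟩ :=
  .sx nd117 nd134 (by decide +kernel)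

theorem nd136 : Cov [kKnot 9116 18418 (-236), kKnot 8880 17592 (-360), kKnot 8608 16649 (-530), kKnot 8296 15577 (-764), kKnot 7938 14366 (-1059), kKnot 7523 12965 (-1515), kKnot 7014 11268 (-2173), kKnot 6325 9017 (-3109), kKnot 5247 5415 (-6679), kKnot 4054 2231 (-9817), kKnot 3350 0 (-18721)]
    ⟨3, 1, 4⟩ ⟨1, 1, 2⟩ ⟨3535, 938, 10000⟩ :=
  .sx nd113 nd135 (by decide +kernel)

theorem nd137 : Cov [kKnot 9116 18418 (-236), kKnot 8880 17592 (-360), kKnot 8608 16649 (-530), kKnot 8296 15577 (-764), kKnot 7938 14366 (-1059), kKnot 7523 12965 (-1515), kKnot 7014 11268 (-2173), kKnot 6325 9017 (-3109), kKnot 5247 5415 (-6679), kKnot 4054 2231 (-9817), kKnot 3350 0 (-18721)]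
    ⟨1, 1, 2⟩ ⟨1, 1, 2⟩ ⟨3535, 938, 10000⟩ :=
  .sx nd109 nd136 (by decide +kernel)

theorem nd138 : Cov [kKnot 9116 18418 (-236), kKnot 8880 17592 (-360), kKnot 8608 16649 (-530), kKnot 8296 15577 (-764), kKnot 7938 14366 (-1059), kKnot 7523 12965 (-1515), kKnot 7014 11268 (-2173), kKnot 6325 9017 (-3109), kKnot 5247 5415 (-6679), kKnot 4054 2231 (-9817), kKnot 3350 0 (-18721)]
    ⟨1, 1, 2⟩ ⟨0, 1, 1⟩ ⟨3535, 938, 10000⟩ :=
  .sy nd107 nd137 (by decide +kernel)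

theorem nd139 : Cov [kKnot 9116 18418 (-236), kKnot 8880 17592 (-360), kKnot 8608 16649 (-530), kKnot 8296 15577 (-764), kKnot 7938 14366 (-1059), kKnot 7523 12965 (-1515), kKnot 7014 11268 (-2173), kKnot 6325 9017 (-3109), kKnot 5247 5415 (-6679), kKnot 4054 2231 (-9817), kKnot 3350 0 (-18721)]
    ⟨0, 1, 1⟩ ⟨0, 1, 1⟩ ⟨3535, 938, 10000⟩ :=
  .sx nd9 nd138 (by decide +kernel)

theorem covR : Cov [kKnot 9116 18418 (-236), kKnot 8880 17592 (-360), kKnot 8608 16649 (-530), kKnot 8296 15577 (-764), kKnot 7938 14366 (-1059), kKnot 7523 12965 (-1515), kKnot 7014 11268 (-2173), kKnot 6325 9017 (-3109), kKnot 5247 5415 (-6679), kKnot 4054 2231 (-9817), kKnot 3350 0 (-18721)]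
    ⟨0, 1, 1⟩ ⟨0, 1, 1⟩ ⟨3535, 938, 10000⟩ := nd139

end Crest.Agent.R163.Bx.BxR
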