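import Crest.Agent.R163.BzV

set_option autoImplicit false
set_option Elab.async false

namespace Crest.Agent.R163.Bx

theorem zL0 : Cov (ix [9, 12, 13]) ⟨0, 1, 4⟩ ⟨0, 1, 1⟩ ⟨2, 1, 6⟩ :=
  Cov.leafU ⟨.cen 7, .cen 7, .cen 7, .cen 7, .cen 7, .cen 7, 404, 24, 16, 24⟩ (by decide +kernel)
theorem zL1 : Cov (ix [0, 1, 2, 3, 4, 5, 6, 7, 8, 10, 11]) ⟨0, 1, 8⟩ ⟨0, 1, 1⟩ ⟨2, 1, 6⟩ :=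
  Cov.leafU ⟨.cen 7, .cen 7, .cen 7, .cen 7, .cen 7, .cen 7, 440, 24, 16, 24⟩ (by decide +kernel)
theorem zL2 : Cov (ix [15]) ⟨0, 1, 16⟩ ⟨0, 1, 1⟩ ⟨2, 1, 6⟩ :=
  Cov.leafU ⟨.cen 7, .cen 7, .cen 7, .cen 7, .cen 7, .cen 7, 457, 24, 16, 24⟩ (by decide +kernel)
theorem zL3 : Cov (ix [15]) ⟨1, 1, 16⟩ ⟨0, 1, 1⟩ ⟨2, 1, 6⟩ :=
  Cov.leafU ⟨.mk 73 6 5 7, .mk 124 7 5 12, .mk 116 7 5 4, .mk 120 7 5 8, .mk 65 6 5 3, .mk 67 6 5 2, 368, 15, 10, 15⟩ (by decide +kernel)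
theorem zL6 : Cov (ix [0, 1, 2, 3, 4, 5, 6, 7, 8, 10, 11]) ⟨1, 1, 8⟩ ⟨0, 1, 1⟩ ⟨2, 1, 6⟩ :=
  Cov.leafU ⟨.mk 82 6 5 14, .mk 120 7 5 24, .mk 104 7 5 8, .mk 111 7 5 15, .mk 66 6 5 6, .mk 69 6 5 3, 360, 15, 10, 15⟩ (by decide +kernel)
theorem zL7 : Cov (ix [15]) ⟨2, 1, 16⟩ ⟨0, 1, 1⟩ ⟨2, 1, 6⟩ :=
  Cov.leafU ⟨.mk 78 6 5 10, .mk 122 7 5 18, .mk 108 7 5 4, .mk 115 7 5 11, .mk 66 6 5 5, .mk 68 6 5 2, 368, 15, 10, 15⟩ (by decide +kernel)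
theorem zL8 : Cov (ix [15]) ⟨3, 1, 16⟩ ⟨0, 1, 1⟩ ⟨2, 1, 6⟩ :=
  Cov.leafU ⟨.mk 83 6 5 13, .mk 120 7 5 24, .mk 100 7 5 4, .mk 110 7 5 14, .mk 66 6 5 6, .mk 70 6 5 2, 369, 15, 10, 15⟩ (by decide +kernel)
theorem zL13 : Cov (ix [9, 12, 13]) ⟨1, 1, 4⟩ ⟨0, 1, 1⟩ ⟨2, 1, 6⟩ :=
  Cov.leafU ⟨.mk 100 6 5 28, .mk 112 7 5 48, .mk 80 7 5 16, .mk 94 7 5 30, .mk 68 6 5 12, .mk 75 6 5 6, 334, 15, 10, 15⟩ (by decide +kernel)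
theorem zL14 : Cov (ix [7, 8, 10, 11]) ⟨1, 1, 4⟩ ⟨0, 1, 4⟩ ⟨2, 1, 6⟩ :=
  Cov.leafU ⟨.mk 109 6 5 19, .mk 86 7 5 22, .mk 80 7 5 16, .mk 88 7 5 24, .mk 74 6 5 7, .mk 75 6 5 6, 366, 15, 10, 15⟩ (by decide +kernel)
theorem zL15 : Cov (ix [1, 2, 3, 4, 5, 6, 15]) ⟨2, 1, 8⟩ ⟨0, 1, 4⟩ ⟨2, 1, 6⟩ :=
  Cov.leafU ⟨.mk 101 6 5 11, .mk 94 7 5 14, .mk 88 7 5 8, .mk 96 7 5 16, .mk 72 6 5 5, .mk 73 6 5 4, 381, 15, 10, 15⟩ (by decide +kernel)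
theorem zL16 : Cov (ix [0]) ⟨4, 1, 16⟩ ⟨0, 1, 4⟩ ⟨2, 1, 6⟩ :=
  Cov.leafU ⟨.mk 97 6 5 7, .mk 98 7 5 10, .mk 92 7 5 4, .mk 100 7 5 12, .mk 71 6 5 4, .mk 72 6 5 3, 396, 15, 10, 15⟩ (by decide +kernel)
theorem zL17 : Cov (ix [0]) ⟨5, 1, 16⟩ ⟨0, 1, 4⟩ ⟨2, 1, 6⟩ :=
  Cov.leafU ⟨.mk 104 6 5 8, .mk 92 7 5 12, .mk 84 7 5 4, .mk 94 7 5 14, .mk 72 6 5 4, .mk 73 6 5 3, 396, 15, 10, 15⟩ (by decide +kernel)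
theorem zL20 : Cov (ix [4, 5, 6, 15]) ⟨3, 1, 8⟩ ⟨0, 1, 4⟩ ⟨2, 1, 6⟩ :=
  Cov.leafU ⟨.mk 116 6 5 13, .mk 81 7 5 17, .mk 72 7 5 8, .mk 83 7 5 19, .mk 75 6 5 6, .mk 76 6 5 4, 382, 15, 10, 15⟩ (by decide +kernel)
theorem zL21 : Cov (ix [0, 1, 2, 3]) ⟨6, 1, 16⟩ ⟨0, 1, 4⟩ ⟨2, 1, 6⟩ :=
  Cov.leafU ⟨.mk 112 6 5 9, .mk 85 7 5 13, .mk 76 7 5 4, .mk 87 7 5 15, .mk 74 6 5 5, .mk 75 6 5 3, 397, 15, 10, 15⟩ (by decide +kernel)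
theorem zL22 : Cov (ix [0, 1, 2, 3]) ⟨7, 1, 16⟩ ⟨0, 1, 4⟩ ⟨2, 1, 6⟩ :=
  Cov.leafU ⟨.mk 119 6 5 10, .mk 79 7 5 15, .mk 68 7 5 4, .mk 81 7 5 17, .mk 75 6 5 6, .mk 77 6 5 4, 398, 15, 10, 15⟩ (by decide +kernel)
theorem zL27 : Cov (ix [3, 4, 5, 6, 7, 8, 10, 11]) ⟨1, 1, 4⟩ ⟨1, 3, 4⟩ ⟨2, 1, 6⟩ :=
  Cov.leafU ⟨.mk 94 6 5 22, .mk 124 7 5 36, .mk 80 7 5 16, .mk 100 7 5 24, .mk 65 6 5 9, .mk 75 6 5 6, 367, 15, 10, 15⟩ (by decide +kernel)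
theorem zL28 : Cov (ix [1, 2]) ⟨1, 1, 4⟩ ⟨1, 1, 4⟩ ⟨2, 1, 6⟩ :=
  Cov.leafU ⟨.mk 100 6 5 16, .mk 104 7 5 16, .mk 80 7 5 16, .mk 96 7 5 20, .mk 70 6 5 5, .mk 75 6 5 6, 367, 15, 10, 15⟩ (by decide +kernel)
theorem zL29 : Cov (ix [0, 15]) ⟨2, 1, 8⟩ ⟨1, 1, 4⟩ ⟨2, 1, 6⟩ :=
  Cov.leafU ⟨.mk 94 6 5 10, .mk 109 7 5 11, .mk 88 7 5 8, .mk 102 7 5 13, .mk 69 6 5 4, .mk 73 6 5 4, 381, 15, 10, 15⟩ (by decide +kernel)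
theorem zL30 : Cov (ix [0, 15]) ⟨3, 1, 8⟩ ⟨1, 1, 4⟩ ⟨2, 1, 6⟩ :=
  Cov.leafU ⟨.mk 105 6 5 11, .mk 102 7 5 14, .mk 72 7 5 8, .mk 92 7 5 16, .mk 70 6 5 4, .mk 76 6 5 4, 382, 15, 10, 15⟩ (by decide +kernel)
theorem zL33 : Cov (ix [0, 1, 2, 15]) ⟨1, 1, 4⟩ ⟨1, 1, 2⟩ ⟨2, 1, 6⟩ :=
  Cov.leafU ⟨.mk 88 6 5 16, .mk 68 6 5 12, .mk 80 7 5 16, .mk 106 7 5 18, .mk 124 7 5 12, .mk 75 6 5 6, 357, 15, 10, 15⟩ (by decide +kernel)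

end Crest.Agent.R163.Bx
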