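import Crest.Agent.R163.BzV

set_option autoImplicit false
set_option Elab.async false

namespace Crest.Agent.R163.Bx

theorem zP0 : Cov (ix [14]) ⟨0, 1, 8⟩ ⟨0, 1, 1⟩ ⟨8, 1, 24⟩ :=
  Cov.leafU ⟨.cen 9, .cen 9, .cen 9, .cen 9, .cen 9, .cen 9, 541, 30, 20, 30⟩ (by decide +kernel)
theorem zP1 : Cov (ix [14]) ⟨0, 1, 8⟩ ⟨0, 1, 1⟩ ⟨9, 1, 24⟩ :=
  Cov.leafU ⟨.cen 9, .cen 9, .cen 9, .cen 9, .cen 9, .cen 9, 541, 30, 20, 30⟩ (by decide +kernel)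
theorem zP3 : Cov (ix [14]) ⟨0, 1, 8⟩ ⟨0, 1, 4⟩ ⟨5, 1, 12⟩ :=
  Cov.leafU ⟨.cen 9, .cen 9, .cen 9, .cen 9, .cen 9, .cen 9, 551, 30, 20, 30⟩ (by decide +kernel)
theorem zP4 : Cov (ix [14]) ⟨0, 1, 16⟩ ⟨1, 3, 4⟩ ⟨5, 1, 12⟩ :=
  Cov.leafU ⟨.cen 9, .cen 9, .cen 9, .cen 9, .cen 9, .cen 9, 581, 30, 20, 30⟩ (by decide +kernel)
theorem zP5 : Cov (ix [14]) ⟨1, 1, 16⟩ ⟨1, 3, 4⟩ ⟨5, 1, 12⟩ :=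
  Cov.leafU ⟨.cen 9, .cen 9, .cen 9, .cen 9, .cen 9, .cen 9, 582, 30, 20, 30⟩ (by decide +kernel)
theorem zP9 : Cov (ix [14]) ⟨2, 1, 16⟩ ⟨0, 1, 4⟩ ⟨2, 1, 6⟩ :=
  Cov.leafU ⟨.mk 83 6 5 6, .mk 111 7 5 7, .mk 108 7 5 4, .mk 112 7 5 8, .mk 68 6 5 3, .mk 68 6 5 2, 382, 15, 10, 15⟩ (by decide +kernel)
theorem zP10 : Cov (ix [14]) ⟨3, 1, 16⟩ ⟨0, 1, 4⟩ ⟨2, 1, 6⟩ :=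
  Cov.leafU ⟨.mk 90 6 5 7, .mk 105 7 5 9, .mk 100 7 5 4, .mk 106 7 5 10, .mk 69 6 5 3, .mk 70 6 5 2, 382, 15, 10, 15⟩ (by decide +kernel)
theorem zP12 : Cov (ix [14]) ⟨2, 1, 16⟩ ⟨1, 1, 4⟩ ⟨2, 1, 6⟩ :=
  Cov.leafU ⟨.mk 79 6 5 5, .mk 119 7 5 6, .mk 108 7 5 4, .mk 115 7 5 7, .mk 66 6 5 2, .mk 68 6 5 2, 382, 15, 10, 15⟩ (by decide +kernel)
theorem zP13 : Cov (ix [14]) ⟨3, 1, 16⟩ ⟨1, 1, 4⟩ ⟨2, 1, 6⟩ :=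
  Cov.leafU ⟨.mk 85 6 5 6, .mk 115 7 5 7, .mk 100 7 5 4, .mk 110 7 5 8, .mk 67 6 5 2, .mk 70 6 5 2, 382, 15, 10, 15⟩ (by decide +kernel)
theorem zP15 : Cov (ix [14]) ⟨2, 1, 16⟩ ⟨1, 1, 2⟩ ⟨2, 1, 6⟩ :=
  Cov.leafU ⟨.cen 9, .cen 9, .cen 9, .cen 9, .cen 9, .cen 9, 534, 30, 20, 30⟩ (by decide +kernel)
theorem zP16 : Cov (ix [14]) ⟨3, 1, 16⟩ ⟨1, 1, 2⟩ ⟨2, 1, 6⟩ :=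
  Cov.leafU ⟨.mk 77 6 5 7, .mk 66 6 5 6, .mk 100 7 5 4, .mk 116 7 5 8, .mk 126 7 5 6, .mk 70 6 5 2, 372, 15, 10, 15⟩ (by decide +kernel)
theorem zP21 : Cov (ix [14]) ⟨2, 1, 8⟩ ⟨0, 1, 4⟩ ⟨2, 1, 6⟩ :=
  Cov.leafU ⟨.mk 101 6 5 11, .mk 94 7 5 14, .mk 88 7 5 8, .mk 96 7 5 16, .mk 72 6 5 5, .mk 73 6 5 4, 368, 15, 10, 15⟩ (by decide +kernel)
theorem zP22 : Cov (ix [14]) ⟨3, 1, 8⟩ ⟨0, 1, 4⟩ ⟨2, 1, 6⟩ :=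
  Cov.leafU ⟨.mk 116 6 5 13, .mk 81 7 5 17, .mk 72 7 5 8, .mk 83 7 5 19, .mk 75 6 5 6, .mk 76 6 5 4, 369, 15, 10, 15⟩ (by decide +kernel)
theorem zP24 : Cov (ix [14]) ⟨2, 1, 8⟩ ⟨1, 1, 4⟩ ⟨2, 1, 6⟩ :=
  Cov.leafU ⟨.mk 94 6 5 10, .mk 109 7 5 11, .mk 88 7 5 8, .mk 102 7 5 13, .mk 69 6 5 4, .mk 73 6 5 4, 368, 15, 10, 15⟩ (by decide +kernel)
theorem zP25 : Cov (ix [14]) ⟨3, 1, 8⟩ ⟨1, 1, 4⟩ ⟨2, 1, 6⟩ :=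
  Cov.leafU ⟨.mk 105 6 5 11, .mk 102 7 5 14, .mk 72 7 5 8, .mk 92 7 5 16, .mk 70 6 5 4, .mk 76 6 5 4, 369, 15, 10, 15⟩ (by decide +kernel)
theorem zP27 : Cov (ix [14]) ⟨2, 1, 8⟩ ⟨1, 1, 2⟩ ⟨2, 1, 6⟩ :=
  Cov.leafU ⟨.mk 83 6 5 11, .mk 67 6 5 9, .mk 88 7 5 8, .mk 111 7 5 13, .mk 125 7 5 9, .mk 73 6 5 4, 358, 15, 10, 15⟩ (by decide +kernel)
theorem zP28 : Cov (ix [14]) ⟨3, 1, 8⟩ ⟨1, 1, 2⟩ ⟨2, 1, 6⟩ :=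
  Cov.leafU ⟨.mk 90 6 5 14, .mk 68 6 5 12, .mk 72 7 5 8, .mk 104 7 5 16, .mk 124 7 5 12, .mk 76 6 5 4, 360, 15, 10, 15⟩ (by decide +kernel)

end Crest.Agent.R163.Bx
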