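import Crest.Agent.R163.BzV

set_option autoImplicit false
set_option Elab.async false

namespace Crest.Agent.R163.Bx

theorem zR0 : Cov (ix [13]) ⟨2, 1, 4⟩ ⟨0, 1, 4⟩ ⟨2, 1, 6⟩ :=
  Cov.leafU ⟨.mk 69 5 5 11, .mk 120 8 5 56, .mk 96 8 5 32, .mk 126 8 5 62, .mk 79 6 5 9, .mk 81 6 5 7, 359, 15, 10, 15⟩ (by decide +kernel)
theorem zR1 : Cov (ix [8, 9, 10, 11, 12, 16]) ⟨4, 1, 8⟩ ⟨0, 1, 4⟩ ⟨2, 1, 6⟩ :=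
  Cov.leafU ⟨.mk 65 5 5 7, .mk 68 7 5 20, .mk 112 8 5 16, .mk 71 7 5 23, .mk 77 6 5 7, .mk 79 6 5 5, 385, 15, 10, 15⟩ (by decide +kernel)
theorem zR2 : Cov (ix [0, 1, 2, 3, 5, 6, 7, 17]) ⟨8, 1, 16⟩ ⟨0, 1, 4⟩ ⟨2, 1, 6⟩ :=
  Cov.leafU ⟨.mk 126 6 5 10, .mk 72 7 5 16, .mk 120 8 5 8, .mk 75 7 5 19, .mk 76 6 5 6, .mk 78 6 5 4, 399, 15, 10, 15⟩ (by decide +kernel)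
theorem zR3 : Cov (ix [4]) ⟨16, 1, 32⟩ ⟨0, 1, 4⟩ ⟨2, 1, 6⟩ :=
  Cov.leafU ⟨.mk 124 6 5 8, .mk 74 7 5 14, .mk 124 8 5 4, .mk 77 7 5 17, .mk 76 6 5 6, .mk 78 6 5 4, 414, 15, 10, 15⟩ (by decide +kernel)
theorem zR4 : Cov (ix [4]) ⟨17, 1, 32⟩ ⟨0, 1, 4⟩ ⟨2, 1, 6⟩ :=
  Cov.leafU ⟨.mk 128 6 5 9, .mk 71 7 5 15, .mk 116 8 5 4, .mk 74 7 5 18, .mk 77 6 5 6, .mk 79 6 5 4, 414, 15, 10, 15⟩ (by decide +kernel)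
theorem zR7 : Cov (ix [0, 1, 2, 17]) ⟨9, 1, 16⟩ ⟨0, 1, 4⟩ ⟨2, 1, 6⟩ :=
  Cov.leafU ⟨.mk 67 5 5 6, .mk 66 7 5 18, .mk 104 8 5 8, .mk 69 7 5 21, .mk 78 6 5 7, .mk 80 6 5 4, 400, 15, 10, 15⟩ (by decide +kernel)
theorem zR8 : Cov (ix [3, 4, 5, 6, 7]) ⟨9, 1, 16⟩ ⟨0, 1, 16⟩ ⟨2, 1, 6⟩ :=
  Cov.leafU ⟨.mk 69 5 5 3, .mk 111 8 5 15, .mk 104 8 5 8, .mk 66 7 5 18, .mk 79 6 5 5, .mk 80 6 5 4, 421, 15, 10, 15⟩ (by decide +kernel)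
theorem zR9 : Cov (ix [3, 4, 5, 6, 7]) ⟨9, 1, 16⟩ ⟨1, 3, 16⟩ ⟨2, 1, 6⟩ :=
  Cov.leafU ⟨.mk 66 5 5 5, .mk 69 7 5 14, .mk 104 8 5 8, .mk 70 7 5 19, .mk 77 6 5 6, .mk 80 6 5 4, 420, 15, 10, 15⟩ (by decide +kernel)
theorem zR14 : Cov (ix [11, 12]) ⟨5, 1, 8⟩ ⟨0, 1, 4⟩ ⟨2, 1, 6⟩ :=
  Cov.leafU ⟨.mk 72 5 5 8, .mk 110 8 5 46, .mk 80 8 5 16, .mk 117 8 5 53, .mk 80 6 5 8, .mk 83 6 5 6, 376, 15, 10, 15⟩ (by decide +kernel)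
theorem zR15 : Cov (ix [0, 1, 2, 3, 4, 5, 6, 7, 8, 9, 10, 16, 17]) ⟨5, 1, 8⟩ ⟨0, 1, 4⟩ ⟨4, 1, 12⟩ :=
  Cov.leafU ⟨.mk 72 5 5 8, .mk 110 8 5 46, .mk 80 8 5 16, .mk 67 7 5 19, .mk 78 6 5 6, .mk 81 6 5 4, 403, 15, 10, 15⟩ (by decide +kernel)
theorem zR16 : Cov (ix [10, 16]) ⟨5, 1, 8⟩ ⟨0, 1, 4⟩ ⟨5, 1, 12⟩ :=
  Cov.leafU ⟨.mk 72 5 5 8, .mk 110 8 5 46, .mk 80 8 5 16, .mk 106 8 5 42, .mk 81 6 5 7, .mk 84 6 5 4, 391, 15, 10, 15⟩ (by decide +kernel)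
theorem zR17 : Cov (ix [0, 1, 2, 3, 4, 5, 8, 9, 17]) ⟨5, 1, 8⟩ ⟨0, 1, 16⟩ ⟨5, 1, 12⟩ :=
  Cov.leafU ⟨.mk 75 5 5 5, .mk 88 8 5 24, .mk 80 8 5 16, .mk 97 8 5 33, .mk 84 6 5 5, .mk 84 6 5 4, 424, 15, 10, 15⟩ (by decide +kernel)
theorem zR18 : Cov (ix [6, 7]) ⟨10, 1, 16⟩ ⟨0, 1, 16⟩ ⟨5, 1, 12⟩ :=
  Cov.leafU ⟨.mk 73 5 5 3, .mk 96 8 5 16, .mk 88 8 5 8, .mk 105 8 5 25, .mk 83 6 5 4, .mk 83 6 5 3, 438, 15, 10, 15⟩ (by decide +kernel)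
theorem zR19 : Cov (ix [6, 7]) ⟨11, 1, 16⟩ ⟨0, 1, 16⟩ ⟨5, 1, 12⟩ :=
  Cov.leafU ⟨.mk 77 5 5 4, .mk 81 8 5 17, .mk 72 8 5 8, .mk 91 8 5 27, .mk 84 6 5 4, .mk 85 6 5 3, 440, 15, 10, 15⟩ (by decide +kernel)
theorem zR22 : Cov (ix [0, 1, 2, 8, 9, 17]) ⟨5, 1, 8⟩ ⟨1, 3, 16⟩ ⟨5, 1, 12⟩ :=
  Cov.leafU ⟨.mk 71 5 5 7, .mk 119 8 5 37, .mk 80 8 5 16, .mk 111 8 5 38, .mk 80 6 5 6, .mk 84 6 5 4, 423, 15, 10, 15⟩ (by decide +kernel)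
theorem zR23 : Cov (ix [3, 4, 5, 6, 7]) ⟨10, 1, 16⟩ ⟨1, 3, 16⟩ ⟨5, 1, 12⟩ :=
  Cov.leafU ⟨.mk 69 5 5 5, .mk 126 8 5 30, .mk 88 8 5 8, .mk 118 8 5 30, .mk 79 6 5 5, .mk 83 6 5 3, 437, 15, 10, 15⟩ (by decide +kernel)
theorem zR24 : Cov (ix [3, 4, 5, 6, 7]) ⟨11, 1, 16⟩ ⟨1, 3, 16⟩ ⟨5, 1, 12⟩ :=
  Cov.leafU ⟨.mk 73 5 5 6, .mk 114 8 5 32, .mk 72 8 5 8, .mk 105 8 5 32, .mk 81 6 5 6, .mk 85 6 5 3, 439, 15, 10, 15⟩ (by decide +kernel)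
theorem zR33 : Cov (ix [13]) ⟨6, 1, 8⟩ ⟨0, 1, 4⟩ ⟨4, 1, 12⟩ :=
  Cov.leafU ⟨.mk 80 5 5 9, .mk 84 8 5 52, .mk 96 9 5 32, .mk 111 8 5 42, .mk 81 6 5 7, .mk 84 6 5 4, 396, 15, 10, 15⟩ (by decide +kernel)
theorem zR34 : Cov (ix [0, 1, 2, 3, 4, 5, 6, 7, 8, 9, 10, 11, 12, 16, 17]) ⟨6, 1, 8⟩ ⟨0, 1, 16⟩ ⟨4, 1, 12⟩ :=
  Cov.leafU ⟨.mk 83 5 5 6, .mk 114 9 5 50, .mk 96 9 5 32, .mk 102 8 5 33, .mk 83 6 5 5, .mk 84 6 5 4, 429, 15, 10, 15⟩ (by decide +kernel)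
theorem zR35 : Cov (ix [0, 1, 2, 3, 4, 5, 6, 7, 8, 9, 10, 11, 12, 16, 17]) ⟨6, 1, 8⟩ ⟨1, 3, 16⟩ ⟨4, 1, 12⟩ :=
  Cov.leafU ⟨.mk 79 5 5 8, .mk 95 8 5 42, .mk 96 9 5 32, .mk 115 8 5 37, .mk 80 6 5 6, .mk 84 6 5 4, 427, 15, 10, 15⟩ (by decide +kernel)
theorem zR38 : Cov (ix [13]) ⟨6, 1, 8⟩ ⟨0, 1, 4⟩ ⟨5, 1, 12⟩ :=
  Cov.leafU ⟨.mk 80 5 5 9, .mk 84 8 5 52, .mk 96 9 5 32, .mk 79 8 5 47, .mk 84 6 5 8, .mk 88 6 5 4, 396, 15, 10, 15⟩ (by decide +kernel)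
theorem zR39 : Cov (ix [12, 16]) ⟨6, 1, 8⟩ ⟨0, 1, 16⟩ ⟨5, 1, 12⟩ :=
  Cov.leafU ⟨.mk 83 5 5 6, .mk 114 9 5 50, .mk 96 9 5 32, .mk 68 8 5 36, .mk 87 6 5 5, .mk 88 6 5 4, 418, 15, 10, 15⟩ (by decide +kernel)
theorem zR40 : Cov (ix [0, 1, 2, 3, 4, 5, 6, 7, 8, 9, 10, 11, 17]) ⟨12, 1, 16⟩ ⟨0, 1, 16⟩ ⟨5, 1, 12⟩ :=
  Cov.leafU ⟨.mk 81 5 5 4, .mk 65 8 5 17, .mk 112 9 5 16, .mk 76 8 5 28, .mk 86 6 5 4, .mk 87 6 5 3, 443, 15, 10, 15⟩ (by decide +kernel)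
theorem zR41 : Cov (ix [0, 1, 2, 3, 4, 5, 6, 7, 8, 10, 11, 17]) ⟨13, 1, 16⟩ ⟨0, 1, 16⟩ ⟨5, 1, 12⟩ :=
  Cov.leafU ⟨.mk 85 5 5 4, .mk 100 9 5 36, .mk 80 9 5 16, .mk 123 9 5 59, .mk 88 6 5 5, .mk 89 6 5 4, 447, 15, 10, 15⟩ (by decide +kernel)
theorem zR42 : Cov (ix [9]) ⟨26, 1, 32⟩ ⟨0, 1, 16⟩ ⟨5, 1, 12⟩ :=
  Cov.leafU ⟨.mk 84 5 5 3, .mk 108 9 5 28, .mk 88 9 5 8, .mk 66 8 5 26, .mk 87 6 5 4, .mk 88 6 5 3, 449, 15, 10, 15⟩ (by decide +kernel)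
theorem zR43 : Cov (ix [9]) ⟨27, 1, 32⟩ ⟨0, 1, 16⟩ ⟨5, 1, 12⟩ :=
  Cov.leafU ⟨.mk 86 5 5 3, .mk 93 9 5 29, .mk 72 9 5 8, .mk 117 9 5 53, .mk 88 6 5 4, .mk 89 6 5 3, 451, 15, 10, 15⟩ (by decide +kernel)
theorem zR48 : Cov (ix [11, 12]) ⟨6, 1, 8⟩ ⟨1, 3, 16⟩ ⟨5, 1, 12⟩ :=
  Cov.leafU ⟨.mk 79 5 5 8, .mk 95 8 5 42, .mk 96 9 5 32, .mk 84 8 5 42, .mk 83 6 5 7, .mk 88 6 5 4, 416, 15, 10, 15⟩ (by decide +kernel)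
theorem zR49 : Cov (ix [0, 1, 2, 3, 10, 16, 17]) ⟨6, 1, 8⟩ ⟨1, 1, 16⟩ ⟨5, 1, 12⟩ :=
  Cov.leafU ⟨.mk 81 5 5 6, .mk 77 8 5 24, .mk 96 9 5 32, .mk 77 8 5 35, .mk 85 6 5 5, .mk 88 6 5 4, 429, 15, 10, 15⟩ (by decide +kernel)
theorem zR50 : Cov (ix [4, 5, 6, 7, 8, 9]) ⟨12, 1, 16⟩ ⟨1, 1, 16⟩ ⟨5, 1, 12⟩ :=
  Cov.leafU ⟨.mk 79 5 5 4, .mk 84 8 5 17, .mk 112 9 5 16, .mk 84 8 5 27, .mk 84 6 5 4, .mk 87 6 5 3, 442, 15, 10, 15⟩ (by decide +kernel)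
theorem zR51 : Cov (ix [4, 5, 6, 7, 8, 9]) ⟨13, 1, 16⟩ ⟨1, 1, 16⟩ ⟨5, 1, 12⟩ :=
  Cov.leafU ⟨.mk 83 5 5 4, .mk 70 8 5 17, .mk 80 9 5 16, .mk 71 8 5 29, .mk 86 6 5 5, .mk 89 6 5 4, 445, 15, 10, 15⟩ (by decide +kernel)
theorem zR54 : Cov (ix [0, 1, 2, 3, 10, 16, 17]) ⟨6, 1, 8⟩ ⟨1, 1, 8⟩ ⟨5, 1, 12⟩ :=
  Cov.leafU ⟨.mk 77 5 5 6, .mk 105 8 5 31, .mk 96 9 5 32, .mk 90 8 5 37, .mk 82 6 5 6, .mk 88 6 5 4, 418, 15, 10, 15⟩ (by decide +kernel)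
theorem zR55 : Cov (ix [4, 5, 6, 7, 8, 9]) ⟨12, 1, 16⟩ ⟨1, 1, 8⟩ ⟨5, 1, 12⟩ :=
  Cov.leafU ⟨.mk 76 5 5 5, .mk 112 8 5 25, .mk 112 9 5 16, .mk 97 8 5 30, .mk 81 6 5 5, .mk 87 6 5 3, 431, 15, 10, 15⟩ (by decide +kernel)
theorem zR56 : Cov (ix [4, 5, 6, 7, 8, 9]) ⟨13, 1, 16⟩ ⟨1, 1, 8⟩ ⟨5, 1, 12⟩ :=
  Cov.leafU ⟨.mk 79 5 5 5, .mk 100 8 5 26, .mk 80 9 5 16, .mk 85 8 5 32, .mk 82 6 5 5, .mk 89 6 5 4, 434, 15, 10, 15⟩ (by decide +kernel)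
theorem zR65 : Cov (ix [12, 13]) ⟨2, 1, 4⟩ ⟨1, 3, 4⟩ ⟨2, 1, 6⟩ :=
  Cov.leafU ⟨.mk 111 6 5 31, .mk 122 7 5 54, .mk 96 8 5 32, .mk 84 7 5 34, .mk 66 6 5 14, .mk 81 6 5 7, 358, 15, 10, 15⟩ (by decide +kernel)
theorem zR66 : Cov (ix [8, 9, 10, 11]) ⟨2, 1, 4⟩ ⟨1, 1, 4⟩ ⟨2, 1, 6⟩ :=
  Cov.leafU ⟨.mk 123 6 5 19, .mk 90 7 5 22, .mk 96 8 5 32, .mk 76 7 5 26, .mk 73 6 5 7, .mk 81 6 5 7, 371, 15, 10, 15⟩ (by decide +kernel)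

end Crest.Agent.R163.Bx
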