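import Crest.Agent.R163.BzV

set_option autoImplicit false
set_option Elab.async false

namespace Crest.Agent.R163.Bx

theorem zR67 : Cov (ix [0, 1, 2, 3, 4, 5, 6, 7, 16, 17]) ⟨4, 1, 8⟩ ⟨1, 1, 4⟩ ⟨2, 1, 6⟩ :=
  Cov.leafU ⟨.mk 117 6 5 13, .mk 95 7 5 17, .mk 112 8 5 16, .mk 83 7 5 20, .mk 72 6 5 6, .mk 79 6 5 5, 384, 15, 10, 15⟩ (by decide +kernel)
theorem zR68 : Cov (ix [0, 1, 2, 3, 4, 5, 6, 7, 16, 17]) ⟨5, 1, 8⟩ ⟨1, 1, 4⟩ ⟨2, 1, 6⟩ :=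
  Cov.leafU ⟨.mk 64 5 5 7, .mk 88 7 5 20, .mk 80 8 5 16, .mk 73 7 5 23, .mk 73 6 5 6, .mk 83 6 5 6, 387, 15, 10, 15⟩ (by decide +kernel)
theorem zR71 : Cov (ix [3, 4, 5, 6, 7, 8, 9, 10, 11]) ⟨2, 1, 4⟩ ⟨1, 1, 2⟩ ⟨2, 1, 6⟩ :=
  Cov.leafU ⟨.mk 102 6 5 22, .mk 70 6 5 18, .mk 96 8 5 32, .mk 93 7 5 25, .mk 122 7 5 18, .mk 81 6 5 7, 361, 15, 10, 15⟩ (by decide +kernel)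
theorem zR72 : Cov (ix [0, 1, 2, 16, 17]) ⟨4, 1, 8⟩ ⟨1, 1, 2⟩ ⟨2, 1, 6⟩ :=
  Cov.leafU ⟨.mk 97 6 5 17, .mk 69 6 5 15, .mk 112 8 5 16, .mk 98 7 5 20, .mk 123 7 5 15, .mk 79 6 5 5, 375, 15, 10, 15⟩ (by decide +kernel)
theorem zR73 : Cov (ix [0, 1, 2, 16, 17]) ⟨5, 1, 8⟩ ⟨1, 1, 2⟩ ⟨2, 1, 6⟩ :=
  Cov.leafU ⟨.mk 104 6 5 20, .mk 70 6 5 18, .mk 80 8 5 16, .mk 92 7 5 24, .mk 122 7 5 18, .mk 83 6 5 6, 377, 15, 10, 15⟩ (by decide +kernel)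
theorem zR78 : Cov (ix [13]) ⟨6, 1, 8⟩ ⟨1, 3, 4⟩ ⟨2, 1, 6⟩ :=
  Cov.leafU ⟨.mk 122 6 5 34, .mk 121 7 5 63, .mk 96 9 5 32, .mk 75 7 5 38, .mk 66 6 5 16, .mk 86 6 5 6, 379, 15, 10, 15⟩ (by decide +kernel)
theorem zR79 : Cov (ix [8, 9, 10, 11, 12]) ⟨6, 1, 8⟩ ⟨1, 1, 4⟩ ⟨2, 1, 6⟩ :=
  Cov.leafU ⟨.mk 70 5 5 8, .mk 81 7 5 23, .mk 96 9 5 32, .mk 125 8 5 51, .mk 75 6 5 7, .mk 86 6 5 6, 391, 15, 10, 15⟩ (by decide +kernel)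
theorem zR80 : Cov (ix [0, 1, 2, 3, 4, 5, 6, 7, 16, 17]) ⟨12, 1, 16⟩ ⟨1, 1, 4⟩ ⟨2, 1, 6⟩ :=
  Cov.leafU ⟨.mk 69 5 5 7, .mk 84 7 5 21, .mk 112 9 5 16, .mk 66 7 5 23, .mk 75 6 5 7, .mk 85 6 5 5, 405, 15, 10, 15⟩ (by decide +kernel)
theorem zR81 : Cov (ix [0, 1, 2, 3, 4, 5, 6, 7, 16, 17]) ⟨13, 1, 16⟩ ⟨1, 1, 4⟩ ⟨2, 1, 6⟩ :=
  Cov.leafU ⟨.mk 71 5 5 7, .mk 80 7 5 22, .mk 80 9 5 16, .mk 122 8 5 48, .mk 75 6 5 7, .mk 87 6 5 6, 407, 15, 10, 15⟩ (by decide +kernel)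
theorem zR84 : Cov (ix [1, 2, 3, 4, 5, 6, 7, 8, 9, 10, 11, 12]) ⟨6, 1, 8⟩ ⟨1, 1, 2⟩ ⟨2, 1, 6⟩ :=
  Cov.leafU ⟨.mk 111 6 5 23, .mk 71 6 5 21, .mk 96 9 5 32, .mk 85 7 5 27, .mk 121 7 5 21, .mk 86 6 5 6, 381, 15, 10, 15⟩ (by decide +kernel)
theorem zR85 : Cov (ix [0, 16, 17]) ⟨12, 1, 16⟩ ⟨1, 1, 2⟩ ⟨2, 1, 6⟩ :=
  Cov.leafU ⟨.mk 109 6 5 21, .mk 71 6 5 20, .mk 112 9 5 16, .mk 88 7 5 25, .mk 122 7 5 20, .mk 85 6 5 5, 394, 15, 10, 15⟩ (by decide +kernel)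
theorem zR86 : Cov (ix [0, 16, 17]) ⟨13, 1, 16⟩ ⟨1, 1, 2⟩ ⟨2, 1, 6⟩ :=
  Cov.leafU ⟨.mk 112 6 5 22, .mk 71 6 5 21, .mk 80 9 5 16, .mk 85 7 5 27, .mk 121 7 5 21, .mk 87 6 5 6, 397, 15, 10, 15⟩ (by decide +kernel)
theorem zR93 : Cov (ix [13]) ⟨28, 3, 32⟩ ⟨0, 1, 16⟩ ⟨4, 1, 12⟩ :=
  Cov.leafU ⟨.mk 90 5 5 5, .mk 122 10 5 90, .mk 80 10 5 48, .mk 82 8 5 33, .mk 85 6 5 5, .mk 86 6 5 4, 457, 15, 10, 15⟩ (by decide +kernel)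
theorem zR94 : Cov (ix [0, 1, 2, 3, 4, 5, 6, 7, 8, 9, 10, 11, 12, 16, 17]) ⟨14, 1, 16⟩ ⟨0, 1, 16⟩ ⟨4, 1, 12⟩ :=
  Cov.leafU ⟨.mk 89 5 5 4, .mk 69 9 5 37, .mk 96 10 5 32, .mk 85 8 5 29, .mk 85 6 5 5, .mk 86 6 5 4, 452, 15, 10, 15⟩ (by decide +kernel)
theorem zR95 : Cov (ix [0, 1, 2, 3, 4, 5, 6, 7, 8, 9, 10, 11, 12, 16, 17]) ⟨30, 1, 32⟩ ⟨0, 1, 16⟩ ⟨4, 1, 12⟩ :=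
  Cov.leafU ⟨.mk 92 5 5 3, .mk 93 10 5 61, .mk 96 11 5 32, .mk 77 8 5 28, .mk 86 6 5 4, .mk 87 6 5 3, 474, 15, 10, 15⟩ (by decide +kernel)
theorem zR98 : Cov (ix [0, 1, 2, 3, 4, 5, 6, 7, 8, 9, 10, 11, 12, 13, 16, 17]) ⟨14, 1, 16⟩ ⟨0, 1, 16⟩ ⟨20, 3, 48⟩ :=
  Cov.leafU ⟨.mk 89 5 5 4, .mk 69 9 5 37, .mk 96 10 5 32, .mk 105 9 5 53, .mk 89 6 5 4, .mk 90 6 5 3, 483, 15, 10, 15⟩ (by decide +kernel)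
theorem zR99 : Cov (ix [0, 1, 2, 3, 4, 5, 6, 7, 8, 9, 10, 11, 12, 13, 16, 17]) ⟨30, 1, 32⟩ ⟨0, 1, 16⟩ ⟨20, 3, 48⟩ :=
  Cov.leafU ⟨.mk 92 5 5 3, .mk 93 10 5 61, .mk 96 11 5 32, .mk 84 9 5 48, .mk 90 6 5 4, .mk 92 6 5 3, 505, 15, 10, 15⟩ (by decide +kernel)
theorem zR101 : Cov (ix [0, 1, 2, 3, 4, 5, 6, 11, 12, 13, 16, 17]) ⟨14, 1, 16⟩ ⟨0, 1, 16⟩ ⟨23, 1, 48⟩ :=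
  Cov.leafU ⟨.mk 89 5 5 4, .mk 69 9 5 37, .mk 96 10 5 32, .mk 68 9 5 36, .mk 91 6 5 3, .mk 92 6 5 2, 483, 15, 10, 15⟩ (by decide +kernel)
theorem zR102 : Cov (ix [7, 8, 9, 10]) ⟨28, 1, 32⟩ ⟨0, 1, 16⟩ ⟨23, 1, 48⟩ :=
  Cov.leafU ⟨.mk 88 5 5 3, .mk 77 9 5 29, .mk 112 10 5 16, .mk 76 9 5 28, .mk 91 6 5 3, .mk 92 6 5 2, 496, 15, 10, 15⟩ (by decide +kernel)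
theorem zR103 : Cov (ix [7, 8, 9, 10]) ⟨29, 1, 32⟩ ⟨0, 1, 16⟩ ⟨23, 1, 48⟩ :=
  Cov.leafU ⟨.mk 90 5 5 3, .mk 124 10 5 60, .mk 80 10 5 16, .mk 121 10 5 57, .mk 92 6 5 3, .mk 93 6 5 2, 500, 15, 10, 15⟩ (by decide +kernel)
theorem zR106 : Cov (ix [0, 1, 2, 13, 16, 17]) ⟨30, 1, 32⟩ ⟨0, 1, 16⟩ ⟨23, 1, 48⟩ :=
  Cov.leafU ⟨.mk 92 5 5 3, .mk 93 10 5 61, .mk 96 11 5 32, .mk 90 10 5 58, .mk 93 6 5 3, .mk 94 6 5 2, 505, 15, 10, 15⟩ (by decide +kernel)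
theorem zR107 : Cov (ix [3, 4, 5, 6, 7, 8, 9, 10, 11, 12]) ⟨30, 1, 32⟩ ⟨0, 1, 64⟩ ⟨23, 1, 48⟩ :=
  Cov.leafU ⟨.mk 93 5 5 2, .mk 119 11 5 55, .mk 96 11 5 32, .mk 74 10 5 42, .mk 94 6 5 2, .mk 94 6 5 2, 528, 15, 10, 15⟩ (by decide +kernel)
theorem zR108 : Cov (ix [3, 4, 5, 6, 7, 8, 9, 10, 11, 12]) ⟨30, 1, 32⟩ ⟨1, 3, 64⟩ ⟨23, 1, 48⟩ :=
  Cov.leafU ⟨.mk 92 5 5 3, .mk 105 10 5 50, .mk 96 11 5 32, .mk 96 10 5 53, .mk 93 6 5 3, .mk 94 6 5 2, 524, 15, 10, 15⟩ (by decide +kernel)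
theorem zR114 : Cov (ix [11, 12, 13, 16]) ⟨28, 3, 32⟩ ⟨1, 3, 16⟩ ⟨4, 1, 12⟩ :=
  Cov.leafU ⟨.mk 85 5 5 8, .mk 74 8 5 43, .mk 80 10 5 48, .mk 97 8 5 38, .mk 82 6 5 7, .mk 86 6 5 4, 453, 15, 10, 15⟩ (by decide +kernel)
theorem zR115 : Cov (ix [0, 1, 2, 3, 4, 5, 6, 7, 8, 9, 10, 17]) ⟨14, 1, 16⟩ ⟨1, 3, 16⟩ ⟨4, 1, 12⟩ :=
  Cov.leafU ⟨.mk 84 5 5 7, .mk 77 8 5 39, .mk 96 10 5 32, .mk 100 8 5 35, .mk 81 6 5 6, .mk 86 6 5 4, 448, 15, 10, 15⟩ (by decide +kernel)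
theorem zR116 : Cov (ix [0, 1, 2, 3, 4, 5, 6, 7, 8, 9, 10, 17]) ⟨30, 1, 32⟩ ⟨1, 3, 16⟩ ⟨4, 1, 12⟩ :=
  Cov.leafU ⟨.mk 86 5 5 6, .mk 69 8 5 38, .mk 96 11 5 32, .mk 93 8 5 34, .mk 82 6 5 6, .mk 87 6 5 3, 469, 15, 10, 15⟩ (by decide +kernel)
theorem zR119 : Cov (ix [13]) ⟨28, 3, 32⟩ ⟨1, 1, 16⟩ ⟨5, 1, 12⟩ :=
  Cov.leafU ⟨.mk 87 5 5 5, .mk 105 9 5 43, .mk 80 10 5 48, .mk 107 9 5 68, .mk 88 6 5 6, .mk 91 6 5 4, 455, 15, 10, 15⟩ (by decide +kernel)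
theorem zR120 : Cov (ix [0, 1, 2, 3, 4, 5, 10, 11, 12, 16, 17]) ⟨14, 1, 16⟩ ⟨1, 1, 16⟩ ⟨5, 1, 12⟩ :=
  Cov.leafU ⟨.mk 86 5 5 4, .mk 113 9 5 36, .mk 96 10 5 32, .mk 114 9 5 60, .mk 87 6 5 5, .mk 91 6 5 4, 450, 15, 10, 15⟩ (by decide +kernel)
theorem zR121 : Cov (ix [6, 7, 8, 9]) ⟨28, 1, 32⟩ ⟨1, 1, 16⟩ ⟨5, 1, 12⟩ :=
  Cov.leafU ⟨.mk 85 5 5 3, .mk 120 9 5 29, .mk 112 10 5 16, .mk 122 9 5 53, .mk 87 6 5 5, .mk 90 6 5 3, 464, 15, 10, 15⟩ (by decide +kernel)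
theorem zR122 : Cov (ix [6, 7, 8, 9]) ⟨29, 1, 32⟩ ⟨1, 1, 16⟩ ⟨5, 1, 12⟩ :=
  Cov.leafU ⟨.mk 87 5 5 3, .mk 106 9 5 29, .mk 80 10 5 16, .mk 108 9 5 54, .mk 88 6 5 5, .mk 91 6 5 3, 467, 15, 10, 15⟩ (by decide +kernel)
theorem zR125 : Cov (ix [0, 1, 2, 3, 4, 11, 12, 16, 17]) ⟨30, 1, 32⟩ ⟨1, 1, 16⟩ ⟨5, 1, 12⟩ :=
  Cov.leafU ⟨.mk 89 5 5 3, .mk 92 9 5 30, .mk 96 11 5 32, .mk 95 9 5 56, .mk 89 6 5 5, .mk 92 6 5 3, 471, 15, 10, 15⟩ (by decide +kernel)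

end Crest.Agent.R163.Bx
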