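import Crest.Agent.R163.BzV

set_option autoImplicit false
set_option Elab.async false

namespace Crest.Agent.R163.Bx

theorem zR126 : Cov (ix [5, 6, 7, 8, 9, 10]) ⟨30, 1, 32⟩ ⟨2, 1, 32⟩ ⟨5, 1, 12⟩ :=
  Cov.leafU ⟨.mk 90 5 5 3, .mk 81 9 5 19, .mk 96 11 5 32, .mk 90 9 5 51, .mk 89 6 5 4, .mk 92 6 5 3, 482, 15, 10, 15⟩ (by decide +kernel)
theorem zR127 : Cov (ix [5, 6, 7, 8, 9, 10]) ⟨30, 1, 32⟩ ⟨3, 1, 32⟩ ⟨5, 1, 12⟩ :=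
  Cov.leafU ⟨.mk 88 5 5 2, .mk 104 9 5 19, .mk 96 11 5 32, .mk 100 9 5 50, .mk 88 6 5 4, .mk 92 6 5 3, 481, 15, 10, 15⟩ (by decide +kernel)
theorem zR132 : Cov (ix [13]) ⟨28, 3, 32⟩ ⟨1, 1, 8⟩ ⟨5, 1, 12⟩ :=
  Cov.leafU ⟨.mk 83 5 5 6, .mk 85 8 5 31, .mk 80 10 5 48, .mk 68 8 5 37, .mk 84 6 5 6, .mk 91 6 5 4, 443, 15, 10, 15⟩ (by decide +kernel)
theorem zR133 : Cov (ix [0, 1, 2, 3, 4, 5, 6, 7, 8, 10, 11, 12, 16, 17]) ⟨14, 1, 16⟩ ⟨1, 1, 8⟩ ⟨5, 1, 12⟩ :=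
  Cov.leafU ⟨.mk 82 5 5 5, .mk 89 8 5 28, .mk 96 10 5 32, .mk 72 8 5 34, .mk 84 6 5 6, .mk 91 6 5 4, 438, 15, 10, 15⟩ (by decide +kernel)
theorem zR134 : Cov (ix [9]) ⟨28, 1, 32⟩ ⟨1, 1, 8⟩ ⟨5, 1, 12⟩ :=
  Cov.leafU ⟨.mk 81 5 5 4, .mk 92 8 5 25, .mk 112 10 5 16, .mk 75 8 5 30, .mk 83 6 5 5, .mk 90 6 5 3, 440, 15, 10, 15⟩ (by decide +kernel)
theorem zR135 : Cov (ix [9]) ⟨29, 1, 32⟩ ⟨1, 1, 8⟩ ⟨5, 1, 12⟩ :=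
  Cov.leafU ⟨.mk 83 5 5 4, .mk 86 8 5 25, .mk 80 10 5 16, .mk 69 8 5 31, .mk 84 6 5 5, .mk 91 6 5 3, 443, 15, 10, 15⟩ (by decide +kernel)
theorem zR138 : Cov (ix [0, 1, 2, 3, 4, 5, 6, 7, 8, 10, 11, 12, 16, 17]) ⟨30, 1, 32⟩ ⟨1, 1, 8⟩ ⟨5, 1, 12⟩ :=
  Cov.leafU ⟨.mk 85 5 5 5, .mk 80 8 5 26, .mk 96 11 5 32, .mk 125 9 5 63, .mk 85 6 5 6, .mk 92 6 5 3, 459, 15, 10, 15⟩ (by decide +kernel)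
theorem zR139 : Cov (ix [9]) ⟨60, 1, 64⟩ ⟨1, 1, 8⟩ ⟨5, 1, 12⟩ :=
  Cov.leafU ⟨.mk 84 5 5 4, .mk 82 8 5 25, .mk 112 11 5 16, .mk 128 9 5 59, .mk 84 6 5 5, .mk 92 6 5 3, 460, 15, 10, 15⟩ (by decide +kernel)
theorem zR140 : Cov (ix [9]) ⟨61, 1, 64⟩ ⟨1, 1, 8⟩ ⟨5, 1, 12⟩ :=
  Cov.leafU ⟨.mk 85 5 5 4, .mk 79 8 5 25, .mk 80 11 5 16, .mk 122 9 5 60, .mk 85 6 5 6, .mk 92 6 5 3, 463, 15, 10, 15⟩ (by decide +kernel)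
theorem zR148 : Cov (ix [0, 1, 2, 3, 4, 5, 6, 7, 8, 9, 10, 11, 12, 13, 16, 17]) ⟨124, 3, 128⟩ ⟨0, 1, 64⟩ ⟨4, 1, 12⟩ :=
  Cov.leafU ⟨.mk 95 5 5 2, .mk 127 12 5 95, .mk 80 12 5 48, .mk 69 8 5 25, .mk 88 6 5 4, .mk 88 6 5 4, 537, 15, 10, 15⟩ (by decide +kernel)
theorem zR149 : Cov (ix [0, 1, 2, 3, 4, 5, 6, 7, 8, 9, 10, 11, 12, 13, 16, 17]) ⟨124, 3, 128⟩ ⟨1, 3, 64⟩ ⟨4, 1, 12⟩ :=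
  Cov.leafU ⟨.mk 93 5 5 2, .mk 78 10 5 47, .mk 80 12 5 48, .mk 73 8 5 27, .mk 86 6 5 4, .mk 88 6 5 4, 532, 15, 10, 15⟩ (by decide +kernel)
theorem zR151 : Cov (ix [0, 1, 2, 3, 4, 5, 6, 7, 8, 9, 10, 11, 12, 13, 16, 17]) ⟨508, 3, 512⟩ ⟨0, 1, 64⟩ ⟨4, 1, 12⟩ :=
  Cov.leafU ⟨.mk 95 5 5 1, .mk 68 12 5 60, .mk 80 14 5 48, .mk 66 8 5 23, .mk 88 6 5 4, .mk 88 6 5 3, 581, 15, 10, 15⟩ (by decide +kernel)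
theorem zR152 : Cov (ix [0, 1, 2, 3, 4, 5, 6, 7, 8, 9, 10, 11, 12, 13, 16, 17]) ⟨2044, 3, 2048⟩ ⟨0, 1, 256⟩ ⟨4, 1, 12⟩ :=
  Cov.leafU ⟨.mk 96 5 5 1, .mk 68 14 5 60, .mk 80 16 5 48, .mk 128 9 5 45, .mk 88 6 5 3, .mk 88 6 5 3, 650, 15, 10, 15⟩ (by decide +kernel)
theorem zR153 : Cov (ix [0, 1, 2, 3, 4, 5, 6, 7, 8, 9, 10, 11, 12, 13, 16, 17]) ⟨8188, 3, 8192⟩ ⟨0, 1, 1024⟩ ⟨4, 1, 12⟩ :=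
  Cov.leafU ⟨.mk 96 5 5 1, .mk 68 16 5 60, .mk 80 18 5 48, .mk 64 8 5 22, .mk 88 6 5 3, .mk 88 6 5 3, 718, 15, 10, 15⟩ (by decide +kernel)
theorem zR154 : Cov (ix [13, 16]) ⟨8191, 1, 8192⟩ ⟨0, 1, 1024⟩ ⟨4, 1, 12⟩ :=
  Cov.leafU ⟨.mk 96 5 5 1, .bot 104 16, .bot 128 20, .mk 128 9 5 43, .mk 88 6 5 3, .mk 88 6 5 3, 618, 15, 10, 15⟩ (by decide +kernel)
theorem zR155 : Cov (ix [0, 1, 2, 3, 4, 5, 6, 7, 8, 9, 10, 11, 12, 17]) ⟨32764, 3, 32768⟩ ⟨0, 1, 1024⟩ ⟨4, 1, 12⟩ :=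
  Cov.leafU ⟨.mk 96 5 5 1, .bot 104 16, .mk 80 20 5 48, .mk 128 9 5 43, .mk 88 6 5 3, .mk 88 6 5 3, 708, 15, 10, 15⟩ (by decide +kernel)
theorem zR156 : Cov (ix [0, 1, 2, 3, 4, 5, 6, 7, 8, 9, 10, 11, 12, 17]) ⟨32767, 1, 32768⟩ ⟨0, 1, 1024⟩ ⟨4, 1, 12⟩ :=
  Cov.leafU ⟨.mk 96 5 5 1, .bot 98 16, .bot 128 22, .mk 128 9 5 43, .mk 88 6 5 3, .mk 88 6 5 3, 661, 15, 10, 15⟩ (by decide +kernel)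
theorem zR160 : Cov (ix [0, 1, 2, 3, 4, 5, 6, 7, 8, 9, 10, 11, 12, 13, 16, 17]) ⟨2047, 1, 2048⟩ ⟨1, 3, 1024⟩ ⟨4, 1, 12⟩ :=
  Cov.leafU ⟨.mk 96 5 5 1, .mk 64 14 5 40, .bot 128 18, .mk 64 8 5 22, .mk 88 6 5 3, .mk 88 6 5 3, 622, 15, 10, 15⟩ (by decide +kernel)
theorem zR163 : Cov (ix [0, 1, 2, 3, 4, 5, 6, 7, 8, 9, 10, 11, 12, 13, 16, 17]) ⟨2044, 3, 2048⟩ ⟨1, 3, 256⟩ ⟨4, 1, 12⟩ :=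
  Cov.leafU ⟨.mk 96 5 5 1, .mk 65 12 5 40, .mk 80 16 5 48, .mk 66 8 5 23, .mk 88 6 5 4, .mk 88 6 5 3, 641, 15, 10, 15⟩ (by decide +kernel)
theorem zR164 : Cov (ix [0, 1, 2, 3, 4, 5, 6, 7, 8, 9, 10, 11, 12, 13, 16, 17]) ⟨2047, 1, 2048⟩ ⟨1, 3, 256⟩ ⟨4, 1, 12⟩ :=
  Cov.leafU ⟨.mk 96 5 5 1, .mk 122 13 5 74, .bot 128 18, .mk 66 8 5 23, .mk 88 6 5 4, .mk 88 6 5 3, 593, 15, 10, 15⟩ (by decide +kernel)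
theorem zR168 : Cov (ix [0, 1, 2, 3, 4, 5, 6, 7, 8, 9, 10, 11, 12, 13, 16, 17]) ⟨508, 3, 512⟩ ⟨1, 3, 64⟩ ⟨4, 1, 12⟩ :=
  Cov.leafU ⟨.mk 94 5 5 2, .mk 65 10 5 40, .mk 80 14 5 48, .mk 70 8 5 25, .mk 87 6 5 4, .mk 88 6 5 3, 572, 15, 10, 15⟩ (by decide +kernel)
theorem zR169 : Cov (ix [0, 1, 2, 3, 4, 5, 6, 7, 8, 9, 10, 11, 12, 13, 16, 17]) ⟨2044, 3, 2048⟩ ⟨1, 3, 64⟩ ⟨4, 1, 12⟩ :=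
  Cov.leafU ⟨.mk 94 5 5 2, .mk 122 11 5 74, .mk 80 16 5 48, .mk 70 8 5 25, .mk 87 6 5 4, .mk 88 6 5 3, 611, 15, 10, 15⟩ (by decide +kernel)
theorem zR170 : Cov (ix [0, 1, 2, 3, 4, 5, 6, 7, 8, 9, 10, 11, 12, 13, 16, 17]) ⟨8188, 3, 8192⟩ ⟨1, 3, 64⟩ ⟨4, 1, 12⟩ :=
  Cov.leafU ⟨.mk 94 5 5 2, .mk 121 11 5 73, .mk 80 18 5 48, .mk 70 8 5 25, .mk 87 6 5 4, .mk 88 6 5 3, 651, 15, 10, 15⟩ (by decide +kernel)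
theorem zR171 : Cov (ix [0, 1, 2, 3, 4, 5, 6, 7, 8, 9, 10, 11, 12, 13, 16, 17]) ⟨8191, 1, 8192⟩ ⟨1, 3, 64⟩ ⟨4, 1, 12⟩ :=
  Cov.leafU ⟨.mk 94 5 5 2, .mk 121 11 5 73, .bot 128 20, .mk 70 8 5 25, .mk 87 6 5 4, .mk 88 6 5 3, 594, 15, 10, 15⟩ (by decide +kernel)
theorem zR177 : Cov (ix [0, 1, 2, 3, 4, 5, 6, 7, 8, 9, 10, 11, 12, 13, 16, 17]) ⟨124, 3, 128⟩ ⟨0, 1, 64⟩ ⟨20, 3, 48⟩ :=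
  Cov.leafU ⟨.mk 95 5 5 2, .mk 127 12 5 95, .mk 80 12 5 48, .mk 65 9 5 40, .mk 92 6 5 3, .mk 92 6 5 3, 568, 15, 10, 15⟩ (by decide +kernel)
theorem zR178 : Cov (ix [0, 1, 2, 3, 4, 5, 6, 7, 8, 9, 10, 11, 12, 13, 16, 17]) ⟨124, 3, 128⟩ ⟨1, 3, 64⟩ ⟨20, 3, 48⟩ :=
  Cov.leafU ⟨.mk 93 5 5 2, .mk 78 10 5 47, .mk 80 12 5 48, .mk 75 9 5 45, .mk 91 6 5 4, .mk 92 6 5 3, 562, 15, 10, 15⟩ (by decide +kernel)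

end Crest.Agent.R163.Bx
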