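import Crest.Agent.R163.BzV

set_option autoImplicit false
set_option Elab.async false

namespace Crest.Agent.R163.Bx

theorem zR180 : Cov (ix [0, 1, 2, 3, 4, 5, 6, 12, 13, 16, 17]) ⟨508, 3, 512⟩ ⟨0, 1, 64⟩ ⟨20, 3, 48⟩ :=
  Cov.leafU ⟨.mk 95 5 5 1, .mk 68 12 5 60, .mk 80 14 5 48, .mk 116 10 5 72, .mk 92 6 5 3, .mk 93 6 5 3, 611, 15, 10, 15⟩ (by decide +kernel)
theorem zR181 : Cov (ix [7, 8, 9, 10, 11]) ⟨254, 1, 256⟩ ⟨0, 1, 64⟩ ⟨20, 3, 48⟩ :=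
  Cov.leafU ⟨.mk 95 5 5 1, .mk 72 12 5 56, .mk 96 14 5 32, .mk 117 10 5 71, .mk 92 6 5 3, .mk 93 6 5 3, 595, 15, 10, 15⟩ (by decide +kernel)
theorem zR182 : Cov (ix [7, 8, 9, 10, 11]) ⟨510, 1, 512⟩ ⟨0, 1, 64⟩ ⟨20, 3, 48⟩ :=
  Cov.leafU ⟨.mk 96 5 5 1, .mk 120 13 5 104, .mk 96 15 5 32, .mk 114 10 5 70, .mk 92 6 5 3, .mk 93 6 5 3, 616, 15, 10, 15⟩ (by decide +kernel)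
theorem zR185 : Cov (ix [0, 1, 2, 3, 4, 5, 6, 7, 8, 9, 10, 11, 12, 13, 16, 17]) ⟨2044, 3, 2048⟩ ⟨0, 1, 256⟩ ⟨20, 3, 48⟩ :=
  Cov.leafU ⟨.mk 96 5 5 1, .mk 68 14 5 60, .mk 80 16 5 48, .mk 109 10 5 66, .mk 93 6 5 3, .mk 93 6 5 3, 680, 15, 10, 15⟩ (by decide +kernel)
theorem zR186 : Cov (ix [0, 1, 2, 3, 4, 5, 6, 7, 8, 9, 10, 11, 12, 13, 16, 17]) ⟨8188, 3, 8192⟩ ⟨0, 1, 1024⟩ ⟨20, 3, 48⟩ :=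
  Cov.leafU ⟨.mk 96 5 5 1, .mk 68 16 5 60, .mk 80 18 5 48, .mk 107 10 5 65, .mk 93 6 5 3, .mk 93 6 5 3, 749, 15, 10, 15⟩ (by decide +kernel)
theorem zR187 : Cov (ix [0, 1, 2, 16, 17]) ⟨8191, 1, 8192⟩ ⟨0, 1, 4096⟩ ⟨20, 3, 48⟩ :=
  Cov.leafU ⟨.mk 96 5 5 1, .bot 128 18, .bot 128 20, .mk 107 10 5 65, .mk 93 6 5 3, .mk 93 6 5 3, 687, 15, 10, 15⟩ (by decide +kernel)
theorem zR188 : Cov (ix [3, 4, 5, 6, 7, 8, 9, 10, 11, 12, 13]) ⟨32764, 3, 32768⟩ ⟨0, 1, 4096⟩ ⟨20, 3, 48⟩ :=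
  Cov.leafU ⟨.mk 96 5 5 1, .mk 68 18 5 60, .mk 80 20 5 48, .mk 107 10 5 65, .mk 93 6 5 3, .mk 93 6 5 3, 817, 15, 10, 15⟩ (by decide +kernel)
theorem zR189 : Cov (ix [3, 4, 5, 13]) ⟨32767, 1, 32768⟩ ⟨0, 1, 4096⟩ ⟨20, 3, 48⟩ :=
  Cov.leafU ⟨.mk 96 5 5 1, .bot 104 18, .bot 128 22, .mk 107 10 5 65, .mk 93 6 5 3, .mk 93 6 5 3, 716, 15, 10, 15⟩ (by decide +kernel)
theorem zR190 : Cov (ix [6, 7, 8, 9, 10, 11, 12]) ⟨32767, 1, 32768⟩ ⟨0, 1, 16384⟩ ⟨20, 3, 48⟩ :=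
  Cov.leafU ⟨.mk 96 5 5 1, .bot 128 20, .bot 128 22, .mk 107 10 5 65, .mk 93 6 5 3, .mk 93 6 5 3, 736, 15, 10, 15⟩ (by decide +kernel)
theorem zR191 : Cov (ix [6, 7, 8, 9, 10, 11, 12]) ⟨32767, 1, 32768⟩ ⟨1, 3, 16384⟩ ⟨20, 3, 48⟩ :=
  Cov.leafU ⟨.mk 96 5 5 1, .mk 64 18 5 40, .bot 128 22, .mk 107 10 5 65, .mk 93 6 5 3, .mk 93 6 5 3, 771, 15, 10, 15⟩ (by decide +kernel)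
theorem zR196 : Cov (ix [0, 1, 2, 3, 4, 5, 6, 7, 8, 9, 10, 11, 12, 13, 16, 17]) ⟨8191, 1, 8192⟩ ⟨1, 3, 4096⟩ ⟨20, 3, 48⟩ :=
  Cov.leafU ⟨.mk 96 5 5 1, .mk 64 16 5 40, .bot 128 20, .mk 107 10 5 65, .mk 93 6 5 3, .mk 93 6 5 3, 712, 15, 10, 15⟩ (by decide +kernel)
theorem zR199 : Cov (ix [0, 1, 2, 3, 4, 5, 6, 13, 16, 17]) ⟨2047, 1, 2048⟩ ⟨1, 3, 1024⟩ ⟨20, 3, 48⟩ :=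
  Cov.leafU ⟨.mk 96 5 5 1, .mk 64 14 5 40, .bot 128 18, .mk 109 10 5 66, .mk 93 6 5 3, .mk 93 6 5 3, 652, 15, 10, 15⟩ (by decide +kernel)
theorem zR200 : Cov (ix [7, 8, 9, 10, 11, 12]) ⟨8188, 3, 8192⟩ ⟨1, 3, 1024⟩ ⟨20, 3, 48⟩ :=
  Cov.leafU ⟨.mk 96 5 5 1, .mk 65 14 5 40, .mk 80 18 5 48, .mk 109 10 5 66, .mk 93 6 5 3, .mk 93 6 5 3, 740, 15, 10, 15⟩ (by decide +kernel)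
theorem zR201 : Cov (ix [7, 8, 9, 10, 11, 12]) ⟨8191, 1, 8192⟩ ⟨1, 3, 1024⟩ ⟨20, 3, 48⟩ :=
  Cov.leafU ⟨.mk 96 5 5 1, .mk 122 15 5 74, .bot 128 20, .mk 109 10 5 66, .mk 93 6 5 3, .mk 93 6 5 3, 683, 15, 10, 15⟩ (by decide +kernel)
theorem zR206 : Cov (ix [0, 1, 2, 3, 4, 5, 6, 7, 8, 9, 10, 11, 12, 13, 16, 17]) ⟨2044, 3, 2048⟩ ⟨1, 3, 256⟩ ⟨20, 3, 48⟩ :=
  Cov.leafU ⟨.mk 96 5 5 1, .mk 65 12 5 40, .mk 80 16 5 48, .mk 115 10 5 69, .mk 92 6 5 3, .mk 93 6 5 3, 671, 15, 10, 15⟩ (by decide +kernel)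
theorem zR207 : Cov (ix [0, 1, 16, 17]) ⟨2047, 1, 2048⟩ ⟨1, 3, 256⟩ ⟨20, 3, 48⟩ :=
  Cov.leafU ⟨.mk 96 5 5 1, .mk 122 13 5 74, .bot 128 18, .mk 114 10 5 69, .mk 93 6 5 3, .mk 93 6 5 3, 623, 15, 10, 15⟩ (by decide +kernel)
theorem zR208 : Cov (ix [2, 3, 4, 5, 6, 7, 8, 9, 10, 11, 12, 13]) ⟨8188, 3, 8192⟩ ⟨1, 3, 256⟩ ⟨20, 3, 48⟩ :=
  Cov.leafU ⟨.mk 96 5 5 1, .mk 122 13 5 74, .mk 80 18 5 48, .mk 114 10 5 69, .mk 93 6 5 3, .mk 93 6 5 3, 711, 15, 10, 15⟩ (by decide +kernel)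
theorem zR209 : Cov (ix [2, 3, 4, 5, 6, 7, 8, 9, 10, 11, 12, 13]) ⟨8191, 1, 8192⟩ ⟨1, 3, 256⟩ ⟨20, 3, 48⟩ :=
  Cov.leafU ⟨.mk 96 5 5 1, .mk 121 13 5 73, .bot 128 20, .mk 113 10 5 68, .mk 93 6 5 3, .mk 93 6 5 3, 653, 15, 10, 15⟩ (by decide +kernel)
theorem zR215 : Cov (ix [0, 1, 2, 3, 4, 5, 6, 7, 8, 9, 10, 11, 12, 13, 16, 17]) ⟨508, 3, 512⟩ ⟨1, 3, 64⟩ ⟨20, 3, 48⟩ :=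
  Cov.leafU ⟨.mk 94 5 5 2, .mk 65 10 5 40, .mk 80 14 5 48, .mk 69 9 5 41, .mk 91 6 5 4, .mk 93 6 5 3, 602, 15, 10, 15⟩ (by decide +kernel)
theorem zR216 : Cov (ix [0, 1, 2, 3, 4, 5, 6, 7, 8, 9, 10, 11, 12, 13, 16, 17]) ⟨2044, 3, 2048⟩ ⟨1, 3, 64⟩ ⟨20, 3, 48⟩ :=
  Cov.leafU ⟨.mk 94 5 5 2, .mk 122 11 5 74, .mk 80 16 5 48, .mk 67 9 5 40, .mk 91 6 5 3, .mk 93 6 5 3, 642, 15, 10, 15⟩ (by decide +kernel)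
theorem zR217 : Cov (ix [0, 1, 2, 3, 4, 5, 6, 7, 8, 9, 10, 11, 12, 13, 16, 17]) ⟨8188, 3, 8192⟩ ⟨1, 3, 64⟩ ⟨20, 3, 48⟩ :=
  Cov.leafU ⟨.mk 94 5 5 2, .mk 121 11 5 73, .mk 80 18 5 48, .mk 67 9 5 40, .mk 91 6 5 3, .mk 93 6 5 3, 682, 15, 10, 15⟩ (by decide +kernel)
theorem zR218 : Cov (ix [0, 16, 17]) ⟨8191, 1, 8192⟩ ⟨1, 3, 64⟩ ⟨20, 3, 48⟩ :=
  Cov.leafU ⟨.mk 94 5 5 2, .mk 121 11 5 73, .bot 128 20, .mk 67 9 5 40, .mk 91 6 5 3, .mk 93 6 5 3, 626, 15, 10, 15⟩ (by decide +kernel)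
theorem zR219 : Cov (ix [1, 2, 3, 4, 5, 6, 7, 8, 9, 10, 11, 12, 13]) ⟨32764, 3, 32768⟩ ⟨1, 3, 64⟩ ⟨20, 3, 48⟩ :=
  Cov.leafU ⟨.mk 94 5 5 2, .mk 121 11 5 73, .mk 80 20 5 48, .mk 67 9 5 40, .mk 91 6 5 3, .mk 93 6 5 3, 721, 15, 10, 15⟩ (by decide +kernel)
theorem zR220 : Cov (ix [1, 2, 3, 4, 5, 6, 7, 8, 10, 11, 12, 13]) ⟨32767, 1, 32768⟩ ⟨1, 3, 64⟩ ⟨20, 3, 48⟩ :=
  Cov.leafU ⟨.mk 94 5 5 2, .mk 121 11 5 73, .bot 128 22, .mk 67 9 5 40, .mk 91 6 5 3, .mk 93 6 5 3, 656, 15, 10, 15⟩ (by decide +kernel)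
theorem zR221 : Cov (ix [9]) ⟨131068, 3, 131072⟩ ⟨1, 3, 64⟩ ⟨20, 3, 48⟩ :=
  Cov.leafU ⟨.mk 94 5 5 2, .mk 121 11 5 73, .mk 80 22 5 48, .mk 67 9 5 40, .mk 91 6 5 3, .mk 93 6 5 3, 748, 15, 10, 15⟩ (by decide +kernel)
theorem zR222 : Cov (ix [9]) ⟨131071, 1, 131072⟩ ⟨1, 3, 64⟩ ⟨20, 3, 48⟩ :=
  Cov.leafU ⟨.mk 94 5 5 2, .mk 121 11 5 73, .bot 128 24, .mk 67 9 5 40, .mk 91 6 5 3, .mk 93 6 5 3, 674, 15, 10, 15⟩ (by decide +kernel)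
theorem zR232 : Cov (ix [0, 1, 2, 3, 4, 5, 6, 7, 8, 9, 10, 11, 12, 13, 16, 17]) ⟨124, 3, 128⟩ ⟨0, 1, 64⟩ ⟨92, 3, 192⟩ :=
  Cov.leafU ⟨.mk 95 5 5 2, .mk 127 12 5 95, .mk 80 12 5 48, .mk 103 11 5 66, .mk 95 6 5 2, .mk 95 6 5 2, 598, 15, 10, 15⟩ (by decide +kernel)

end Crest.Agent.R163.Bx
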