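import Crest.Agent.R163.BzV

set_option autoImplicit false
set_option Elab.async false

namespace Crest.Agent.R163.Bx

theorem zR233 : Cov (ix [0, 1, 2, 13, 16, 17]) ⟨124, 3, 128⟩ ⟨0, 1, 64⟩ ⟨95, 1, 192⟩ :=
  Cov.leafU ⟨.mk 95 5 5 2, .mk 127 12 5 95, .mk 80 12 5 48, .mk 124 12 5 92, .mk 95 6 5 2, .mk 95 6 5 1, 598, 15, 10, 15⟩ (by decide +kernel)
theorem zR234 : Cov (ix [3, 4, 5, 6, 7, 8, 9, 10, 11, 12]) ⟨62, 1, 64⟩ ⟨0, 1, 64⟩ ⟨95, 1, 192⟩ :=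
  Cov.leafU ⟨.mk 94 5 5 1, .mk 72 11 5 40, .mk 96 12 5 32, .mk 70 11 5 38, .mk 95 6 5 2, .mk 95 6 5 1, 581, 15, 10, 15⟩ (by decide +kernel)
theorem zR235 : Cov (ix [3, 4, 5, 6, 7, 8, 9, 10, 11, 12]) ⟨126, 1, 128⟩ ⟨0, 1, 64⟩ ⟨95, 1, 192⟩ :=
  Cov.leafU ⟨.mk 95 5 5 1, .mk 96 12 5 64, .mk 96 13 5 32, .mk 93 12 5 61, .mk 95 6 5 1, .mk 96 6 5 1, 604, 15, 10, 15⟩ (by decide +kernel)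
theorem zR239 : Cov (ix [13]) ⟨124, 3, 128⟩ ⟨1, 3, 64⟩ ⟨23, 1, 48⟩ :=
  Cov.leafU ⟨.mk 93 5 5 2, .mk 78 10 5 47, .mk 80 12 5 48, .mk 69 10 5 50, .mk 93 6 5 3, .mk 95 6 5 2, 550, 15, 10, 15⟩ (by decide +kernel)
theorem zR240 : Cov (ix [0, 1, 2, 3, 4, 5, 6, 7, 8, 9, 10, 11, 12, 16, 17]) ⟨124, 3, 128⟩ ⟨1, 1, 64⟩ ⟨23, 1, 48⟩ :=
  Cov.leafU ⟨.mk 94 5 5 2, .mk 110 11 5 47, .mk 80 12 5 48, .mk 116 11 5 77, .mk 94 6 5 2, .mk 95 6 5 2, 564, 15, 10, 15⟩ (by decide +kernel)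
theorem zR241 : Cov (ix [0, 1, 2, 3, 4, 5, 6, 7, 8, 9, 10, 11, 12, 16, 17]) ⟨124, 3, 128⟩ ⟨1, 1, 32⟩ ⟨23, 1, 48⟩ :=
  Cov.leafU ⟨.mk 93 5 5 2, .mk 90 10 5 35, .mk 80 12 5 48, .mk 75 10 5 44, .mk 93 6 5 3, .mk 95 6 5 2, 551, 15, 10, 15⟩ (by decide +kernel)
theorem zR245 : Cov (ix [0, 1, 2, 3, 4, 16, 17]) ⟨508, 3, 512⟩ ⟨0, 1, 64⟩ ⟨92, 3, 192⟩ :=
  Cov.leafU ⟨.mk 95 5 5 1, .mk 68 12 5 60, .mk 80 14 5 48, .mk 75 11 5 50, .mk 95 6 5 2, .mk 95 6 5 1, 642, 15, 10, 15⟩ (by decide +kernel)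
theorem zR246 : Cov (ix [5, 6, 7, 8, 9, 10, 11, 12, 13]) ⟨508, 3, 512⟩ ⟨0, 1, 256⟩ ⟨92, 3, 192⟩ :=
  Cov.leafU ⟨.mk 96 5 5 1, .mk 64 13 5 48, .mk 80 14 5 48, .mk 66 11 5 41, .mk 95 6 5 1, .mk 95 6 5 1, 667, 15, 10, 15⟩ (by decide +kernel)
theorem zR247 : Cov (ix [5, 6, 7, 8, 9, 10, 11, 12, 13]) ⟨508, 3, 512⟩ ⟨1, 3, 256⟩ ⟨92, 3, 192⟩ :=
  Cov.leafU ⟨.mk 95 5 5 1, .mk 80 12 5 49, .mk 80 14 5 48, .mk 78 11 5 47, .mk 95 6 5 2, .mk 95 6 5 1, 661, 15, 10, 15⟩ (by decide +kernel)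
theorem zR250 : Cov (ix [0, 1, 2, 3, 4, 5, 6, 7, 8, 9, 10, 11, 12, 13, 16, 17]) ⟨2044, 3, 2048⟩ ⟨0, 1, 256⟩ ⟨92, 3, 192⟩ :=
  Cov.leafU ⟨.mk 96 5 5 1, .mk 68 14 5 60, .mk 80 16 5 48, .mk 117 12 5 73, .mk 95 6 5 1, .mk 95 6 5 1, 710, 15, 10, 15⟩ (by decide +kernel)
theorem zR251 : Cov (ix [0, 1, 2, 3, 4, 5, 6, 7, 8, 9, 10, 11, 12, 13, 16, 17]) ⟨8188, 3, 8192⟩ ⟨0, 1, 1024⟩ ⟨92, 3, 192⟩ :=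
  Cov.leafU ⟨.mk 96 5 5 1, .mk 68 16 5 60, .mk 80 18 5 48, .mk 110 12 5 67, .mk 95 6 5 1, .mk 95 6 5 1, 779, 15, 10, 15⟩ (by decide +kernel)
theorem zR252 : Cov (ix [0, 16, 17]) ⟨8191, 1, 8192⟩ ⟨0, 1, 1024⟩ ⟨92, 3, 192⟩ :=
  Cov.leafU ⟨.mk 96 5 5 1, .bot 104 16, .bot 128 20, .mk 109 12 5 67, .mk 95 6 5 1, .mk 95 6 5 1, 706, 15, 10, 15⟩ (by decide +kernel)
theorem zR253 : Cov (ix [1, 2]) ⟨8191, 1, 8192⟩ ⟨0, 1, 4096⟩ ⟨92, 3, 192⟩ :=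
  Cov.leafU ⟨.mk 96 5 5 1, .bot 128 18, .bot 128 20, .mk 107 12 5 65, .mk 95 6 5 1, .mk 95 6 5 1, 726, 15, 10, 15⟩ (by decide +kernel)
theorem zR254 : Cov (ix [3, 4, 5, 6, 7, 8, 9, 10, 11, 12, 13]) ⟨32764, 3, 32768⟩ ⟨0, 1, 4096⟩ ⟨92, 3, 192⟩ :=
  Cov.leafU ⟨.mk 96 5 5 1, .mk 68 18 5 60, .mk 80 20 5 48, .mk 107 12 5 65, .mk 95 6 5 1, .mk 95 6 5 1, 847, 15, 10, 15⟩ (by decide +kernel)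
theorem zR255 : Cov (ix [3, 4]) ⟨32767, 1, 32768⟩ ⟨0, 1, 4096⟩ ⟨92, 3, 192⟩ :=
  Cov.leafU ⟨.mk 96 5 5 1, .bot 104 18, .bot 128 22, .mk 107 12 5 65, .mk 95 6 5 1, .mk 95 6 5 1, 756, 15, 10, 15⟩ (by decide +kernel)
theorem zR256 : Cov (ix [5, 6]) ⟨32767, 1, 32768⟩ ⟨0, 1, 16384⟩ ⟨92, 3, 192⟩ :=
  Cov.leafU ⟨.mk 96 5 5 1, .bot 128 20, .bot 128 22, .mk 107 12 5 65, .mk 95 6 5 1, .mk 95 6 5 1, 776, 15, 10, 15⟩ (by decide +kernel)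
theorem zR257 : Cov (ix [7, 8]) ⟨32767, 1, 32768⟩ ⟨0, 1, 65536⟩ ⟨92, 3, 192⟩ :=
  Cov.leafU ⟨.mk 96 5 5 1, .bot 112 21, .bot 128 22, .mk 107 12 5 65, .mk 95 6 5 1, .mk 95 6 5 1, 795, 15, 10, 15⟩ (by decide +kernel)
theorem zR258 : Cov (ix [9, 10, 11, 12, 13]) ⟨131068, 3, 131072⟩ ⟨0, 1, 65536⟩ ⟨92, 3, 192⟩ :=
  Cov.leafU ⟨.mk 96 5 5 1, .mk 64 21 5 48, .mk 80 22 5 48, .mk 107 12 5 65, .mk 95 6 5 1, .mk 95 6 5 1, 929, 15, 10, 15⟩ (by decide +kernel)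
theorem zR259 : Cov (ix [9, 13]) ⟨131071, 1, 131072⟩ ⟨0, 1, 65536⟩ ⟨92, 3, 192⟩ :=
  Cov.leafU ⟨.mk 96 5 5 1, .bot 128 22, .bot 128 24, .mk 107 12 5 65, .mk 95 6 5 1, .mk 95 6 5 1, 813, 15, 10, 15⟩ (by decide +kernel)
theorem zR260 : Cov (ix [10, 11, 12]) ⟨524284, 3, 524288⟩ ⟨0, 1, 65536⟩ ⟨92, 3, 192⟩ :=
  Cov.leafU ⟨.mk 96 5 5 1, .mk 68 22 5 60, .mk 80 24 5 48, .mk 107 12 5 65, .mk 95 6 5 1, .mk 95 6 5 1, 973, 15, 10, 15⟩ (by decide +kernel)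
theorem zR261 : Cov (ix [10, 11, 12]) ⟨524287, 1, 524288⟩ ⟨0, 1, 65536⟩ ⟨92, 3, 192⟩ :=
  Cov.leafU ⟨.mk 96 5 5 1, .bot 104 22, .bot 128 26, .mk 107 12 5 65, .mk 95 6 5 1, .mk 95 6 5 1, 842, 15, 10, 15⟩ (by decide +kernel)
theorem zR266 : Cov (ix [7, 8, 9, 10, 11, 12, 13]) ⟨32767, 1, 32768⟩ ⟨1, 3, 65536⟩ ⟨92, 3, 192⟩ :=
  Cov.leafU ⟨.mk 96 5 5 1, .mk 76 20 5 52, .bot 128 22, .mk 107 12 5 65, .mk 95 6 5 1, .mk 95 6 5 1, 829, 15, 10, 15⟩ (by decide +kernel)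
theorem zR269 : Cov (ix [5, 6, 7, 8, 9, 10, 11, 12, 13]) ⟨32767, 1, 32768⟩ ⟨1, 3, 16384⟩ ⟨92, 3, 192⟩ :=
  Cov.leafU ⟨.mk 96 5 5 1, .mk 64 18 5 40, .bot 128 22, .mk 107 12 5 65, .mk 95 6 5 1, .mk 95 6 5 1, 801, 15, 10, 15⟩ (by decide +kernel)
theorem zR274 : Cov (ix [1, 2, 3, 4, 5, 6, 7, 8, 13]) ⟨8191, 1, 8192⟩ ⟨1, 3, 4096⟩ ⟨92, 3, 192⟩ :=
  Cov.leafU ⟨.mk 96 5 5 1, .mk 64 16 5 40, .bot 128 20, .mk 109 12 5 66, .mk 95 6 5 1, .mk 95 6 5 1, 742, 15, 10, 15⟩ (by decide +kernel)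
theorem zR275 : Cov (ix [9, 10, 11, 12]) ⟨32764, 3, 32768⟩ ⟨1, 3, 4096⟩ ⟨92, 3, 192⟩ :=
  Cov.leafU ⟨.mk 96 5 5 1, .mk 65 16 5 40, .mk 80 20 5 48, .mk 109 12 5 66, .mk 95 6 5 1, .mk 95 6 5 1, 826, 15, 10, 15⟩ (by decide +kernel)
theorem zR276 : Cov (ix [9, 10, 11, 12]) ⟨32767, 1, 32768⟩ ⟨1, 3, 4096⟩ ⟨92, 3, 192⟩ :=
  Cov.leafU ⟨.mk 96 5 5 1, .mk 122 17 5 74, .bot 128 22, .mk 109 12 5 66, .mk 95 6 5 1, .mk 95 6 5 1, 760, 15, 10, 15⟩ (by decide +kernel)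
theorem zR282 : Cov (ix [0, 1, 2, 3, 4, 16, 17]) ⟨2047, 1, 2048⟩ ⟨1, 3, 1024⟩ ⟨92, 3, 192⟩ :=
  Cov.leafU ⟨.mk 96 5 5 1, .mk 64 14 5 40, .bot 128 18, .mk 115 12 5 70, .mk 95 6 5 1, .mk 95 6 5 1, 683, 15, 10, 15⟩ (by decide +kernel)
theorem zR283 : Cov (ix [5, 6, 7, 8, 9, 10, 11, 12, 13]) ⟨8188, 3, 8192⟩ ⟨1, 3, 1024⟩ ⟨92, 3, 192⟩ :=
  Cov.leafU ⟨.mk 96 5 5 1, .mk 65 14 5 40, .mk 80 18 5 48, .mk 116 12 5 70, .mk 95 6 5 1, .mk 95 6 5 1, 770, 15, 10, 15⟩ (by decide +kernel)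
theorem zR284 : Cov (ix [5, 6, 7, 8, 13]) ⟨8191, 1, 8192⟩ ⟨1, 3, 1024⟩ ⟨92, 3, 192⟩ :=
  Cov.leafU ⟨.mk 96 5 5 1, .mk 122 15 5 74, .bot 128 20, .mk 114 12 5 69, .mk 95 6 5 1, .mk 95 6 5 1, 713, 15, 10, 15⟩ (by decide +kernel)

end Crest.Agent.R163.Bx
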