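import Crest.Agent.R163.BzV

set_option autoImplicit false
set_option Elab.async false

namespace Crest.Agent.R163.Bx

theorem zR285 : Cov (ix [9, 10, 11, 12]) ⟨32764, 3, 32768⟩ ⟨1, 3, 1024⟩ ⟨92, 3, 192⟩ :=
  Cov.leafU ⟨.mk 96 5 5 1, .mk 122 15 5 74, .mk 80 20 5 48, .mk 114 12 5 69, .mk 95 6 5 1, .mk 95 6 5 1, 797, 15, 10, 15⟩ (by decide +kernel)
theorem zR286 : Cov (ix [9, 10, 11, 12]) ⟨32767, 1, 32768⟩ ⟨1, 3, 1024⟩ ⟨92, 3, 192⟩ :=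
  Cov.leafU ⟨.mk 96 5 5 1, .mk 121 15 5 73, .bot 128 22, .mk 114 12 5 69, .mk 95 6 5 1, .mk 95 6 5 1, 731, 15, 10, 15⟩ (by decide +kernel)
theorem zR293 : Cov (ix [16]) ⟨511, 1, 512⟩ ⟨1, 3, 256⟩ ⟨92, 3, 192⟩ :=
  Cov.leafU ⟨.mk 96 5 5 1, .mk 64 12 5 40, .bot 128 16, .mk 70 11 5 43, .mk 95 6 5 2, .mk 95 6 5 1, 612, 15, 10, 15⟩ (by decide +kernel)
theorem zR294 : Cov (ix [0, 1, 2, 3, 4, 5, 6, 7, 8, 9, 10, 11, 12, 13, 17]) ⟨2044, 3, 2048⟩ ⟨1, 3, 256⟩ ⟨92, 3, 192⟩ :=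
  Cov.leafU ⟨.mk 96 5 5 1, .mk 65 12 5 40, .mk 80 16 5 48, .mk 71 11 5 43, .mk 95 6 5 2, .mk 95 6 5 1, 701, 15, 10, 15⟩ (by decide +kernel)
theorem zR295 : Cov (ix [0, 1, 2, 3, 17]) ⟨2047, 1, 2048⟩ ⟨1, 3, 256⟩ ⟨92, 3, 192⟩ :=
  Cov.leafU ⟨.mk 96 5 5 1, .mk 122 13 5 74, .bot 128 18, .mk 69 11 5 42, .mk 95 6 5 2, .mk 95 6 5 1, 655, 15, 10, 15⟩ (by decide +kernel)
theorem zR296 : Cov (ix [4, 5, 6, 7, 8, 9, 10, 11, 12, 13]) ⟨8188, 3, 8192⟩ ⟨1, 3, 256⟩ ⟨92, 3, 192⟩ :=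
  Cov.leafU ⟨.mk 96 5 5 1, .mk 122 13 5 74, .mk 80 18 5 48, .mk 69 11 5 42, .mk 95 6 5 2, .mk 95 6 5 1, 741, 15, 10, 15⟩ (by decide +kernel)
theorem zR297 : Cov (ix [4, 5, 6, 7]) ⟨8191, 1, 8192⟩ ⟨1, 3, 256⟩ ⟨92, 3, 192⟩ :=
  Cov.leafU ⟨.mk 96 5 5 1, .mk 121 13 5 73, .bot 128 20, .mk 68 11 5 41, .mk 95 6 5 2, .mk 95 6 5 1, 685, 15, 10, 15⟩ (by decide +kernel)
theorem zR298 : Cov (ix [8, 9, 10, 11, 12, 13]) ⟨32764, 3, 32768⟩ ⟨1, 3, 256⟩ ⟨92, 3, 192⟩ :=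
  Cov.leafU ⟨.mk 96 5 5 1, .mk 121 13 5 73, .mk 80 20 5 48, .mk 68 11 5 41, .mk 95 6 5 2, .mk 95 6 5 1, 780, 15, 10, 15⟩ (by decide +kernel)
theorem zR299 : Cov (ix [8, 9, 10, 11, 12, 13]) ⟨32767, 1, 32768⟩ ⟨1, 3, 256⟩ ⟨92, 3, 192⟩ :=
  Cov.leafU ⟨.mk 96 5 5 1, .mk 121 13 5 73, .bot 128 22, .mk 68 11 5 41, .mk 95 6 5 2, .mk 95 6 5 1, 714, 15, 10, 15⟩ (by decide +kernel)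
theorem zR308 : Cov (ix [13]) ⟨508, 3, 512⟩ ⟨0, 1, 256⟩ ⟨95, 1, 192⟩ :=
  Cov.leafU ⟨.mk 96 5 5 1, .mk 64 13 5 48, .mk 80 14 5 48, .mk 95 13 5 79, .mk 96 6 5 1, .mk 96 6 5 1, 655, 15, 10, 15⟩ (by decide +kernel)
theorem zR309 : Cov (ix [0, 1, 2, 3, 4, 5, 6, 7, 8, 9, 10, 11, 12, 16, 17]) ⟨508, 3, 512⟩ ⟨0, 1, 256⟩ ⟨380, 3, 768⟩ :=
  Cov.leafU ⟨.mk 96 5 5 1, .mk 64 13 5 48, .mk 80 14 5 48, .mk 105 13 5 68, .mk 96 6 5 1, .mk 96 6 5 1, 697, 15, 10, 15⟩ (by decide +kernel)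
theorem zR310 : Cov (ix [0, 1, 2, 3, 4, 5, 6, 7, 8, 9, 10, 11, 12, 16, 17]) ⟨508, 3, 512⟩ ⟨0, 1, 256⟩ ⟨383, 1, 768⟩ :=
  Cov.leafU ⟨.mk 96 5 5 1, .mk 64 13 5 48, .mk 80 14 5 48, .mk 125 14 5 93, .mk 96 6 5 1, .mk 96 6 5 1, 697, 15, 10, 15⟩ (by decide +kernel)
theorem zR313 : Cov (ix [0, 1, 2, 3, 4, 5, 6, 7, 8, 9, 10, 11, 12, 13, 16, 17]) ⟨508, 3, 512⟩ ⟨1, 3, 256⟩ ⟨95, 1, 192⟩ :=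
  Cov.leafU ⟨.mk 95 5 5 1, .mk 80 12 5 49, .mk 80 14 5 48, .mk 71 12 5 52, .mk 95 6 5 1, .mk 96 6 5 1, 661, 15, 10, 15⟩ (by decide +kernel)
theorem zR315 : Cov (ix [0, 1, 2, 3, 4, 5, 6, 7, 8, 9, 13, 16, 17]) ⟨2044, 3, 2048⟩ ⟨0, 1, 256⟩ ⟨380, 3, 768⟩ :=
  Cov.leafU ⟨.mk 96 5 5 1, .mk 68 14 5 60, .mk 80 16 5 48, .mk 75 13 5 50, .mk 96 6 5 1, .mk 96 6 5 1, 740, 15, 10, 15⟩ (by decide +kernel)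
theorem zR316 : Cov (ix [10, 11, 12]) ⟨1022, 1, 1024⟩ ⟨0, 1, 256⟩ ⟨380, 3, 768⟩ :=
  Cov.leafU ⟨.mk 96 5 5 1, .mk 72 14 5 56, .mk 96 16 5 32, .mk 77 13 5 48, .mk 96 6 5 1, .mk 96 6 5 1, 712, 15, 10, 15⟩ (by decide +kernel)
theorem zR317 : Cov (ix [10, 11, 12]) ⟨2046, 1, 2048⟩ ⟨0, 1, 256⟩ ⟨380, 3, 768⟩ :=
  Cov.leafU ⟨.mk 96 5 5 1, .mk 120 15 5 104, .mk 96 17 5 32, .mk 71 13 5 46, .mk 96 6 5 1, .mk 96 6 5 1, 733, 15, 10, 15⟩ (by decide +kernel)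
theorem zR320 : Cov (ix [0, 1, 2, 3, 4, 5, 6, 7, 8, 9, 10, 11, 12, 13, 16, 17]) ⟨8188, 3, 8192⟩ ⟨0, 1, 1024⟩ ⟨380, 3, 768⟩ :=
  Cov.leafU ⟨.mk 96 5 5 1, .mk 68 16 5 60, .mk 80 18 5 48, .mk 118 14 5 74, .mk 96 6 5 1, .mk 96 6 5 1, 809, 15, 10, 15⟩ (by decide +kernel)
theorem zR321 : Cov (ix [16]) ⟨8191, 1, 8192⟩ ⟨0, 1, 1024⟩ ⟨380, 3, 768⟩ :=
  Cov.leafU ⟨.mk 96 5 5 1, .bot 104 16, .bot 128 20, .mk 114 14 5 72, .mk 96 6 5 1, .mk 96 6 5 1, 732, 15, 10, 15⟩ (by decide +kernel)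
theorem zR322 : Cov (ix [0, 1, 17]) ⟨8191, 1, 8192⟩ ⟨0, 1, 4096⟩ ⟨380, 3, 768⟩ :=
  Cov.leafU ⟨.mk 96 5 5 1, .bot 128 18, .bot 128 20, .mk 109 14 5 67, .mk 96 6 5 1, .mk 96 6 5 1, 766, 15, 10, 15⟩ (by decide +kernel)
theorem zR323 : Cov (ix [2, 3, 4, 5, 6, 7, 8, 9, 10, 11, 12, 13]) ⟨32764, 3, 32768⟩ ⟨0, 1, 4096⟩ ⟨380, 3, 768⟩ :=
  Cov.leafU ⟨.mk 96 5 5 1, .mk 68 18 5 60, .mk 80 20 5 48, .mk 110 14 5 67, .mk 96 6 5 1, .mk 96 6 5 1, 877, 15, 10, 15⟩ (by decide +kernel)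
theorem zR324 : Cov (ix [2, 3]) ⟨32767, 1, 32768⟩ ⟨0, 1, 4096⟩ ⟨380, 3, 768⟩ :=
  Cov.leafU ⟨.mk 96 5 5 1, .bot 104 18, .bot 128 22, .mk 109 14 5 67, .mk 96 6 5 1, .mk 96 6 5 1, 795, 15, 10, 15⟩ (by decide +kernel)
theorem zR325 : Cov (ix [4, 5]) ⟨32767, 1, 32768⟩ ⟨0, 1, 16384⟩ ⟨380, 3, 768⟩ :=
  Cov.leafU ⟨.mk 96 5 5 1, .bot 128 20, .bot 128 22, .mk 107 14 5 65, .mk 96 6 5 1, .mk 96 6 5 1, 815, 15, 10, 15⟩ (by decide +kernel)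
theorem zR326 : Cov (ix [6]) ⟨32767, 1, 32768⟩ ⟨0, 1, 65536⟩ ⟨380, 3, 768⟩ :=
  Cov.leafU ⟨.mk 96 5 5 1, .bot 112 21, .bot 128 22, .mk 107 14 5 65, .mk 96 6 5 1, .mk 96 6 5 1, 835, 15, 10, 15⟩ (by decide +kernel)
theorem zR327 : Cov (ix [7, 8, 9, 10, 11, 12, 13]) ⟨131068, 3, 131072⟩ ⟨0, 1, 65536⟩ ⟨380, 3, 768⟩ :=
  Cov.leafU ⟨.mk 96 5 5 1, .mk 64 21 5 48, .mk 80 22 5 48, .mk 107 14 5 65, .mk 96 6 5 1, .mk 96 6 5 1, 971, 15, 10, 15⟩ (by decide +kernel)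
theorem zR328 : Cov (ix [7]) ⟨131071, 1, 131072⟩ ⟨0, 1, 65536⟩ ⟨380, 3, 768⟩ :=
  Cov.leafU ⟨.mk 96 5 5 1, .bot 128 22, .bot 128 24, .mk 107 14 5 65, .mk 96 6 5 1, .mk 96 6 5 1, 865, 15, 10, 15⟩ (by decide +kernel)
theorem zR329 : Cov (ix [8, 9, 10, 11, 12, 13]) ⟨524284, 3, 524288⟩ ⟨0, 1, 65536⟩ ⟨380, 3, 768⟩ :=
  Cov.leafU ⟨.mk 96 5 5 1, .mk 68 22 5 60, .mk 80 24 5 48, .mk 107 14 5 65, .mk 96 6 5 1, .mk 96 6 5 1, 1015, 15, 10, 15⟩ (by decide +kernel)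
theorem zR330 : Cov (ix [8, 13]) ⟨524287, 1, 524288⟩ ⟨0, 1, 65536⟩ ⟨380, 3, 768⟩ :=
  Cov.leafU ⟨.mk 96 5 5 1, .bot 104 22, .bot 128 26, .mk 107 14 5 65, .mk 96 6 5 1, .mk 96 6 5 1, 895, 15, 10, 15⟩ (by decide +kernel)
theorem zR331 : Cov (ix [9, 10, 11]) ⟨524287, 1, 524288⟩ ⟨0, 1, 262144⟩ ⟨190, 1, 384⟩ :=
  Cov.leafU ⟨.mk 96 5 5 1, .bot 128 24, .bot 128 26, .mk 128 14 5 43, .mk 96 6 5 1, .mk 96 6 5 1, 886, 15, 10, 15⟩ (by decide +kernel)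
theorem zR332 : Cov (ix [12]) ⟨2097148, 3, 2097152⟩ ⟨0, 1, 262144⟩ ⟨190, 1, 384⟩ :=
  Cov.leafU ⟨.mk 96 5 5 1, .mk 68 24 5 60, .mk 80 26 5 48, .mk 128 14 5 43, .mk 96 6 5 1, .mk 96 6 5 1, 1057, 15, 10, 15⟩ (by decide +kernel)
theorem zR333 : Cov (ix [12]) ⟨2097151, 1, 2097152⟩ ⟨0, 1, 262144⟩ ⟨190, 1, 384⟩ :=
  Cov.leafU ⟨.mk 96 5 5 1, .bot 104 24, .bot 128 28, .mk 128 14 5 43, .mk 96 6 5 1, .mk 96 6 5 1, 915, 15, 10, 15⟩ (by decide +kernel)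

end Crest.Agent.R163.Bx
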