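import Crest.Agent.R163.BzV

set_option autoImplicit false
set_option Elab.async false

namespace Crest.Agent.R163.Bx

theorem zR336 : Cov (ix [9]) ⟨524287, 1, 524288⟩ ⟨0, 1, 262144⟩ ⟨382, 1, 768⟩ :=
  Cov.leafU ⟨.mk 96 5 5 1, .bot 128 24, .bot 128 26, .mk 128 15 5 43, .mk 96 6 5 1, .mk 96 6 5 1, 906, 15, 10, 15⟩ (by decide +kernel)
theorem zR337 : Cov (ix [10, 11, 12]) ⟨2097148, 3, 2097152⟩ ⟨0, 1, 262144⟩ ⟨382, 1, 768⟩ :=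
  Cov.leafU ⟨.mk 96 5 5 1, .mk 68 24 5 60, .mk 80 26 5 48, .mk 128 15 5 43, .mk 96 6 5 1, .mk 96 6 5 1, 1072, 15, 10, 15⟩ (by decide +kernel)
theorem zR338 : Cov (ix [10]) ⟨2097151, 1, 2097152⟩ ⟨0, 1, 262144⟩ ⟨382, 1, 768⟩ :=
  Cov.leafU ⟨.mk 96 5 5 1, .bot 104 24, .bot 128 28, .mk 128 15 5 43, .mk 96 6 5 1, .mk 96 6 5 1, 936, 15, 10, 15⟩ (by decide +kernel)
theorem zR339 : Cov (ix [11, 12]) ⟨2097151, 1, 2097152⟩ ⟨0, 1, 1048576⟩ ⟨382, 1, 768⟩ :=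
  Cov.leafU ⟨.mk 96 5 5 1, .bot 128 26, .bot 128 28, .mk 128 15 5 43, .mk 96 6 5 1, .mk 96 6 5 1, 955, 15, 10, 15⟩ (by decide +kernel)
theorem zR340 : Cov (ix [11, 12]) ⟨2097151, 1, 2097152⟩ ⟨1, 3, 1048576⟩ ⟨382, 1, 768⟩ :=
  Cov.leafU ⟨.mk 96 5 5 1, .mk 64 24 5 40, .bot 128 28, .mk 128 15 5 43, .mk 96 6 5 1, .mk 96 6 5 1, 995, 15, 10, 15⟩ (by decide +kernel)
theorem zR346 : Cov (ix [9, 10, 11, 12]) ⟨524287, 1, 524288⟩ ⟨1, 3, 262144⟩ ⟨380, 3, 768⟩ :=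
  Cov.leafU ⟨.mk 96 5 5 1, .mk 64 22 5 40, .bot 128 26, .mk 107 14 5 65, .mk 96 6 5 1, .mk 96 6 5 1, 937, 15, 10, 15⟩ (by decide +kernel)
theorem zR353 : Cov (ix [6, 7, 8, 13]) ⟨32767, 1, 32768⟩ ⟨1, 3, 65536⟩ ⟨380, 3, 768⟩ :=
  Cov.leafU ⟨.mk 96 5 5 1, .mk 76 20 5 52, .bot 128 22, .mk 107 14 5 65, .mk 96 6 5 1, .mk 96 6 5 1, 859, 15, 10, 15⟩ (by decide +kernel)
theorem zR354 : Cov (ix [9, 10, 11, 12]) ⟨131068, 3, 131072⟩ ⟨1, 3, 65536⟩ ⟨380, 3, 768⟩ :=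
  Cov.leafU ⟨.mk 96 5 5 1, .mk 80 20 5 49, .mk 80 22 5 48, .mk 107 14 5 65, .mk 96 6 5 1, .mk 96 6 5 1, 953, 15, 10, 15⟩ (by decide +kernel)
theorem zR355 : Cov (ix [9]) ⟨131071, 1, 131072⟩ ⟨1, 3, 65536⟩ ⟨380, 3, 768⟩ :=
  Cov.leafU ⟨.mk 96 5 5 1, .mk 64 20 5 40, .bot 128 24, .mk 107 14 5 65, .mk 96 6 5 1, .mk 96 6 5 1, 878, 15, 10, 15⟩ (by decide +kernel)
theorem zR356 : Cov (ix [10, 11, 12]) ⟨524284, 3, 524288⟩ ⟨1, 3, 65536⟩ ⟨380, 3, 768⟩ :=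
  Cov.leafU ⟨.mk 96 5 5 1, .mk 65 20 5 40, .mk 80 24 5 48, .mk 107 14 5 65, .mk 96 6 5 1, .mk 96 6 5 1, 993, 15, 10, 15⟩ (by decide +kernel)
theorem zR357 : Cov (ix [10, 11, 12]) ⟨524287, 1, 524288⟩ ⟨1, 3, 65536⟩ ⟨380, 3, 768⟩ :=
  Cov.leafU ⟨.mk 96 5 5 1, .mk 122 21 5 74, .bot 128 26, .mk 107 14 5 65, .mk 96 6 5 1, .mk 96 6 5 1, 908, 15, 10, 15⟩ (by decide +kernel)
theorem zR364 : Cov (ix [4, 5, 6, 7, 8, 13]) ⟨32767, 1, 32768⟩ ⟨1, 3, 16384⟩ ⟨380, 3, 768⟩ :=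
  Cov.leafU ⟨.mk 96 5 5 1, .mk 64 18 5 40, .bot 128 22, .mk 109 14 5 66, .mk 96 6 5 1, .mk 96 6 5 1, 831, 15, 10, 15⟩ (by decide +kernel)
theorem zR365 : Cov (ix [9, 10, 11, 12]) ⟨131068, 3, 131072⟩ ⟨1, 3, 16384⟩ ⟨380, 3, 768⟩ :=
  Cov.leafU ⟨.mk 96 5 5 1, .mk 65 18 5 40, .mk 80 22 5 48, .mk 109 14 5 66, .mk 96 6 5 1, .mk 96 6 5 1, 925, 15, 10, 15⟩ (by decide +kernel)
theorem zR366 : Cov (ix [9, 10, 12]) ⟨131071, 1, 131072⟩ ⟨1, 3, 16384⟩ ⟨380, 3, 768⟩ :=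
  Cov.leafU ⟨.mk 96 5 5 1, .mk 122 19 5 74, .bot 128 24, .mk 109 14 5 66, .mk 96 6 5 1, .mk 96 6 5 1, 849, 15, 10, 15⟩ (by decide +kernel)
theorem zR367 : Cov (ix [11]) ⟨524284, 3, 524288⟩ ⟨1, 3, 16384⟩ ⟨380, 3, 768⟩ :=
  Cov.leafU ⟨.mk 96 5 5 1, .mk 122 19 5 74, .mk 80 24 5 48, .mk 109 14 5 66, .mk 96 6 5 1, .mk 96 6 5 1, 965, 15, 10, 15⟩ (by decide +kernel)
theorem zR368 : Cov (ix [11]) ⟨524287, 1, 524288⟩ ⟨1, 3, 16384⟩ ⟨380, 3, 768⟩ :=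
  Cov.leafU ⟨.mk 96 5 5 1, .mk 121 19 5 73, .bot 128 26, .mk 109 14 5 66, .mk 96 6 5 1, .mk 96 6 5 1, 879, 15, 10, 15⟩ (by decide +kernel)
theorem zR377 : Cov (ix [0, 1, 2, 3, 4, 5, 6, 17]) ⟨8191, 1, 8192⟩ ⟨1, 3, 4096⟩ ⟨380, 3, 768⟩ :=
  Cov.leafU ⟨.mk 96 5 5 1, .mk 64 16 5 40, .bot 128 20, .mk 115 14 5 70, .mk 96 6 5 1, .mk 96 6 5 1, 772, 15, 10, 15⟩ (by decide +kernel)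
theorem zR378 : Cov (ix [7, 8, 9, 10, 11, 12, 13]) ⟨32764, 3, 32768⟩ ⟨1, 3, 4096⟩ ⟨380, 3, 768⟩ :=
  Cov.leafU ⟨.mk 96 5 5 1, .mk 65 16 5 40, .mk 80 20 5 48, .mk 116 14 5 70, .mk 96 6 5 1, .mk 96 6 5 1, 868, 15, 10, 15⟩ (by decide +kernel)
theorem zR379 : Cov (ix [7, 8, 9, 10, 13]) ⟨32767, 1, 32768⟩ ⟨1, 3, 4096⟩ ⟨380, 3, 768⟩ :=
  Cov.leafU ⟨.mk 96 5 5 1, .mk 122 17 5 74, .bot 128 22, .mk 115 14 5 70, .mk 96 6 5 1, .mk 96 6 5 1, 802, 15, 10, 15⟩ (by decide +kernel)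
theorem zR380 : Cov (ix [11, 12]) ⟨131068, 3, 131072⟩ ⟨1, 3, 4096⟩ ⟨380, 3, 768⟩ :=
  Cov.leafU ⟨.mk 96 5 5 1, .mk 122 17 5 74, .mk 80 22 5 48, .mk 115 14 5 70, .mk 96 6 5 1, .mk 96 6 5 1, 896, 15, 10, 15⟩ (by decide +kernel)
theorem zR381 : Cov (ix [11, 12]) ⟨131071, 1, 131072⟩ ⟨1, 3, 4096⟩ ⟨380, 3, 768⟩ :=
  Cov.leafU ⟨.mk 96 5 5 1, .mk 121 17 5 73, .bot 128 24, .mk 114 14 5 69, .mk 96 6 5 1, .mk 96 6 5 1, 820, 15, 10, 15⟩ (by decide +kernel)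
theorem zR389 : Cov (ix [0, 1, 2, 3, 16, 17]) ⟨2047, 1, 2048⟩ ⟨1, 3, 1024⟩ ⟨380, 3, 768⟩ :=
  Cov.leafU ⟨.mk 96 5 5 1, .mk 64 14 5 40, .bot 128 18, .mk 71 13 5 44, .mk 96 6 5 1, .mk 96 6 5 1, 714, 15, 10, 15⟩ (by decide +kernel)
theorem zR390 : Cov (ix [4, 5, 6, 7, 8, 9, 10, 11, 12, 13]) ⟨8188, 3, 8192⟩ ⟨1, 3, 1024⟩ ⟨380, 3, 768⟩ :=
  Cov.leafU ⟨.mk 96 5 5 1, .mk 65 14 5 40, .mk 80 18 5 48, .mk 71 13 5 43, .mk 96 6 5 1, .mk 96 6 5 1, 800, 15, 10, 15⟩ (by decide +kernel)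
theorem zR391 : Cov (ix [4, 5, 6]) ⟨8191, 1, 8192⟩ ⟨1, 3, 1024⟩ ⟨380, 3, 768⟩ :=
  Cov.leafU ⟨.mk 96 5 5 1, .mk 122 15 5 74, .bot 128 20, .mk 69 13 5 42, .mk 96 6 5 1, .mk 96 6 5 1, 744, 15, 10, 15⟩ (by decide +kernel)
theorem zR392 : Cov (ix [7, 8, 9, 10, 11, 12, 13]) ⟨32764, 3, 32768⟩ ⟨1, 3, 1024⟩ ⟨380, 3, 768⟩ :=
  Cov.leafU ⟨.mk 96 5 5 1, .mk 122 15 5 74, .mk 80 20 5 48, .mk 69 13 5 42, .mk 96 6 5 1, .mk 96 6 5 1, 839, 15, 10, 15⟩ (by decide +kernel)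
theorem zR393 : Cov (ix [7, 8, 9, 10, 11, 12, 13]) ⟨32767, 1, 32768⟩ ⟨1, 3, 1024⟩ ⟨380, 3, 768⟩ :=
  Cov.leafU ⟨.mk 96 5 5 1, .mk 121 15 5 73, .bot 128 22, .mk 69 13 5 42, .mk 96 6 5 1, .mk 96 6 5 1, 774, 15, 10, 15⟩ (by decide +kernel)
theorem zR400 : Cov (ix [0, 1, 12, 13, 16, 17]) ⟨2044, 3, 2048⟩ ⟨0, 1, 1024⟩ ⟨383, 1, 768⟩ :=
  Cov.leafU ⟨.mk 96 5 5 1, .mk 64 15 5 48, .mk 80 16 5 48, .mk 95 15 5 79, .mk 96 6 5 1, .mk 96 6 5 1, 765, 15, 10, 15⟩ (by decide +kernel)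
theorem zR401 : Cov (ix [2, 3, 4, 5, 6, 7, 8, 9, 10, 11]) ⟨2044, 3, 2048⟩ ⟨0, 1, 1024⟩ ⟨1532, 3, 3072⟩ :=
  Cov.leafU ⟨.mk 96 5 5 1, .mk 64 15 5 48, .mk 80 16 5 48, .mk 106 15 5 69, .mk 96 6 5 1, .mk 96 6 5 1, 795, 15, 10, 15⟩ (by decide +kernel)
theorem zR402 : Cov (ix [2, 3, 4, 5, 6, 7, 8, 9, 10, 11]) ⟨2044, 3, 2048⟩ ⟨0, 1, 1024⟩ ⟨1535, 1, 3072⟩ :=
  Cov.leafU ⟨.mk 96 5 5 1, .mk 64 15 5 48, .mk 80 16 5 48, .mk 126 16 5 94, .mk 96 6 5 1, .mk 96 6 5 1, 795, 15, 10, 15⟩ (by decide +kernel)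
theorem zR405 : Cov (ix [0, 1, 2, 3, 4, 5, 6, 7, 8, 9, 10, 11, 12, 13, 16, 17]) ⟨2044, 3, 2048⟩ ⟨1, 3, 1024⟩ ⟨383, 1, 768⟩ :=
  Cov.leafU ⟨.mk 96 5 5 1, .mk 80 14 5 49, .mk 80 16 5 48, .mk 71 14 5 52, .mk 96 6 5 1, .mk 96 6 5 1, 759, 15, 10, 15⟩ (by decide +kernel)
theorem zR407 : Cov (ix [0, 1, 2, 3, 4, 5, 6, 7, 8, 12, 13, 16, 17]) ⟨8188, 3, 8192⟩ ⟨0, 1, 1024⟩ ⟨1532, 3, 3072⟩ :=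
  Cov.leafU ⟨.mk 96 5 5 1, .mk 68 16 5 60, .mk 80 18 5 48, .mk 76 15 5 51, .mk 96 6 5 1, .mk 96 6 5 1, 839, 15, 10, 15⟩ (by decide +kernel)

end Crest.Agent.R163.Bx
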