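import Crest.Agent.R163.BzV

set_option autoImplicit false
set_option Elab.async false

namespace Crest.Agent.R163.Bx

theorem zR408 : Cov (ix [9, 10, 11]) ⟨4094, 1, 4096⟩ ⟨0, 1, 1024⟩ ⟨1532, 3, 3072⟩ :=
  Cov.leafU ⟨.mk 96 5 5 1, .mk 72 16 5 56, .mk 96 18 5 32, .mk 78 15 5 49, .mk 96 6 5 1, .mk 96 6 5 1, 810, 15, 10, 15⟩ (by decide +kernel)
theorem zR409 : Cov (ix [9, 10, 11]) ⟨8190, 1, 8192⟩ ⟨0, 1, 1024⟩ ⟨1532, 3, 3072⟩ :=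
  Cov.leafU ⟨.mk 96 5 5 1, .mk 120 17 5 104, .mk 96 19 5 32, .mk 72 15 5 47, .mk 96 6 5 1, .mk 96 6 5 1, 831, 15, 10, 15⟩ (by decide +kernel)
theorem zR412 : Cov (ix [16]) ⟨8191, 1, 8192⟩ ⟨0, 1, 1024⟩ ⟨1532, 3, 3072⟩ :=
  Cov.leafU ⟨.mk 96 5 5 1, .bot 104 16, .bot 128 20, .mk 68 15 5 47, .mk 96 6 5 1, .mk 96 6 5 1, 770, 15, 10, 15⟩ (by decide +kernel)
theorem zR413 : Cov (ix [17]) ⟨8191, 1, 8192⟩ ⟨0, 1, 4096⟩ ⟨1532, 3, 3072⟩ :=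
  Cov.leafU ⟨.mk 96 5 5 1, .bot 128 18, .bot 128 20, .mk 117 16 5 75, .mk 96 6 5 1, .mk 96 6 5 1, 798, 15, 10, 15⟩ (by decide +kernel)
theorem zR414 : Cov (ix [0, 1, 2, 3, 4, 5, 6, 7, 8, 11, 12, 13]) ⟨32764, 3, 32768⟩ ⟨0, 1, 4096⟩ ⟨1532, 3, 3072⟩ :=
  Cov.leafU ⟨.mk 96 5 5 1, .mk 68 18 5 60, .mk 80 20 5 48, .mk 118 16 5 74, .mk 96 6 5 1, .mk 96 6 5 1, 907, 15, 10, 15⟩ (by decide +kernel)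
theorem zR415 : Cov (ix [9, 10]) ⟨16382, 1, 16384⟩ ⟨0, 1, 4096⟩ ⟨1532, 3, 3072⟩ :=
  Cov.leafU ⟨.mk 96 5 5 1, .mk 72 18 5 56, .mk 96 20 5 32, .mk 119 16 5 73, .mk 96 6 5 1, .mk 96 6 5 1, 879, 15, 10, 15⟩ (by decide +kernel)
theorem zR416 : Cov (ix [9, 10]) ⟨32766, 1, 32768⟩ ⟨0, 1, 4096⟩ ⟨1532, 3, 3072⟩ :=
  Cov.leafU ⟨.mk 96 5 5 1, .mk 120 19 5 104, .mk 96 21 5 32, .mk 116 16 5 72, .mk 96 6 5 1, .mk 96 6 5 1, 900, 15, 10, 15⟩ (by decide +kernel)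
theorem zR419 : Cov (ix [0, 1]) ⟨32767, 1, 32768⟩ ⟨0, 1, 4096⟩ ⟨1532, 3, 3072⟩ :=
  Cov.leafU ⟨.mk 96 5 5 1, .bot 104 18, .bot 128 22, .mk 114 16 5 72, .mk 96 6 5 1, .mk 96 6 5 1, 835, 15, 10, 15⟩ (by decide +kernel)
theorem zR420 : Cov (ix [2, 3]) ⟨32767, 1, 32768⟩ ⟨0, 1, 16384⟩ ⟨1532, 3, 3072⟩ :=
  Cov.leafU ⟨.mk 96 5 5 1, .bot 128 20, .bot 128 22, .mk 109 16 5 67, .mk 96 6 5 1, .mk 96 6 5 1, 855, 15, 10, 15⟩ (by decide +kernel)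
theorem zR421 : Cov (ix [4, 5, 6, 7, 8, 9, 10, 11, 12, 13]) ⟨131068, 3, 131072⟩ ⟨0, 1, 16384⟩ ⟨1532, 3, 3072⟩ :=
  Cov.leafU ⟨.mk 96 5 5 1, .mk 68 20 5 60, .mk 80 22 5 48, .mk 110 16 5 67, .mk 96 6 5 1, .mk 96 6 5 1, 976, 15, 10, 15⟩ (by decide +kernel)
theorem zR422 : Cov (ix [4]) ⟨131071, 1, 131072⟩ ⟨0, 1, 16384⟩ ⟨1532, 3, 3072⟩ :=
  Cov.leafU ⟨.mk 96 5 5 1, .bot 104 20, .bot 128 24, .mk 109 16 5 67, .mk 96 6 5 1, .mk 96 6 5 1, 885, 15, 10, 15⟩ (by decide +kernel)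
theorem zR423 : Cov (ix [5, 6]) ⟨131071, 1, 131072⟩ ⟨0, 1, 65536⟩ ⟨1532, 3, 3072⟩ :=
  Cov.leafU ⟨.mk 96 5 5 1, .bot 128 22, .bot 128 24, .mk 107 16 5 65, .mk 96 6 5 1, .mk 96 6 5 1, 905, 15, 10, 15⟩ (by decide +kernel)
theorem zR424 : Cov (ix [7, 8, 11, 12, 13]) ⟨524284, 3, 524288⟩ ⟨0, 1, 65536⟩ ⟨1532, 3, 3072⟩ :=
  Cov.leafU ⟨.mk 96 5 5 1, .mk 68 22 5 60, .mk 80 24 5 48, .mk 107 16 5 65, .mk 96 6 5 1, .mk 96 6 5 1, 1045, 15, 10, 15⟩ (by decide +kernel)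
theorem zR425 : Cov (ix [9, 10]) ⟨262142, 1, 262144⟩ ⟨0, 1, 65536⟩ ⟨1532, 3, 3072⟩ :=
  Cov.leafU ⟨.mk 96 5 5 1, .mk 72 22 5 56, .mk 96 24 5 32, .mk 107 16 5 65, .mk 96 6 5 1, .mk 96 6 5 1, 1016, 15, 10, 15⟩ (by decide +kernel)
theorem zR426 : Cov (ix [9, 10]) ⟨524286, 1, 524288⟩ ⟨0, 1, 65536⟩ ⟨1532, 3, 3072⟩ :=
  Cov.leafU ⟨.mk 96 5 5 1, .mk 120 23 5 104, .mk 96 25 5 32, .mk 107 16 5 65, .mk 96 6 5 1, .mk 96 6 5 1, 1037, 15, 10, 15⟩ (by decide +kernel)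
theorem zR429 : Cov (ix [13]) ⟨524287, 1, 524288⟩ ⟨0, 1, 65536⟩ ⟨1532, 3, 3072⟩ :=
  Cov.leafU ⟨.mk 96 5 5 1, .bot 104 22, .bot 128 26, .mk 107 16 5 65, .mk 96 6 5 1, .mk 96 6 5 1, 919, 15, 10, 15⟩ (by decide +kernel)
theorem zR430 : Cov (ix [7]) ⟨524287, 1, 524288⟩ ⟨0, 1, 262144⟩ ⟨1532, 3, 3072⟩ :=
  Cov.leafU ⟨.mk 96 5 5 1, .bot 128 24, .bot 128 26, .mk 107 16 5 65, .mk 96 6 5 1, .mk 96 6 5 1, 954, 15, 10, 15⟩ (by decide +kernel)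
theorem zR431 : Cov (ix [8, 11, 12]) ⟨2097148, 3, 2097152⟩ ⟨0, 1, 262144⟩ ⟨1532, 3, 3072⟩ :=
  Cov.leafU ⟨.mk 96 5 5 1, .mk 68 24 5 60, .mk 80 26 5 48, .mk 107 16 5 65, .mk 96 6 5 1, .mk 96 6 5 1, 1114, 15, 10, 15⟩ (by decide +kernel)
theorem zR432 : Cov (ix [9, 10]) ⟨2097148, 3, 2097152⟩ ⟨0, 1, 1048576⟩ ⟨1532, 3, 3072⟩ :=
  Cov.leafU ⟨.mk 96 5 5 1, .mk 64 25 5 48, .mk 80 26 5 48, .mk 107 16 5 65, .mk 96 6 5 1, .mk 96 6 5 1, 1127, 15, 10, 15⟩ (by decide +kernel)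
theorem zR433 : Cov (ix [9, 10]) ⟨2097148, 3, 2097152⟩ ⟨1, 3, 1048576⟩ ⟨1532, 3, 3072⟩ :=
  Cov.leafU ⟨.mk 96 5 5 1, .mk 80 24 5 49, .mk 80 26 5 48, .mk 107 16 5 65, .mk 96 6 5 1, .mk 96 6 5 1, 1121, 15, 10, 15⟩ (by decide +kernel)
theorem zR436 : Cov (ix [8]) ⟨2097151, 1, 2097152⟩ ⟨0, 1, 1048576⟩ ⟨1532, 3, 3072⟩ :=
  Cov.leafU ⟨.mk 96 5 5 1, .bot 128 26, .bot 128 28, .mk 107 16 5 65, .mk 96 6 5 1, .mk 96 6 5 1, 1004, 15, 10, 15⟩ (by decide +kernel)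
theorem zR437 : Cov (ix [9, 12]) ⟨2097151, 1, 2097152⟩ ⟨0, 1, 1048576⟩ ⟨766, 1, 1536⟩ :=
  Cov.leafU ⟨.mk 96 5 5 1, .bot 128 26, .bot 128 28, .mk 128 16 5 43, .mk 96 6 5 1, .mk 96 6 5 1, 976, 15, 10, 15⟩ (by decide +kernel)
theorem zR438 : Cov (ix [10, 11]) ⟨2097151, 1, 2097152⟩ ⟨0, 1, 4194304⟩ ⟨766, 1, 1536⟩ :=
  Cov.leafU ⟨.mk 96 5 5 1, .bot 112 27, .bot 128 28, .mk 128 16 5 43, .mk 96 6 5 1, .mk 96 6 5 1, 995, 15, 10, 15⟩ (by decide +kernel)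
theorem zR439 : Cov (ix [10, 11]) ⟨2097151, 1, 2097152⟩ ⟨1, 3, 4194304⟩ ⟨766, 1, 1536⟩ :=
  Cov.leafU ⟨.mk 96 5 5 1, .mk 76 26 5 52, .bot 128 28, .mk 128 16 5 43, .mk 96 6 5 1, .mk 96 6 5 1, 1037, 15, 10, 15⟩ (by decide +kernel)
theorem zR442 : Cov (ix [12]) ⟨2097151, 1, 2097152⟩ ⟨0, 1, 1048576⟩ ⟨1534, 1, 3072⟩ :=
  Cov.leafU ⟨.mk 96 5 5 1, .bot 128 26, .bot 128 28, .mk 128 17 5 43, .mk 96 6 5 1, .mk 96 6 5 1, 994, 15, 10, 15⟩ (by decide +kernel)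
theorem zR443 : Cov (ix [9, 10, 11]) ⟨8388604, 3, 8388608⟩ ⟨0, 1, 4194304⟩ ⟨1534, 1, 3072⟩ :=
  Cov.leafU ⟨.mk 96 5 5 1, .mk 64 27 5 48, .mk 80 28 5 48, .mk 128 17 5 43, .mk 96 6 5 1, .mk 96 6 5 1, 1195, 15, 10, 15⟩ (by decide +kernel)
theorem zR444 : Cov (ix [9, 10, 11]) ⟨8388607, 1, 8388608⟩ ⟨0, 1, 4194304⟩ ⟨1534, 1, 3072⟩ :=
  Cov.leafU ⟨.mk 96 5 5 1, .bot 128 28, .bot 128 30, .mk 128 17 5 43, .mk 96 6 5 1, .mk 96 6 5 1, 1045, 15, 10, 15⟩ (by decide +kernel)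
theorem zR446 : Cov (ix [9, 10, 11]) ⟨2097151, 1, 2097152⟩ ⟨1, 3, 4194304⟩ ⟨1534, 1, 3072⟩ :=
  Cov.leafU ⟨.mk 96 5 5 1, .mk 76 26 5 52, .bot 128 28, .mk 128 17 5 43, .mk 96 6 5 1, .mk 96 6 5 1, 1052, 15, 10, 15⟩ (by decide +kernel)
theorem zR451 : Cov (ix [8, 12]) ⟨2097151, 1, 2097152⟩ ⟨1, 3, 1048576⟩ ⟨1532, 3, 3072⟩ :=
  Cov.leafU ⟨.mk 96 5 5 1, .mk 64 24 5 40, .bot 128 28, .mk 107 16 5 65, .mk 96 6 5 1, .mk 96 6 5 1, 1038, 15, 10, 15⟩ (by decide +kernel)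
theorem zR452 : Cov (ix [9, 10, 11]) ⟨2097151, 1, 2097152⟩ ⟨1, 3, 1048576⟩ ⟨766, 1, 1536⟩ :=
  Cov.leafU ⟨.mk 96 5 5 1, .mk 64 24 5 40, .bot 128 28, .mk 128 16 5 43, .mk 96 6 5 1, .mk 96 6 5 1, 1010, 15, 10, 15⟩ (by decide +kernel)
theorem zR453 : Cov (ix [9, 10, 11]) ⟨2097151, 1, 2097152⟩ ⟨1, 3, 1048576⟩ ⟨1534, 1, 3072⟩ :=
  Cov.leafU ⟨.mk 96 5 5 1, .mk 64 24 5 40, .bot 128 28, .mk 64 16 5 22, .mk 96 6 5 1, .mk 96 6 5 1, 1025, 15, 10, 15⟩ (by decide +kernel)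
theorem zR459 : Cov (ix [7, 8, 12]) ⟨524287, 1, 524288⟩ ⟨1, 3, 262144⟩ ⟨1532, 3, 3072⟩ :=
  Cov.leafU ⟨.mk 96 5 5 1, .mk 64 22 5 40, .bot 128 26, .mk 107 16 5 65, .mk 96 6 5 1, .mk 96 6 5 1, 979, 15, 10, 15⟩ (by decide +kernel)

end Crest.Agent.R163.Bx
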