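import Crest.Agent.R163.BzV

set_option autoImplicit false
set_option Elab.async false

namespace Crest.Agent.R163.Bx

theorem zR460 : Cov (ix [9, 10, 11]) ⟨524287, 1, 524288⟩ ⟨1, 3, 262144⟩ ⟨766, 1, 1536⟩ :=
  Cov.leafU ⟨.mk 96 5 5 1, .mk 64 22 5 40, .bot 128 26, .mk 64 15 5 22, .mk 96 6 5 1, .mk 96 6 5 1, 952, 15, 10, 15⟩ (by decide +kernel)
theorem zR461 : Cov (ix [9, 11]) ⟨524287, 1, 524288⟩ ⟨1, 3, 262144⟩ ⟨1534, 1, 3072⟩ :=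
  Cov.leafU ⟨.mk 96 5 5 1, .mk 64 22 5 40, .bot 128 26, .mk 128 17 5 45, .mk 96 6 5 1, .mk 96 6 5 1, 967, 15, 10, 15⟩ (by decide +kernel)
theorem zR462 : Cov (ix [10]) ⟨2097148, 3, 2097152⟩ ⟨1, 3, 262144⟩ ⟨1534, 1, 3072⟩ :=
  Cov.leafU ⟨.mk 96 5 5 1, .mk 65 22 5 40, .mk 80 26 5 48, .mk 128 17 5 45, .mk 96 6 5 1, .mk 96 6 5 1, 1093, 15, 10, 15⟩ (by decide +kernel)
theorem zR463 : Cov (ix [10]) ⟨2097151, 1, 2097152⟩ ⟨1, 3, 262144⟩ ⟨1534, 1, 3072⟩ :=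
  Cov.leafU ⟨.mk 96 5 5 1, .mk 122 23 5 74, .bot 128 28, .mk 128 17 5 45, .mk 96 6 5 1, .mk 96 6 5 1, 997, 15, 10, 15⟩ (by decide +kernel)
theorem zR472 : Cov (ix [5, 6, 7, 8, 13]) ⟨131071, 1, 131072⟩ ⟨1, 3, 65536⟩ ⟨1532, 3, 3072⟩ :=
  Cov.leafU ⟨.mk 96 5 5 1, .mk 64 20 5 40, .bot 128 24, .mk 109 16 5 66, .mk 96 6 5 1, .mk 96 6 5 1, 920, 15, 10, 15⟩ (by decide +kernel)
theorem zR473 : Cov (ix [9, 10, 11, 12]) ⟨524284, 3, 524288⟩ ⟨1, 3, 65536⟩ ⟨1532, 3, 3072⟩ :=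
  Cov.leafU ⟨.mk 96 5 5 1, .mk 65 20 5 40, .mk 80 24 5 48, .mk 109 16 5 66, .mk 96 6 5 1, .mk 96 6 5 1, 1023, 15, 10, 15⟩ (by decide +kernel)
theorem zR474 : Cov (ix [12]) ⟨524287, 1, 524288⟩ ⟨1, 3, 65536⟩ ⟨1532, 3, 3072⟩ :=
  Cov.leafU ⟨.mk 96 5 5 1, .mk 122 21 5 74, .bot 128 26, .mk 109 16 5 66, .mk 96 6 5 1, .mk 96 6 5 1, 938, 15, 10, 15⟩ (by decide +kernel)
theorem zR475 : Cov (ix [9, 10, 11]) ⟨2097148, 3, 2097152⟩ ⟨1, 3, 65536⟩ ⟨1532, 3, 3072⟩ :=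
  Cov.leafU ⟨.mk 96 5 5 1, .mk 122 21 5 74, .mk 80 26 5 48, .mk 109 16 5 66, .mk 96 6 5 1, .mk 96 6 5 1, 1063, 15, 10, 15⟩ (by decide +kernel)
theorem zR476 : Cov (ix [9, 10, 11]) ⟨2097151, 1, 2097152⟩ ⟨1, 3, 65536⟩ ⟨1532, 3, 3072⟩ :=
  Cov.leafU ⟨.mk 96 5 5 1, .mk 121 21 5 73, .bot 128 28, .mk 109 16 5 66, .mk 96 6 5 1, .mk 96 6 5 1, 968, 15, 10, 15⟩ (by decide +kernel)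
theorem zR485 : Cov (ix [2, 3, 4, 5, 6, 7, 13]) ⟨32767, 1, 32768⟩ ⟨1, 3, 16384⟩ ⟨1532, 3, 3072⟩ :=
  Cov.leafU ⟨.mk 96 5 5 1, .mk 64 18 5 40, .bot 128 22, .mk 115 16 5 70, .mk 96 6 5 1, .mk 96 6 5 1, 861, 15, 10, 15⟩ (by decide +kernel)
theorem zR486 : Cov (ix [8, 9, 10, 11, 12]) ⟨131068, 3, 131072⟩ ⟨1, 3, 16384⟩ ⟨1532, 3, 3072⟩ :=
  Cov.leafU ⟨.mk 96 5 5 1, .mk 65 18 5 40, .mk 80 22 5 48, .mk 116 16 5 70, .mk 96 6 5 1, .mk 96 6 5 1, 967, 15, 10, 15⟩ (by decide +kernel)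
theorem zR487 : Cov (ix [8, 12]) ⟨131071, 1, 131072⟩ ⟨1, 3, 16384⟩ ⟨1532, 3, 3072⟩ :=
  Cov.leafU ⟨.mk 96 5 5 1, .mk 122 19 5 74, .bot 128 24, .mk 115 16 5 70, .mk 96 6 5 1, .mk 96 6 5 1, 891, 15, 10, 15⟩ (by decide +kernel)
theorem zR488 : Cov (ix [9, 10, 11]) ⟨524284, 3, 524288⟩ ⟨1, 3, 16384⟩ ⟨1532, 3, 3072⟩ :=
  Cov.leafU ⟨.mk 96 5 5 1, .mk 122 19 5 74, .mk 80 24 5 48, .mk 115 16 5 70, .mk 96 6 5 1, .mk 96 6 5 1, 995, 15, 10, 15⟩ (by decide +kernel)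
theorem zR489 : Cov (ix [9, 10, 11]) ⟨524287, 1, 524288⟩ ⟨1, 3, 16384⟩ ⟨1532, 3, 3072⟩ :=
  Cov.leafU ⟨.mk 96 5 5 1, .mk 121 19 5 73, .bot 128 26, .mk 114 16 5 69, .mk 96 6 5 1, .mk 96 6 5 1, 909, 15, 10, 15⟩ (by decide +kernel)
theorem zR498 : Cov (ix [0, 1, 2, 3, 4, 5, 17]) ⟨8191, 1, 8192⟩ ⟨1, 3, 4096⟩ ⟨1532, 3, 3072⟩ :=
  Cov.leafU ⟨.mk 96 5 5 1, .mk 64 16 5 40, .bot 128 20, .mk 71 15 5 44, .mk 96 6 5 1, .mk 96 6 5 1, 804, 15, 10, 15⟩ (by decide +kernel)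
theorem zR499 : Cov (ix [6, 7, 8, 9, 10, 11, 12, 13]) ⟨32764, 3, 32768⟩ ⟨1, 3, 4096⟩ ⟨1532, 3, 3072⟩ :=
  Cov.leafU ⟨.mk 96 5 5 1, .mk 65 16 5 40, .mk 80 20 5 48, .mk 71 15 5 43, .mk 96 6 5 1, .mk 96 6 5 1, 898, 15, 10, 15⟩ (by decide +kernel)
theorem zR500 : Cov (ix [6, 7, 8, 13]) ⟨32767, 1, 32768⟩ ⟨1, 3, 4096⟩ ⟨1532, 3, 3072⟩ :=
  Cov.leafU ⟨.mk 96 5 5 1, .mk 122 17 5 74, .bot 128 22, .mk 69 15 5 42, .mk 96 6 5 1, .mk 96 6 5 1, 834, 15, 10, 15⟩ (by decide +kernel)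
theorem zR501 : Cov (ix [9, 10, 11, 12]) ⟨131068, 3, 131072⟩ ⟨1, 3, 4096⟩ ⟨1532, 3, 3072⟩ :=
  Cov.leafU ⟨.mk 96 5 5 1, .mk 122 17 5 74, .mk 80 22 5 48, .mk 69 15 5 42, .mk 96 6 5 1, .mk 96 6 5 1, 926, 15, 10, 15⟩ (by decide +kernel)
theorem zR502 : Cov (ix [9, 10, 11, 12]) ⟨131071, 1, 131072⟩ ⟨1, 3, 4096⟩ ⟨1532, 3, 3072⟩ :=
  Cov.leafU ⟨.mk 96 5 5 1, .mk 121 17 5 73, .bot 128 24, .mk 69 15 5 42, .mk 96 6 5 1, .mk 96 6 5 1, 851, 15, 10, 15⟩ (by decide +kernel)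
theorem zR510 : Cov (ix [0, 1, 2, 3, 12, 13, 16, 17]) ⟨8188, 3, 8192⟩ ⟨0, 1, 4096⟩ ⟨1535, 1, 3072⟩ :=
  Cov.leafU ⟨.mk 96 5 5 1, .mk 64 17 5 48, .mk 80 18 5 48, .mk 95 17 5 79, .mk 96 6 5 1, .mk 96 6 5 1, 864, 15, 10, 15⟩ (by decide +kernel)
theorem zR511 : Cov (ix [4, 5, 6, 7, 8, 9, 10, 11]) ⟨8188, 3, 8192⟩ ⟨0, 1, 4096⟩ ⟨6140, 3, 12288⟩ :=
  Cov.leafU ⟨.mk 96 5 5 1, .mk 64 17 5 48, .mk 80 18 5 48, .mk 106 17 5 69, .mk 96 6 5 1, .mk 96 6 5 1, 894, 15, 10, 15⟩ (by decide +kernel)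
theorem zR512 : Cov (ix [4, 5, 6, 7, 8, 9, 10, 11]) ⟨8188, 3, 8192⟩ ⟨0, 1, 4096⟩ ⟨6143, 1, 12288⟩ :=
  Cov.leafU ⟨.mk 96 5 5 1, .mk 64 17 5 48, .mk 80 18 5 48, .mk 126 18 5 94, .mk 96 6 5 1, .mk 96 6 5 1, 894, 15, 10, 15⟩ (by decide +kernel)
theorem zR515 : Cov (ix [16]) ⟨8191, 1, 8192⟩ ⟨0, 1, 4096⟩ ⟨6140, 3, 12288⟩ :=
  Cov.leafU ⟨.mk 96 5 5 1, .bot 128 18, .bot 128 20, .mk 74 17 5 53, .mk 96 6 5 1, .mk 96 6 5 1, 829, 15, 10, 15⟩ (by decide +kernel)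
theorem zR516 : Cov (ix [0, 1, 2, 3, 4, 5, 6, 7, 8, 11, 12, 13, 17]) ⟨32764, 3, 32768⟩ ⟨0, 1, 4096⟩ ⟨6140, 3, 12288⟩ :=
  Cov.leafU ⟨.mk 96 5 5 1, .mk 68 18 5 60, .mk 80 20 5 48, .mk 76 17 5 51, .mk 96 6 5 1, .mk 96 6 5 1, 937, 15, 10, 15⟩ (by decide +kernel)
theorem zR517 : Cov (ix [9, 10]) ⟨16382, 1, 16384⟩ ⟨0, 1, 4096⟩ ⟨6140, 3, 12288⟩ :=
  Cov.leafU ⟨.mk 96 5 5 1, .mk 72 18 5 56, .mk 96 20 5 32, .mk 78 17 5 49, .mk 96 6 5 1, .mk 96 6 5 1, 909, 15, 10, 15⟩ (by decide +kernel)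
theorem zR518 : Cov (ix [9, 10]) ⟨32766, 1, 32768⟩ ⟨0, 1, 4096⟩ ⟨6140, 3, 12288⟩ :=
  Cov.leafU ⟨.mk 96 5 5 1, .mk 120 19 5 104, .mk 96 21 5 32, .mk 72 17 5 47, .mk 96 6 5 1, .mk 96 6 5 1, 930, 15, 10, 15⟩ (by decide +kernel)
theorem zR521 : Cov (ix [0, 17]) ⟨32767, 1, 32768⟩ ⟨0, 1, 4096⟩ ⟨6140, 3, 12288⟩ :=
  Cov.leafU ⟨.mk 96 5 5 1, .bot 104 18, .bot 128 22, .mk 68 17 5 47, .mk 96 6 5 1, .mk 96 6 5 1, 873, 15, 10, 15⟩ (by decide +kernel)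
theorem zR522 : Cov (ix [1, 2, 3]) ⟨32767, 1, 32768⟩ ⟨0, 1, 16384⟩ ⟨6140, 3, 12288⟩ :=
  Cov.leafU ⟨.mk 96 5 5 1, .bot 128 20, .bot 128 22, .mk 117 18 5 75, .mk 96 6 5 1, .mk 96 6 5 1, 894, 15, 10, 15⟩ (by decide +kernel)
theorem zR523 : Cov (ix [4, 5, 6, 7, 8, 10, 11, 12, 13]) ⟨131068, 3, 131072⟩ ⟨0, 1, 16384⟩ ⟨6140, 3, 12288⟩ :=
  Cov.leafU ⟨.mk 96 5 5 1, .mk 68 20 5 60, .mk 80 22 5 48, .mk 118 18 5 74, .mk 96 6 5 1, .mk 96 6 5 1, 1006, 15, 10, 15⟩ (by decide +kernel)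
theorem zR524 : Cov (ix [9]) ⟨65534, 1, 65536⟩ ⟨0, 1, 16384⟩ ⟨6140, 3, 12288⟩ :=
  Cov.leafU ⟨.mk 96 5 5 1, .mk 72 20 5 56, .mk 96 22 5 32, .mk 119 18 5 73, .mk 96 6 5 1, .mk 96 6 5 1, 977, 15, 10, 15⟩ (by decide +kernel)
theorem zR525 : Cov (ix [9]) ⟨131070, 1, 131072⟩ ⟨0, 1, 16384⟩ ⟨6140, 3, 12288⟩ :=
  Cov.leafU ⟨.mk 96 5 5 1, .mk 120 21 5 104, .mk 96 23 5 32, .mk 116 18 5 72, .mk 96 6 5 1, .mk 96 6 5 1, 998, 15, 10, 15⟩ (by decide +kernel)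

end Crest.Agent.R163.Bx
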