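import Crest.Agent.R163.BzV

set_option autoImplicit false
set_option Elab.async false

namespace Crest.Agent.R163.Bx

theorem zR528 : Cov (ix [4]) ⟨131071, 1, 131072⟩ ⟨0, 1, 16384⟩ ⟨6140, 3, 12288⟩ :=
  Cov.leafU ⟨.mk 96 5 5 1, .bot 104 20, .bot 128 24, .mk 114 18 5 72, .mk 96 6 5 1, .mk 96 6 5 1, 923, 15, 10, 15⟩ (by decide +kernel)
theorem zR529 : Cov (ix [5, 13]) ⟨131071, 1, 131072⟩ ⟨0, 1, 65536⟩ ⟨6140, 3, 12288⟩ :=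
  Cov.leafU ⟨.mk 96 5 5 1, .bot 128 22, .bot 128 24, .mk 109 18 5 67, .mk 96 6 5 1, .mk 96 6 5 1, 944, 15, 10, 15⟩ (by decide +kernel)
theorem zR530 : Cov (ix [6, 7, 8, 10, 11, 12]) ⟨524284, 3, 524288⟩ ⟨0, 1, 65536⟩ ⟨6140, 3, 12288⟩ :=
  Cov.leafU ⟨.mk 96 5 5 1, .mk 68 22 5 60, .mk 80 24 5 48, .mk 110 18 5 67, .mk 96 6 5 1, .mk 96 6 5 1, 1075, 15, 10, 15⟩ (by decide +kernel)
theorem zR531 : Cov (ix [9]) ⟨524284, 3, 524288⟩ ⟨0, 1, 262144⟩ ⟨6140, 3, 12288⟩ :=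
  Cov.leafU ⟨.mk 96 5 5 1, .mk 64 23 5 48, .mk 80 24 5 48, .mk 109 18 5 66, .mk 96 6 5 1, .mk 96 6 5 1, 1088, 15, 10, 15⟩ (by decide +kernel)
theorem zR532 : Cov (ix [9]) ⟨524284, 3, 524288⟩ ⟨1, 3, 262144⟩ ⟨6140, 3, 12288⟩ :=
  Cov.leafU ⟨.mk 96 5 5 1, .mk 80 22 5 49, .mk 80 24 5 48, .mk 110 18 5 67, .mk 96 6 5 1, .mk 96 6 5 1, 1082, 15, 10, 15⟩ (by decide +kernel)
theorem zR535 : Cov (ix [6]) ⟨524287, 1, 524288⟩ ⟨0, 1, 65536⟩ ⟨6140, 3, 12288⟩ :=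
  Cov.leafU ⟨.mk 96 5 5 1, .bot 104 22, .bot 128 26, .mk 109 18 5 67, .mk 96 6 5 1, .mk 96 6 5 1, 974, 15, 10, 15⟩ (by decide +kernel)
theorem zR536 : Cov (ix [7, 8, 10, 11, 12]) ⟨2097148, 3, 2097152⟩ ⟨0, 1, 262144⟩ ⟨6140, 3, 12288⟩ :=
  Cov.leafU ⟨.mk 96 5 5 1, .mk 68 24 5 60, .mk 80 26 5 48, .mk 107 18 5 65, .mk 96 6 5 1, .mk 96 6 5 1, 1144, 15, 10, 15⟩ (by decide +kernel)
theorem zR537 : Cov (ix [9]) ⟨2097148, 3, 2097152⟩ ⟨0, 1, 262144⟩ ⟨3070, 1, 6144⟩ :=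
  Cov.leafU ⟨.mk 96 5 5 1, .mk 68 24 5 60, .mk 80 26 5 48, .mk 64 17 5 22, .mk 96 6 5 1, .mk 96 6 5 1, 1117, 15, 10, 15⟩ (by decide +kernel)
theorem zR538 : Cov (ix [9]) ⟨2097148, 3, 2097152⟩ ⟨0, 1, 262144⟩ ⟨6142, 1, 12288⟩ :=
  Cov.leafU ⟨.mk 96 5 5 1, .mk 68 24 5 60, .mk 80 26 5 48, .mk 65 18 5 23, .mk 96 6 5 1, .mk 96 6 5 1, 1132, 15, 10, 15⟩ (by decide +kernel)
theorem zR541 : Cov (ix [7, 12]) ⟨2097151, 1, 2097152⟩ ⟨0, 1, 1048576⟩ ⟨6140, 3, 12288⟩ :=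
  Cov.leafU ⟨.mk 96 5 5 1, .bot 128 26, .bot 128 28, .mk 107 18 5 65, .mk 96 6 5 1, .mk 96 6 5 1, 1043, 15, 10, 15⟩ (by decide +kernel)
theorem zR542 : Cov (ix [8, 10, 11]) ⟨8388604, 3, 8388608⟩ ⟨0, 1, 1048576⟩ ⟨6140, 3, 12288⟩ :=
  Cov.leafU ⟨.mk 96 5 5 1, .mk 68 26 5 60, .mk 80 28 5 48, .mk 107 18 5 65, .mk 96 6 5 1, .mk 96 6 5 1, 1212, 15, 10, 15⟩ (by decide +kernel)
theorem zR543 : Cov (ix [9]) ⟨8388604, 3, 8388608⟩ ⟨0, 1, 1048576⟩ ⟨3070, 1, 6144⟩ :=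
  Cov.leafU ⟨.mk 96 5 5 1, .mk 68 26 5 60, .mk 80 28 5 48, .mk 128 18 5 43, .mk 96 6 5 1, .mk 96 6 5 1, 1185, 15, 10, 15⟩ (by decide +kernel)
theorem zR544 : Cov (ix [9]) ⟨8388604, 3, 8388608⟩ ⟨0, 1, 1048576⟩ ⟨6142, 1, 12288⟩ :=
  Cov.leafU ⟨.mk 96 5 5 1, .mk 68 26 5 60, .mk 80 28 5 48, .mk 64 18 5 22, .mk 96 6 5 1, .mk 96 6 5 1, 1200, 15, 10, 15⟩ (by decide +kernel)
theorem zR547 : Cov (ix [8]) ⟨8388607, 1, 8388608⟩ ⟨0, 1, 1048576⟩ ⟨6140, 3, 12288⟩ :=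
  Cov.leafU ⟨.mk 96 5 5 1, .bot 104 26, .bot 128 30, .mk 107 18 5 65, .mk 96 6 5 1, .mk 96 6 5 1, 1073, 15, 10, 15⟩ (by decide +kernel)
theorem zR548 : Cov (ix [10, 11]) ⟨8388607, 1, 8388608⟩ ⟨0, 1, 4194304⟩ ⟨3070, 1, 6144⟩ :=
  Cov.leafU ⟨.mk 96 5 5 1, .bot 128 28, .bot 128 30, .mk 128 18 5 43, .mk 96 6 5 1, .mk 96 6 5 1, 1064, 15, 10, 15⟩ (by decide +kernel)
theorem zR549 : Cov (ix [9]) ⟨33554428, 3, 33554432⟩ ⟨0, 1, 4194304⟩ ⟨3070, 1, 6144⟩ :=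
  Cov.leafU ⟨.mk 96 5 5 1, .mk 68 28 5 60, .mk 80 30 5 48, .mk 128 18 5 43, .mk 96 6 5 1, .mk 96 6 5 1, 1254, 15, 10, 15⟩ (by decide +kernel)
theorem zR550 : Cov (ix [9]) ⟨33554431, 1, 33554432⟩ ⟨0, 1, 4194304⟩ ⟨3070, 1, 6144⟩ :=
  Cov.leafU ⟨.mk 96 5 5 1, .bot 104 28, .bot 128 32, .mk 128 18 5 43, .mk 96 6 5 1, .mk 96 6 5 1, 1095, 15, 10, 15⟩ (by decide +kernel)
theorem zR553 : Cov (ix [10, 11]) ⟨8388607, 1, 8388608⟩ ⟨0, 1, 4194304⟩ ⟨6142, 1, 12288⟩ :=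
  Cov.leafU ⟨.mk 96 5 5 1, .bot 128 28, .bot 128 30, .mk 128 19 5 43, .mk 96 6 5 1, .mk 96 6 5 1, 1084, 15, 10, 15⟩ (by decide +kernel)
theorem zR554 : Cov (ix [9]) ⟨8388607, 1, 8388608⟩ ⟨0, 1, 16777216⟩ ⟨6142, 1, 12288⟩ :=
  Cov.leafU ⟨.mk 96 5 5 1, .bot 112 29, .bot 128 30, .mk 128 19 5 43, .mk 96 6 5 1, .mk 96 6 5 1, 1104, 15, 10, 15⟩ (by decide +kernel)
theorem zR555 : Cov (ix [9]) ⟨8388607, 1, 8388608⟩ ⟨1, 3, 16777216⟩ ⟨6142, 1, 12288⟩ :=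
  Cov.leafU ⟨.mk 96 5 5 1, .mk 76 28 5 52, .bot 128 30, .mk 128 19 5 43, .mk 96 6 5 1, .mk 96 6 5 1, 1142, 15, 10, 15⟩ (by decide +kernel)
theorem zR559 : Cov (ix [10, 11]) ⟨8388607, 1, 8388608⟩ ⟨1, 3, 4194304⟩ ⟨6140, 3, 12288⟩ :=
  Cov.leafU ⟨.mk 96 5 5 1, .mk 64 26 5 40, .bot 128 30, .mk 107 18 5 65, .mk 96 6 5 1, .mk 96 6 5 1, 1113, 15, 10, 15⟩ (by decide +kernel)
theorem zR560 : Cov (ix [9]) ⟨8388607, 1, 8388608⟩ ⟨1, 3, 4194304⟩ ⟨3070, 1, 6144⟩ :=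
  Cov.leafU ⟨.mk 96 5 5 1, .mk 64 26 5 40, .bot 128 30, .mk 128 18 5 43, .mk 96 6 5 1, .mk 96 6 5 1, 1098, 15, 10, 15⟩ (by decide +kernel)
theorem zR561 : Cov (ix [9]) ⟨8388607, 1, 8388608⟩ ⟨1, 3, 4194304⟩ ⟨6142, 1, 12288⟩ :=
  Cov.leafU ⟨.mk 96 5 5 1, .mk 64 26 5 40, .bot 128 30, .mk 64 18 5 22, .mk 96 6 5 1, .mk 96 6 5 1, 1113, 15, 10, 15⟩ (by decide +kernel)
theorem zR568 : Cov (ix [7, 8, 11, 12]) ⟨2097151, 1, 2097152⟩ ⟨1, 3, 1048576⟩ ⟨6140, 3, 12288⟩ :=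
  Cov.leafU ⟨.mk 96 5 5 1, .mk 64 24 5 40, .bot 128 28, .mk 107 18 5 65, .mk 96 6 5 1, .mk 96 6 5 1, 1068, 15, 10, 15⟩ (by decide +kernel)
theorem zR569 : Cov (ix [9, 10]) ⟨2097151, 1, 2097152⟩ ⟨1, 3, 1048576⟩ ⟨3070, 1, 6144⟩ :=
  Cov.leafU ⟨.mk 96 5 5 1, .mk 64 24 5 40, .bot 128 28, .mk 64 17 5 22, .mk 96 6 5 1, .mk 96 6 5 1, 1040, 15, 10, 15⟩ (by decide +kernel)
theorem zR570 : Cov (ix [9, 10]) ⟨2097151, 1, 2097152⟩ ⟨1, 3, 1048576⟩ ⟨6142, 1, 12288⟩ :=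
  Cov.leafU ⟨.mk 96 5 5 1, .mk 64 24 5 40, .bot 128 28, .mk 128 19 5 45, .mk 96 6 5 1, .mk 96 6 5 1, 1055, 15, 10, 15⟩ (by decide +kernel)
theorem zR575 : Cov (ix [7, 8, 12]) ⟨524287, 1, 524288⟩ ⟨1, 3, 262144⟩ ⟨6140, 3, 12288⟩ :=
  Cov.leafU ⟨.mk 96 5 5 1, .mk 64 22 5 40, .bot 128 26, .mk 109 18 5 66, .mk 96 6 5 1, .mk 96 6 5 1, 1009, 15, 10, 15⟩ (by decide +kernel)
theorem zR576 : Cov (ix [9, 10, 11]) ⟨2097148, 3, 2097152⟩ ⟨1, 3, 262144⟩ ⟨6140, 3, 12288⟩ :=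
  Cov.leafU ⟨.mk 96 5 5 1, .mk 65 22 5 40, .mk 80 26 5 48, .mk 109 18 5 66, .mk 96 6 5 1, .mk 96 6 5 1, 1123, 15, 10, 15⟩ (by decide +kernel)
theorem zR577 : Cov (ix [10, 11]) ⟨2097151, 1, 2097152⟩ ⟨1, 3, 262144⟩ ⟨6140, 3, 12288⟩ :=
  Cov.leafU ⟨.mk 96 5 5 1, .mk 122 23 5 74, .bot 128 28, .mk 109 18 5 66, .mk 96 6 5 1, .mk 96 6 5 1, 1027, 15, 10, 15⟩ (by decide +kernel)
theorem zR578 : Cov (ix [9]) ⟨2097151, 1, 2097152⟩ ⟨1, 3, 262144⟩ ⟨3070, 1, 6144⟩ :=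
  Cov.leafU ⟨.mk 96 5 5 1, .mk 122 23 5 74, .bot 128 28, .mk 65 17 5 22, .mk 96 6 5 1, .mk 96 6 5 1, 1012, 15, 10, 15⟩ (by decide +kernel)
theorem zR579 : Cov (ix [9]) ⟨2097151, 1, 2097152⟩ ⟨1, 3, 262144⟩ ⟨6142, 1, 12288⟩ :=
  Cov.leafU ⟨.mk 96 5 5 1, .mk 122 23 5 74, .bot 128 28, .mk 66 18 5 23, .mk 96 6 5 1, .mk 96 6 5 1, 1027, 15, 10, 15⟩ (by decide +kernel)
theorem zR588 : Cov (ix [5, 6, 7, 12, 13]) ⟨131071, 1, 131072⟩ ⟨1, 3, 65536⟩ ⟨6140, 3, 12288⟩ :=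
  Cov.leafU ⟨.mk 96 5 5 1, .mk 64 20 5 40, .bot 128 24, .mk 115 18 5 70, .mk 96 6 5 1, .mk 96 6 5 1, 950, 15, 10, 15⟩ (by decide +kernel)
theorem zR589 : Cov (ix [8, 9, 10, 11]) ⟨524284, 3, 524288⟩ ⟨1, 3, 65536⟩ ⟨6140, 3, 12288⟩ :=
  Cov.leafU ⟨.mk 96 5 5 1, .mk 65 20 5 40, .mk 80 24 5 48, .mk 116 18 5 70, .mk 96 6 5 1, .mk 96 6 5 1, 1065, 15, 10, 15⟩ (by decide +kernel)

end Crest.Agent.R163.Bx
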