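import Crest.Agent.R163.BzV

set_option autoImplicit false
set_option Elab.async false

namespace Crest.Agent.R163.Bx

theorem zR590 : Cov (ix [8, 11]) ⟨524287, 1, 524288⟩ ⟨1, 3, 65536⟩ ⟨6140, 3, 12288⟩ :=
  Cov.leafU ⟨.mk 96 5 5 1, .mk 122 21 5 74, .bot 128 26, .mk 115 18 5 70, .mk 96 6 5 1, .mk 96 6 5 1, 980, 15, 10, 15⟩ (by decide +kernel)
theorem zR591 : Cov (ix [9, 10]) ⟨2097148, 3, 2097152⟩ ⟨1, 3, 65536⟩ ⟨6140, 3, 12288⟩ :=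
  Cov.leafU ⟨.mk 96 5 5 1, .mk 122 21 5 74, .mk 80 26 5 48, .mk 115 18 5 70, .mk 96 6 5 1, .mk 96 6 5 1, 1093, 15, 10, 15⟩ (by decide +kernel)
theorem zR592 : Cov (ix [9, 10]) ⟨2097151, 1, 2097152⟩ ⟨1, 3, 65536⟩ ⟨6140, 3, 12288⟩ :=
  Cov.leafU ⟨.mk 96 5 5 1, .mk 121 21 5 73, .bot 128 28, .mk 114 18 5 69, .mk 96 6 5 1, .mk 96 6 5 1, 998, 15, 10, 15⟩ (by decide +kernel)
theorem zR601 : Cov (ix [1, 2, 3, 4, 5, 6, 13]) ⟨32767, 1, 32768⟩ ⟨1, 3, 16384⟩ ⟨6140, 3, 12288⟩ :=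
  Cov.leafU ⟨.mk 96 5 5 1, .mk 64 18 5 40, .bot 128 22, .mk 71 17 5 44, .mk 96 6 5 1, .mk 96 6 5 1, 893, 15, 10, 15⟩ (by decide +kernel)
theorem zR602 : Cov (ix [7, 8, 9, 10, 11, 12]) ⟨131068, 3, 131072⟩ ⟨1, 3, 16384⟩ ⟨6140, 3, 12288⟩ :=
  Cov.leafU ⟨.mk 96 5 5 1, .mk 65 18 5 40, .mk 80 22 5 48, .mk 71 17 5 43, .mk 96 6 5 1, .mk 96 6 5 1, 997, 15, 10, 15⟩ (by decide +kernel)
theorem zR603 : Cov (ix [7, 8, 12]) ⟨131071, 1, 131072⟩ ⟨1, 3, 16384⟩ ⟨6140, 3, 12288⟩ :=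
  Cov.leafU ⟨.mk 96 5 5 1, .mk 122 19 5 74, .bot 128 24, .mk 69 17 5 42, .mk 96 6 5 1, .mk 96 6 5 1, 923, 15, 10, 15⟩ (by decide +kernel)
theorem zR604 : Cov (ix [9, 10, 11]) ⟨524284, 3, 524288⟩ ⟨1, 3, 16384⟩ ⟨6140, 3, 12288⟩ :=
  Cov.leafU ⟨.mk 96 5 5 1, .mk 122 19 5 74, .mk 80 24 5 48, .mk 69 17 5 42, .mk 96 6 5 1, .mk 96 6 5 1, 1025, 15, 10, 15⟩ (by decide +kernel)
theorem zR605 : Cov (ix [9, 10, 11]) ⟨524287, 1, 524288⟩ ⟨1, 3, 16384⟩ ⟨6140, 3, 12288⟩ :=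
  Cov.leafU ⟨.mk 96 5 5 1, .mk 121 19 5 73, .bot 128 26, .mk 69 17 5 42, .mk 96 6 5 1, .mk 96 6 5 1, 940, 15, 10, 15⟩ (by decide +kernel)
theorem zR614 : Cov (ix [0, 1, 2, 3, 4, 5, 12, 13, 16, 17]) ⟨32764, 3, 32768⟩ ⟨0, 1, 16384⟩ ⟨6143, 1, 12288⟩ :=
  Cov.leafU ⟨.mk 96 5 5 1, .mk 64 19 5 48, .mk 80 20 5 48, .mk 95 19 5 79, .mk 96 6 5 1, .mk 96 6 5 1, 962, 15, 10, 15⟩ (by decide +kernel)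
theorem zR615 : Cov (ix [6, 7, 8, 9, 10, 11]) ⟨32764, 3, 32768⟩ ⟨0, 1, 16384⟩ ⟨24572, 3, 49152⟩ :=
  Cov.leafU ⟨.mk 96 5 5 1, .mk 64 19 5 48, .mk 80 20 5 48, .mk 106 19 5 69, .mk 96 6 5 1, .mk 96 6 5 1, 992, 15, 10, 15⟩ (by decide +kernel)
theorem zR616 : Cov (ix [6, 7, 8, 9, 10, 11]) ⟨32764, 3, 32768⟩ ⟨0, 1, 16384⟩ ⟨24575, 1, 49152⟩ :=
  Cov.leafU ⟨.mk 96 5 5 1, .mk 64 19 5 48, .mk 80 20 5 48, .mk 126 20 5 94, .mk 96 6 5 1, .mk 96 6 5 1, 992, 15, 10, 15⟩ (by decide +kernel)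
theorem zR619 : Cov (ix [0, 1, 2, 16, 17]) ⟨32767, 1, 32768⟩ ⟨0, 1, 16384⟩ ⟨24572, 3, 49152⟩ :=
  Cov.leafU ⟨.mk 96 5 5 1, .bot 128 20, .bot 128 22, .mk 74 19 5 53, .mk 96 6 5 1, .mk 96 6 5 1, 931, 15, 10, 15⟩ (by decide +kernel)
theorem zR620 : Cov (ix [3, 4, 13]) ⟨32767, 1, 32768⟩ ⟨0, 1, 65536⟩ ⟨24572, 3, 49152⟩ :=
  Cov.leafU ⟨.mk 96 5 5 1, .bot 112 21, .bot 128 22, .mk 65 19 5 44, .mk 96 6 5 1, .mk 96 6 5 1, 952, 15, 10, 15⟩ (by decide +kernel)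
theorem zR621 : Cov (ix [5, 6, 7, 8, 9, 10, 11, 12]) ⟨131068, 3, 131072⟩ ⟨0, 1, 65536⟩ ⟨24572, 3, 49152⟩ :=
  Cov.leafU ⟨.mk 96 5 5 1, .mk 64 21 5 48, .mk 80 22 5 48, .mk 67 19 5 42, .mk 96 6 5 1, .mk 96 6 5 1, 1061, 15, 10, 15⟩ (by decide +kernel)
theorem zR622 : Cov (ix [5]) ⟨131071, 1, 131072⟩ ⟨0, 1, 65536⟩ ⟨24572, 3, 49152⟩ :=
  Cov.leafU ⟨.mk 96 5 5 1, .bot 128 22, .bot 128 24, .mk 117 20 5 75, .mk 96 6 5 1, .mk 96 6 5 1, 982, 15, 10, 15⟩ (by decide +kernel)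
theorem zR623 : Cov (ix [6, 7, 8, 10, 11, 12]) ⟨524284, 3, 524288⟩ ⟨0, 1, 65536⟩ ⟨24572, 3, 49152⟩ :=
  Cov.leafU ⟨.mk 96 5 5 1, .mk 68 22 5 60, .mk 80 24 5 48, .mk 118 20 5 74, .mk 96 6 5 1, .mk 96 6 5 1, 1105, 15, 10, 15⟩ (by decide +kernel)
theorem zR624 : Cov (ix [9]) ⟨262142, 1, 262144⟩ ⟨0, 1, 65536⟩ ⟨24572, 3, 49152⟩ :=
  Cov.leafU ⟨.mk 96 5 5 1, .mk 72 22 5 56, .mk 96 24 5 32, .mk 119 20 5 73, .mk 96 6 5 1, .mk 96 6 5 1, 1076, 15, 10, 15⟩ (by decide +kernel)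
theorem zR625 : Cov (ix [9]) ⟨524286, 1, 524288⟩ ⟨0, 1, 65536⟩ ⟨24572, 3, 49152⟩ :=
  Cov.leafU ⟨.mk 96 5 5 1, .mk 120 23 5 104, .mk 96 25 5 32, .mk 116 20 5 72, .mk 96 6 5 1, .mk 96 6 5 1, 1097, 15, 10, 15⟩ (by decide +kernel)
theorem zR628 : Cov (ix [6]) ⟨524287, 1, 524288⟩ ⟨0, 1, 65536⟩ ⟨24572, 3, 49152⟩ :=
  Cov.leafU ⟨.mk 96 5 5 1, .bot 104 22, .bot 128 26, .mk 114 20 5 72, .mk 96 6 5 1, .mk 96 6 5 1, 1012, 15, 10, 15⟩ (by decide +kernel)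
theorem zR629 : Cov (ix [7, 8, 9, 10, 11, 12]) ⟨2097148, 3, 2097152⟩ ⟨0, 1, 262144⟩ ⟨24572, 3, 49152⟩ :=
  Cov.leafU ⟨.mk 96 5 5 1, .mk 68 24 5 60, .mk 80 26 5 48, .mk 110 20 5 67, .mk 96 6 5 1, .mk 96 6 5 1, 1174, 15, 10, 15⟩ (by decide +kernel)
theorem zR630 : Cov (ix [7, 12]) ⟨2097151, 1, 2097152⟩ ⟨0, 1, 262144⟩ ⟨24572, 3, 49152⟩ :=
  Cov.leafU ⟨.mk 96 5 5 1, .bot 104 24, .bot 128 28, .mk 109 20 5 67, .mk 96 6 5 1, .mk 96 6 5 1, 1062, 15, 10, 15⟩ (by decide +kernel)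
theorem zR631 : Cov (ix [8, 11]) ⟨2097151, 1, 2097152⟩ ⟨0, 1, 1048576⟩ ⟨24572, 3, 49152⟩ :=
  Cov.leafU ⟨.mk 96 5 5 1, .bot 128 26, .bot 128 28, .mk 107 20 5 65, .mk 96 6 5 1, .mk 96 6 5 1, 1082, 15, 10, 15⟩ (by decide +kernel)
theorem zR632 : Cov (ix [9, 10]) ⟨8388604, 3, 8388608⟩ ⟨0, 1, 1048576⟩ ⟨24572, 3, 49152⟩ :=
  Cov.leafU ⟨.mk 96 5 5 1, .mk 68 26 5 60, .mk 80 28 5 48, .mk 107 20 5 65, .mk 96 6 5 1, .mk 96 6 5 1, 1230, 15, 10, 15⟩ (by decide +kernel)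
theorem zR633 : Cov (ix [10]) ⟨8388607, 1, 8388608⟩ ⟨0, 1, 4194304⟩ ⟨24572, 3, 49152⟩ :=
  Cov.leafU ⟨.mk 96 5 5 1, .bot 128 28, .bot 128 30, .mk 107 20 5 65, .mk 96 6 5 1, .mk 96 6 5 1, 1119, 15, 10, 15⟩ (by decide +kernel)
theorem zR634 : Cov (ix [9]) ⟨33554428, 3, 33554432⟩ ⟨0, 1, 4194304⟩ ⟨12286, 1, 24576⟩ :=
  Cov.leafU ⟨.mk 96 5 5 1, .mk 68 28 5 60, .mk 80 30 5 48, .mk 128 20 5 43, .mk 96 6 5 1, .mk 96 6 5 1, 1284, 15, 10, 15⟩ (by decide +kernel)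
theorem zR635 : Cov (ix [9]) ⟨33554431, 1, 33554432⟩ ⟨0, 1, 4194304⟩ ⟨12286, 1, 24576⟩ :=
  Cov.leafU ⟨.mk 96 5 5 1, .bot 104 28, .bot 128 32, .mk 128 20 5 43, .mk 96 6 5 1, .mk 96 6 5 1, 1134, 15, 10, 15⟩ (by decide +kernel)
theorem zR637 : Cov (ix [9]) ⟨8388607, 1, 8388608⟩ ⟨0, 1, 4194304⟩ ⟨24574, 1, 49152⟩ :=
  Cov.leafU ⟨.mk 96 5 5 1, .bot 128 28, .bot 128 30, .mk 64 20 5 22, .mk 96 6 5 1, .mk 96 6 5 1, 1123, 15, 10, 15⟩ (by decide +kernel)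
theorem zR640 : Cov (ix [9, 10]) ⟨8388607, 1, 8388608⟩ ⟨1, 3, 4194304⟩ ⟨24572, 3, 49152⟩ :=
  Cov.leafU ⟨.mk 96 5 5 1, .mk 64 26 5 40, .bot 128 30, .mk 107 20 5 65, .mk 96 6 5 1, .mk 96 6 5 1, 1143, 15, 10, 15⟩ (by decide +kernel)
theorem zR644 : Cov (ix [8, 10, 11]) ⟨2097151, 1, 2097152⟩ ⟨1, 3, 1048576⟩ ⟨24572, 3, 49152⟩ :=
  Cov.leafU ⟨.mk 96 5 5 1, .mk 64 24 5 40, .bot 128 28, .mk 109 20 5 66, .mk 96 6 5 1, .mk 96 6 5 1, 1098, 15, 10, 15⟩ (by decide +kernel)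
theorem zR645 : Cov (ix [9]) ⟨8388604, 3, 8388608⟩ ⟨1, 3, 1048576⟩ ⟨24572, 3, 49152⟩ :=
  Cov.leafU ⟨.mk 96 5 5 1, .mk 65 24 5 40, .mk 80 28 5 48, .mk 109 20 5 66, .mk 96 6 5 1, .mk 96 6 5 1, 1221, 15, 10, 15⟩ (by decide +kernel)
theorem zR646 : Cov (ix [9]) ⟨8388607, 1, 8388608⟩ ⟨1, 3, 1048576⟩ ⟨24572, 3, 49152⟩ :=
  Cov.leafU ⟨.mk 96 5 5 1, .mk 122 25 5 74, .bot 128 30, .mk 109 20 5 66, .mk 96 6 5 1, .mk 96 6 5 1, 1116, 15, 10, 15⟩ (by decide +kernel)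

end Crest.Agent.R163.Bx
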