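import Crest.Agent.R163.BzV

set_option autoImplicit false
set_option Elab.async false

namespace Crest.Agent.R163.Bx

theorem zR652 : Cov (ix [7, 8, 11, 12]) ⟨524287, 1, 524288⟩ ⟨1, 3, 262144⟩ ⟨24572, 3, 49152⟩ :=
  Cov.leafU ⟨.mk 96 5 5 1, .mk 64 22 5 40, .bot 128 26, .mk 115 20 5 70, .mk 96 6 5 1, .mk 96 6 5 1, 1039, 15, 10, 15⟩ (by decide +kernel)
theorem zR653 : Cov (ix [9, 10]) ⟨2097148, 3, 2097152⟩ ⟨1, 3, 262144⟩ ⟨24572, 3, 49152⟩ :=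
  Cov.leafU ⟨.mk 96 5 5 1, .mk 65 22 5 40, .mk 80 26 5 48, .mk 116 20 5 70, .mk 96 6 5 1, .mk 96 6 5 1, 1153, 15, 10, 15⟩ (by decide +kernel)
theorem zR654 : Cov (ix [10]) ⟨2097151, 1, 2097152⟩ ⟨1, 3, 262144⟩ ⟨24572, 3, 49152⟩ :=
  Cov.leafU ⟨.mk 96 5 5 1, .mk 122 23 5 74, .bot 128 28, .mk 115 20 5 70, .mk 96 6 5 1, .mk 96 6 5 1, 1057, 15, 10, 15⟩ (by decide +kernel)
theorem zR655 : Cov (ix [9]) ⟨8388604, 3, 8388608⟩ ⟨1, 3, 262144⟩ ⟨24572, 3, 49152⟩ :=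
  Cov.leafU ⟨.mk 96 5 5 1, .mk 122 23 5 74, .mk 80 28 5 48, .mk 115 20 5 70, .mk 96 6 5 1, .mk 96 6 5 1, 1192, 15, 10, 15⟩ (by decide +kernel)
theorem zR656 : Cov (ix [9]) ⟨8388607, 1, 8388608⟩ ⟨1, 3, 262144⟩ ⟨24572, 3, 49152⟩ :=
  Cov.leafU ⟨.mk 96 5 5 1, .mk 121 23 5 73, .bot 128 30, .mk 114 20 5 69, .mk 96 6 5 1, .mk 96 6 5 1, 1087, 15, 10, 15⟩ (by decide +kernel)
theorem zR667 : Cov (ix [3, 4, 5, 6, 13]) ⟨32767, 1, 32768⟩ ⟨1, 3, 65536⟩ ⟨24572, 3, 49152⟩ :=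
  Cov.leafU ⟨.mk 96 5 5 1, .mk 76 20 5 52, .bot 128 22, .mk 77 19 5 50, .mk 96 6 5 1, .mk 96 6 5 1, 951, 15, 10, 15⟩ (by decide +kernel)
theorem zR668 : Cov (ix [7, 8, 9, 10, 11, 12]) ⟨131068, 3, 131072⟩ ⟨1, 3, 65536⟩ ⟨24572, 3, 49152⟩ :=
  Cov.leafU ⟨.mk 96 5 5 1, .mk 80 20 5 49, .mk 80 22 5 48, .mk 79 19 5 48, .mk 96 6 5 1, .mk 96 6 5 1, 1055, 15, 10, 15⟩ (by decide +kernel)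
theorem zR669 : Cov (ix [7, 12]) ⟨131071, 1, 131072⟩ ⟨1, 3, 65536⟩ ⟨24572, 3, 49152⟩ :=
  Cov.leafU ⟨.mk 96 5 5 1, .mk 64 20 5 40, .bot 128 24, .mk 71 19 5 44, .mk 96 6 5 1, .mk 96 6 5 1, 981, 15, 10, 15⟩ (by decide +kernel)
theorem zR670 : Cov (ix [8, 9, 10, 11]) ⟨524284, 3, 524288⟩ ⟨1, 3, 65536⟩ ⟨24572, 3, 49152⟩ :=
  Cov.leafU ⟨.mk 96 5 5 1, .mk 65 20 5 40, .mk 80 24 5 48, .mk 71 19 5 43, .mk 96 6 5 1, .mk 96 6 5 1, 1095, 15, 10, 15⟩ (by decide +kernel)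
theorem zR671 : Cov (ix [8, 10, 11]) ⟨524287, 1, 524288⟩ ⟨1, 3, 65536⟩ ⟨24572, 3, 49152⟩ :=
  Cov.leafU ⟨.mk 96 5 5 1, .mk 122 21 5 74, .bot 128 26, .mk 69 19 5 42, .mk 96 6 5 1, .mk 96 6 5 1, 1011, 15, 10, 15⟩ (by decide +kernel)
theorem zR672 : Cov (ix [9]) ⟨2097148, 3, 2097152⟩ ⟨1, 3, 65536⟩ ⟨24572, 3, 49152⟩ :=
  Cov.leafU ⟨.mk 96 5 5 1, .mk 122 21 5 74, .mk 80 26 5 48, .mk 69 19 5 42, .mk 96 6 5 1, .mk 96 6 5 1, 1123, 15, 10, 15⟩ (by decide +kernel)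
theorem zR673 : Cov (ix [9]) ⟨2097151, 1, 2097152⟩ ⟨1, 3, 65536⟩ ⟨24572, 3, 49152⟩ :=
  Cov.leafU ⟨.mk 96 5 5 1, .mk 121 21 5 73, .bot 128 28, .mk 69 19 5 42, .mk 96 6 5 1, .mk 96 6 5 1, 1029, 15, 10, 15⟩ (by decide +kernel)
theorem zR682 : Cov (ix [0, 1, 2, 3, 4, 5, 6, 7, 8, 10, 11, 12, 13, 16, 17]) ⟨131068, 3, 131072⟩ ⟨0, 1, 65536⟩ ⟨24575, 1, 49152⟩ :=
  Cov.leafU ⟨.mk 96 5 5 1, .mk 64 21 5 48, .mk 80 22 5 48, .mk 95 21 5 79, .mk 96 6 5 1, .mk 96 6 5 1, 1061, 15, 10, 15⟩ (by decide +kernel)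
theorem zR683 : Cov (ix [9]) ⟨65534, 1, 65536⟩ ⟨0, 1, 65536⟩ ⟨24575, 1, 49152⟩ :=
  Cov.leafU ⟨.mk 96 5 5 1, .mk 72 21 5 40, .mk 96 22 5 32, .mk 103 21 5 71, .mk 96 6 5 1, .mk 96 6 5 1, 1032, 15, 10, 15⟩ (by decide +kernel)
theorem zR684 : Cov (ix [9]) ⟨131070, 1, 131072⟩ ⟨0, 1, 65536⟩ ⟨24575, 1, 49152⟩ :=
  Cov.leafU ⟨.mk 96 5 5 1, .mk 96 22 5 64, .mk 96 23 5 32, .mk 79 21 5 63, .mk 96 6 5 1, .mk 96 6 5 1, 1055, 15, 10, 15⟩ (by decide +kernel)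
theorem zR687 : Cov (ix [0, 1, 2, 3, 4, 5, 13, 16, 17]) ⟨131071, 1, 131072⟩ ⟨0, 1, 65536⟩ ⟨98300, 3, 196608⟩ :=
  Cov.leafU ⟨.mk 96 5 5 1, .bot 128 22, .bot 128 24, .mk 74 21 5 53, .mk 96 6 5 1, .mk 96 6 5 1, 1021, 15, 10, 15⟩ (by decide +kernel)
theorem zR688 : Cov (ix [6, 7, 8, 9, 10, 11, 12]) ⟨524284, 3, 524288⟩ ⟨0, 1, 65536⟩ ⟨98300, 3, 196608⟩ :=
  Cov.leafU ⟨.mk 96 5 5 1, .mk 68 22 5 60, .mk 80 24 5 48, .mk 76 21 5 51, .mk 96 6 5 1, .mk 96 6 5 1, 1135, 15, 10, 15⟩ (by decide +kernel)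
theorem zR689 : Cov (ix [6, 12]) ⟨524287, 1, 524288⟩ ⟨0, 1, 65536⟩ ⟨98300, 3, 196608⟩ :=
  Cov.leafU ⟨.mk 96 5 5 1, .bot 104 22, .bot 128 26, .mk 68 21 5 47, .mk 96 6 5 1, .mk 96 6 5 1, 1050, 15, 10, 15⟩ (by decide +kernel)
theorem zR690 : Cov (ix [7]) ⟨524287, 1, 524288⟩ ⟨0, 1, 262144⟩ ⟨98300, 3, 196608⟩ :=
  Cov.leafU ⟨.mk 96 5 5 1, .bot 128 24, .bot 128 26, .mk 117 22 5 75, .mk 96 6 5 1, .mk 96 6 5 1, 1071, 15, 10, 15⟩ (by decide +kernel)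
theorem zR691 : Cov (ix [8, 9, 10, 11]) ⟨2097148, 3, 2097152⟩ ⟨0, 1, 262144⟩ ⟨98300, 3, 196608⟩ :=
  Cov.leafU ⟨.mk 96 5 5 1, .mk 68 24 5 60, .mk 80 26 5 48, .mk 118 22 5 74, .mk 96 6 5 1, .mk 96 6 5 1, 1204, 15, 10, 15⟩ (by decide +kernel)
theorem zR692 : Cov (ix [8, 11]) ⟨2097151, 1, 2097152⟩ ⟨0, 1, 262144⟩ ⟨98300, 3, 196608⟩ :=
  Cov.leafU ⟨.mk 96 5 5 1, .bot 104 24, .bot 128 28, .mk 114 22 5 72, .mk 96 6 5 1, .mk 96 6 5 1, 1101, 15, 10, 15⟩ (by decide +kernel)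
theorem zR693 : Cov (ix [9, 10]) ⟨2097151, 1, 2097152⟩ ⟨0, 1, 1048576⟩ ⟨98300, 3, 196608⟩ :=
  Cov.leafU ⟨.mk 96 5 5 1, .bot 128 26, .bot 128 28, .mk 109 22 5 67, .mk 96 6 5 1, .mk 96 6 5 1, 1109, 15, 10, 15⟩ (by decide +kernel)
theorem zR694 : Cov (ix [9, 10]) ⟨2097151, 1, 2097152⟩ ⟨1, 3, 1048576⟩ ⟨98300, 3, 196608⟩ :=
  Cov.leafU ⟨.mk 96 5 5 1, .mk 64 24 5 40, .bot 128 28, .mk 115 22 5 70, .mk 96 6 5 1, .mk 96 6 5 1, 1115, 15, 10, 15⟩ (by decide +kernel)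
theorem zR699 : Cov (ix [7, 8, 9, 10, 11]) ⟨524287, 1, 524288⟩ ⟨1, 3, 262144⟩ ⟨98300, 3, 196608⟩ :=
  Cov.leafU ⟨.mk 96 5 5 1, .mk 64 22 5 40, .bot 128 26, .mk 71 21 5 44, .mk 96 6 5 1, .mk 96 6 5 1, 1071, 15, 10, 15⟩ (by decide +kernel)
theorem zR704 : Cov (ix [13]) ⟨131071, 1, 131072⟩ ⟨0, 1, 65536⟩ ⟨98303, 1, 196608⟩ :=
  Cov.leafU ⟨.mk 96 5 5 1, .bot 128 22, .bot 128 24, .bot 123 22, .mk 96 6 5 1, .mk 96 6 5 1, 669, 10, 5, 10⟩ (by decide +kernel)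
theorem zR705 : Cov (ix [16]) ⟨131071, 1, 131072⟩ ⟨0, 1, 262144⟩ ⟨98303, 1, 196608⟩ :=
  Cov.leafU ⟨.mk 96 5 5 1, .bot 112 23, .bot 128 24, .bot 87 22, .mk 96 6 5 1, .mk 96 6 5 1, 680, 10, 5, 10⟩ (by decide +kernel)
theorem zR706 : Cov (ix [0, 1, 2, 3, 4, 5, 6, 7, 8, 9, 10, 11, 12, 17]) ⟨524284, 3, 524288⟩ ⟨0, 1, 262144⟩ ⟨98303, 1, 196608⟩ :=
  Cov.leafU ⟨.mk 96 5 5 1, .mk 64 23 5 48, .mk 80 24 5 48, .mk 95 23 5 79, .mk 96 6 5 1, .mk 96 6 5 1, 1160, 15, 10, 15⟩ (by decide +kernel)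
theorem zR707 : Cov (ix [0, 1, 2, 3, 4, 5, 6, 7, 8, 9, 10, 11, 12, 17]) ⟨524287, 1, 524288⟩ ⟨0, 1, 262144⟩ ⟨393212, 3, 786432⟩ :=
  Cov.leafU ⟨.mk 96 5 5 1, .bot 128 24, .bot 128 26, .mk 74 23 5 53, .mk 96 6 5 1, .mk 96 6 5 1, 1110, 15, 10, 15⟩ (by decide +kernel)
theorem zR708 : Cov (ix [0, 1, 2, 17]) ⟨524287, 1, 524288⟩ ⟨0, 1, 262144⟩ ⟨393215, 1, 786432⟩ :=
  Cov.leafU ⟨.mk 96 5 5 1, .bot 128 24, .bot 128 26, .bot 123 24, .mk 96 6 5 1, .mk 96 6 5 1, 733, 10, 5, 10⟩ (by decide +kernel)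
theorem zR709 : Cov (ix [3, 12]) ⟨524287, 1, 524288⟩ ⟨0, 1, 1048576⟩ ⟨393215, 1, 786432⟩ :=
  Cov.leafU ⟨.mk 96 5 5 1, .bot 112 25, .bot 128 26, .bot 87 24, .mk 96 6 5 1, .mk 96 6 5 1, 743, 10, 5, 10⟩ (by decide +kernel)
theorem zR710 : Cov (ix [4, 5, 6, 7, 8, 9, 10, 11]) ⟨2097148, 3, 2097152⟩ ⟨0, 1, 1048576⟩ ⟨393215, 1, 786432⟩ :=
  Cov.leafU ⟨.mk 96 5 5 1, .mk 64 25 5 48, .mk 80 26 5 48, .mk 95 25 5 79, .mk 96 6 5 1, .mk 96 6 5 1, 1259, 15, 10, 15⟩ (by decide +kernel)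

end Crest.Agent.R163.Bx
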