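import Crest.Agent.R163.BzV

set_option autoImplicit false
set_option Elab.async false

namespace Crest.Agent.R163.Bx

theorem zR711 : Cov (ix [4, 5]) ⟨2097151, 1, 2097152⟩ ⟨0, 1, 1048576⟩ ⟨393215, 1, 786432⟩ :=
  Cov.leafU ⟨.mk 96 5 5 1, .bot 128 26, .bot 128 28, .bot 126 25, .mk 96 6 5 1, .mk 96 6 5 1, 763, 10, 5, 10⟩ (by decide +kernel)
theorem zR712 : Cov (ix [6, 7, 8, 9, 10, 11]) ⟨2097151, 1, 2097152⟩ ⟨0, 1, 1048576⟩ ⟨1572860, 3, 3145728⟩ :=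
  Cov.leafU ⟨.mk 96 5 5 1, .bot 128 26, .bot 128 28, .mk 74 25 5 53, .mk 96 6 5 1, .mk 96 6 5 1, 1199, 15, 10, 15⟩ (by decide +kernel)
theorem zR713 : Cov (ix [6, 7, 8, 9, 10, 11]) ⟨2097151, 1, 2097152⟩ ⟨0, 1, 1048576⟩ ⟨1572863, 1, 3145728⟩ :=
  Cov.leafU ⟨.mk 96 5 5 1, .bot 128 26, .bot 128 28, .bot 123 26, .mk 96 6 5 1, .mk 96 6 5 1, 783, 10, 5, 10⟩ (by decide +kernel)
theorem zR718 : Cov (ix [3, 4, 5, 6, 7, 8, 9, 10, 11, 12]) ⟨524287, 1, 524288⟩ ⟨1, 3, 1048576⟩ ⟨393215, 1, 786432⟩ :=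
  Cov.leafU ⟨.mk 96 5 5 1, .mk 76 24 5 52, .bot 128 26, .mk 68 24 5 56, .mk 96 6 5 1, .mk 96 6 5 1, 1135, 15, 10, 15⟩ (by decide +kernel)
theorem zR724 : Cov (ix [0, 1, 2, 3, 4, 5, 6, 7, 8, 10, 11, 12, 16, 17]) ⟨131071, 1, 131072⟩ ⟨1, 3, 262144⟩ ⟨98303, 1, 196608⟩ :=
  Cov.leafU ⟨.mk 96 5 5 1, .mk 76 22 5 52, .bot 128 24, .mk 68 22 5 56, .mk 96 6 5 1, .mk 96 6 5 1, 1046, 15, 10, 15⟩ (by decide +kernel)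
theorem zR725 : Cov (ix [9]) ⟨524284, 3, 524288⟩ ⟨1, 3, 262144⟩ ⟨98303, 1, 196608⟩ :=
  Cov.leafU ⟨.mk 96 5 5 1, .mk 80 22 5 49, .mk 80 24 5 48, .mk 71 22 5 52, .mk 96 6 5 1, .mk 96 6 5 1, 1142, 15, 10, 15⟩ (by decide +kernel)
theorem zR726 : Cov (ix [9]) ⟨524287, 1, 524288⟩ ⟨1, 3, 262144⟩ ⟨98303, 1, 196608⟩ :=
  Cov.leafU ⟨.mk 96 5 5 1, .mk 64 22 5 40, .bot 128 26, .mk 111 23 5 87, .mk 96 6 5 1, .mk 96 6 5 1, 1064, 15, 10, 15⟩ (by decide +kernel)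
theorem zR733 : Cov (ix [0, 1, 2, 3, 4, 5, 12, 13, 16, 17]) ⟨32767, 1, 32768⟩ ⟨1, 3, 65536⟩ ⟨24575, 1, 49152⟩ :=
  Cov.leafU ⟨.mk 96 5 5 1, .mk 76 20 5 52, .bot 128 22, .mk 68 20 5 56, .mk 96 6 5 1, .mk 96 6 5 1, 956, 15, 10, 15⟩ (by decide +kernel)
theorem zR734 : Cov (ix [6, 7, 8, 9, 10, 11]) ⟨131068, 3, 131072⟩ ⟨1, 3, 65536⟩ ⟨24575, 1, 49152⟩ :=
  Cov.leafU ⟨.mk 96 5 5 1, .mk 80 20 5 49, .mk 80 22 5 48, .mk 71 20 5 52, .mk 96 6 5 1, .mk 96 6 5 1, 1055, 15, 10, 15⟩ (by decide +kernel)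
theorem zR735 : Cov (ix [6, 7, 11]) ⟨131071, 1, 131072⟩ ⟨1, 3, 65536⟩ ⟨24575, 1, 49152⟩ :=
  Cov.leafU ⟨.mk 96 5 5 1, .mk 64 20 5 40, .bot 128 24, .mk 111 21 5 87, .mk 96 6 5 1, .mk 96 6 5 1, 987, 15, 10, 15⟩ (by decide +kernel)
theorem zR736 : Cov (ix [8, 9, 10]) ⟨524284, 3, 524288⟩ ⟨1, 3, 65536⟩ ⟨24575, 1, 49152⟩ :=
  Cov.leafU ⟨.mk 96 5 5 1, .mk 65 20 5 40, .mk 80 24 5 48, .mk 113 21 5 86, .mk 96 6 5 1, .mk 96 6 5 1, 1095, 15, 10, 15⟩ (by decide +kernel)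
theorem zR737 : Cov (ix [8, 10]) ⟨524287, 1, 524288⟩ ⟨1, 3, 65536⟩ ⟨24575, 1, 49152⟩ :=
  Cov.leafU ⟨.mk 96 5 5 1, .mk 122 21 5 74, .bot 128 26, .mk 105 21 5 81, .mk 96 6 5 1, .mk 96 6 5 1, 1017, 15, 10, 15⟩ (by decide +kernel)
theorem zR738 : Cov (ix [9]) ⟨2097148, 3, 2097152⟩ ⟨1, 3, 65536⟩ ⟨24575, 1, 49152⟩ :=
  Cov.leafU ⟨.mk 96 5 5 1, .mk 122 21 5 74, .mk 80 26 5 48, .mk 105 21 5 81, .mk 96 6 5 1, .mk 96 6 5 1, 1123, 15, 10, 15⟩ (by decide +kernel)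
theorem zR739 : Cov (ix [9]) ⟨2097151, 1, 2097152⟩ ⟨1, 3, 65536⟩ ⟨24575, 1, 49152⟩ :=
  Cov.leafU ⟨.mk 96 5 5 1, .mk 121 21 5 73, .bot 128 28, .mk 104 21 5 80, .mk 96 6 5 1, .mk 96 6 5 1, 1035, 15, 10, 15⟩ (by decide +kernel)
theorem zR749 : Cov (ix [0, 1, 13, 16, 17]) ⟨8191, 1, 8192⟩ ⟨1, 3, 16384⟩ ⟨6143, 1, 12288⟩ :=
  Cov.leafU ⟨.mk 96 5 5 1, .mk 76 18 5 52, .bot 128 20, .mk 68 18 5 56, .mk 96 6 5 1, .mk 96 6 5 1, 867, 15, 10, 15⟩ (by decide +kernel)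
theorem zR750 : Cov (ix [2, 3, 4, 5, 6, 7, 8, 9, 10, 11, 12]) ⟨32764, 3, 32768⟩ ⟨1, 3, 16384⟩ ⟨6143, 1, 12288⟩ :=
  Cov.leafU ⟨.mk 96 5 5 1, .mk 80 18 5 49, .mk 80 20 5 48, .mk 71 18 5 52, .mk 96 6 5 1, .mk 96 6 5 1, 956, 15, 10, 15⟩ (by decide +kernel)
theorem zR751 : Cov (ix [2, 3, 4, 5]) ⟨32767, 1, 32768⟩ ⟨1, 3, 16384⟩ ⟨6143, 1, 12288⟩ :=
  Cov.leafU ⟨.mk 96 5 5 1, .mk 64 18 5 40, .bot 128 22, .mk 111 19 5 87, .mk 96 6 5 1, .mk 96 6 5 1, 898, 15, 10, 15⟩ (by decide +kernel)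
theorem zR752 : Cov (ix [6, 7, 8, 9, 10, 11, 12]) ⟨131068, 3, 131072⟩ ⟨1, 3, 16384⟩ ⟨6143, 1, 12288⟩ :=
  Cov.leafU ⟨.mk 96 5 5 1, .mk 65 18 5 40, .mk 80 22 5 48, .mk 113 19 5 86, .mk 96 6 5 1, .mk 96 6 5 1, 997, 15, 10, 15⟩ (by decide +kernel)
theorem zR753 : Cov (ix [6, 12]) ⟨131071, 1, 131072⟩ ⟨1, 3, 16384⟩ ⟨6143, 1, 12288⟩ :=
  Cov.leafU ⟨.mk 96 5 5 1, .mk 122 19 5 74, .bot 128 24, .mk 105 19 5 81, .mk 96 6 5 1, .mk 96 6 5 1, 928, 15, 10, 15⟩ (by decide +kernel)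
theorem zR754 : Cov (ix [7, 11]) ⟨131071, 1, 131072⟩ ⟨1, 1, 16384⟩ ⟨6143, 1, 12288⟩ :=
  Cov.leafU ⟨.mk 96 5 5 1, .mk 74 19 5 26, .bot 128 24, .mk 81 19 5 57, .mk 96 6 5 1, .mk 96 6 5 1, 930, 15, 10, 15⟩ (by decide +kernel)
theorem zR755 : Cov (ix [8, 9, 10]) ⟨524284, 3, 524288⟩ ⟨1, 1, 16384⟩ ⟨6143, 1, 12288⟩ :=
  Cov.leafU ⟨.mk 96 5 5 1, .mk 74 19 5 26, .mk 80 24 5 48, .mk 81 19 5 57, .mk 96 6 5 1, .mk 96 6 5 1, 1040, 15, 10, 15⟩ (by decide +kernel)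
theorem zR756 : Cov (ix [8, 10]) ⟨524287, 1, 524288⟩ ⟨1, 1, 16384⟩ ⟨6143, 1, 12288⟩ :=
  Cov.leafU ⟨.mk 96 5 5 1, .mk 73 19 5 25, .bot 128 26, .mk 80 19 5 56, .mk 96 6 5 1, .mk 96 6 5 1, 960, 15, 10, 15⟩ (by decide +kernel)
theorem zR757 : Cov (ix [9]) ⟨2097148, 3, 2097152⟩ ⟨1, 1, 16384⟩ ⟨6143, 1, 12288⟩ :=
  Cov.leafU ⟨.mk 96 5 5 1, .mk 73 19 5 25, .mk 80 26 5 48, .mk 80 19 5 56, .mk 96 6 5 1, .mk 96 6 5 1, 1068, 15, 10, 15⟩ (by decide +kernel)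
theorem zR758 : Cov (ix [9]) ⟨2097151, 1, 2097152⟩ ⟨1, 1, 16384⟩ ⟨6143, 1, 12288⟩ :=
  Cov.leafU ⟨.mk 96 5 5 1, .mk 73 19 5 25, .bot 128 28, .mk 79 19 5 55, .mk 96 6 5 1, .mk 96 6 5 1, 977, 15, 10, 15⟩ (by decide +kernel)
theorem zR763 : Cov (ix [7, 8, 10, 11]) ⟨131071, 1, 131072⟩ ⟨1, 1, 8192⟩ ⟨6143, 1, 12288⟩ :=
  Cov.leafU ⟨.mk 96 5 5 1, .mk 73 18 5 25, .bot 128 24, .mk 117 19 5 69, .mk 96 6 5 1, .mk 96 6 5 1, 917, 15, 10, 15⟩ (by decide +kernel)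
theorem zR764 : Cov (ix [9]) ⟨524284, 3, 524288⟩ ⟨1, 1, 8192⟩ ⟨6143, 1, 12288⟩ :=
  Cov.leafU ⟨.mk 96 5 5 1, .mk 73 18 5 25, .mk 80 24 5 48, .mk 117 19 5 69, .mk 96 6 5 1, .mk 96 6 5 1, 1014, 15, 10, 15⟩ (by decide +kernel)
theorem zR765 : Cov (ix [9]) ⟨524287, 1, 524288⟩ ⟨1, 1, 8192⟩ ⟨6143, 1, 12288⟩ :=
  Cov.leafU ⟨.mk 96 5 5 1, .mk 73 18 5 25, .bot 128 26, .mk 116 19 5 68, .mk 96 6 5 1, .mk 96 6 5 1, 935, 15, 10, 15⟩ (by decide +kernel)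
theorem zR777 : Cov (ix [16]) ⟨2047, 1, 2048⟩ ⟨1, 3, 4096⟩ ⟨1535, 1, 3072⟩ :=
  Cov.leafU ⟨.mk 96 5 5 1, .mk 76 16 5 52, .bot 128 18, .mk 68 16 5 56, .mk 96 6 5 1, .mk 96 6 5 1, 765, 15, 10, 15⟩ (by decide +kernel)
theorem zR778 : Cov (ix [0, 1, 2, 3, 4, 5, 6, 7, 8, 9, 10, 11, 12, 13, 17]) ⟨8188, 3, 8192⟩ ⟨1, 3, 4096⟩ ⟨1535, 1, 3072⟩ :=
  Cov.leafU ⟨.mk 96 5 5 1, .mk 80 16 5 49, .mk 80 18 5 48, .mk 71 16 5 52, .mk 96 6 5 1, .mk 96 6 5 1, 858, 15, 10, 15⟩ (by decide +kernel)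
theorem zR779 : Cov (ix [0, 1, 2, 17]) ⟨8191, 1, 8192⟩ ⟨1, 3, 4096⟩ ⟨1535, 1, 3072⟩ :=
  Cov.leafU ⟨.mk 96 5 5 1, .mk 64 16 5 40, .bot 128 20, .mk 111 17 5 87, .mk 96 6 5 1, .mk 96 6 5 1, 809, 15, 10, 15⟩ (by decide +kernel)

end Crest.Agent.R163.Bx
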