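import Crest.Agent.R163.BzV

set_option autoImplicit false
set_option Elab.async false

namespace Crest.Agent.R163.Bx

theorem zR780 : Cov (ix [3, 4, 5, 6, 7, 8, 9, 10, 11, 12, 13]) ⟨32764, 3, 32768⟩ ⟨1, 3, 4096⟩ ⟨1535, 1, 3072⟩ :=
  Cov.leafU ⟨.mk 96 5 5 1, .mk 65 16 5 40, .mk 80 20 5 48, .mk 113 17 5 86, .mk 96 6 5 1, .mk 96 6 5 1, 898, 15, 10, 15⟩ (by decide +kernel)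
theorem zR781 : Cov (ix [3, 4, 5, 13]) ⟨32767, 1, 32768⟩ ⟨1, 3, 4096⟩ ⟨1535, 1, 3072⟩ :=
  Cov.leafU ⟨.mk 96 5 5 1, .mk 122 17 5 74, .bot 128 22, .mk 105 17 5 81, .mk 96 6 5 1, .mk 96 6 5 1, 840, 15, 10, 15⟩ (by decide +kernel)
theorem zR782 : Cov (ix [6]) ⟨32767, 1, 32768⟩ ⟨1, 1, 4096⟩ ⟨1535, 1, 3072⟩ :=
  Cov.leafU ⟨.mk 96 5 5 1, .mk 74 17 5 26, .bot 128 22, .mk 81 17 5 57, .mk 96 6 5 1, .mk 96 6 5 1, 841, 15, 10, 15⟩ (by decide +kernel)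
theorem zR783 : Cov (ix [7, 8, 9, 10, 11, 12]) ⟨131068, 3, 131072⟩ ⟨1, 1, 4096⟩ ⟨1535, 1, 3072⟩ :=
  Cov.leafU ⟨.mk 96 5 5 1, .mk 74 17 5 26, .mk 80 22 5 48, .mk 81 17 5 57, .mk 96 6 5 1, .mk 96 6 5 1, 942, 15, 10, 15⟩ (by decide +kernel)
theorem zR784 : Cov (ix [7, 8, 11, 12]) ⟨131071, 1, 131072⟩ ⟨1, 1, 4096⟩ ⟨1535, 1, 3072⟩ :=
  Cov.leafU ⟨.mk 96 5 5 1, .mk 73 17 5 25, .bot 128 24, .mk 80 17 5 56, .mk 96 6 5 1, .mk 96 6 5 1, 871, 15, 10, 15⟩ (by decide +kernel)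
theorem zR785 : Cov (ix [9, 10]) ⟨524284, 3, 524288⟩ ⟨1, 1, 4096⟩ ⟨1535, 1, 3072⟩ :=
  Cov.leafU ⟨.mk 96 5 5 1, .mk 73 17 5 25, .mk 80 24 5 48, .mk 80 17 5 56, .mk 96 6 5 1, .mk 96 6 5 1, 969, 15, 10, 15⟩ (by decide +kernel)
theorem zR786 : Cov (ix [9, 10]) ⟨524287, 1, 524288⟩ ⟨1, 1, 4096⟩ ⟨1535, 1, 3072⟩ :=
  Cov.leafU ⟨.mk 96 5 5 1, .mk 73 17 5 25, .bot 128 26, .mk 79 17 5 55, .mk 96 6 5 1, .mk 96 6 5 1, 889, 15, 10, 15⟩ (by decide +kernel)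
theorem zR791 : Cov (ix [6, 7, 8, 10, 11, 12]) ⟨32767, 1, 32768⟩ ⟨1, 1, 2048⟩ ⟨1535, 1, 3072⟩ :=
  Cov.leafU ⟨.mk 96 5 5 1, .mk 73 16 5 25, .bot 128 22, .mk 117 17 5 69, .mk 96 6 5 1, .mk 96 6 5 1, 828, 15, 10, 15⟩ (by decide +kernel)
theorem zR792 : Cov (ix [9]) ⟨131068, 3, 131072⟩ ⟨1, 1, 2048⟩ ⟨1535, 1, 3072⟩ :=
  Cov.leafU ⟨.mk 96 5 5 1, .mk 73 16 5 25, .mk 80 22 5 48, .mk 117 17 5 69, .mk 96 6 5 1, .mk 96 6 5 1, 915, 15, 10, 15⟩ (by decide +kernel)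
theorem zR793 : Cov (ix [9]) ⟨131071, 1, 131072⟩ ⟨1, 1, 2048⟩ ⟨1535, 1, 3072⟩ :=
  Cov.leafU ⟨.mk 96 5 5 1, .mk 73 16 5 25, .bot 128 24, .mk 116 17 5 68, .mk 96 6 5 1, .mk 96 6 5 1, 846, 15, 10, 15⟩ (by decide +kernel)
theorem zR804 : Cov (ix [16]) ⟨2047, 1, 2048⟩ ⟨1, 3, 1024⟩ ⟨383, 1, 768⟩ :=
  Cov.leafU ⟨.mk 96 5 5 1, .mk 64 14 5 40, .bot 128 18, .mk 111 15 5 87, .mk 96 6 5 1, .mk 96 6 5 1, 707, 15, 10, 15⟩ (by decide +kernel)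
theorem zR805 : Cov (ix [0, 1, 2, 3, 4, 5, 6, 7, 8, 9, 10, 11, 12, 13, 17]) ⟨8188, 3, 8192⟩ ⟨1, 3, 1024⟩ ⟨383, 1, 768⟩ :=
  Cov.leafU ⟨.mk 96 5 5 1, .mk 65 14 5 40, .mk 80 18 5 48, .mk 112 15 5 85, .mk 96 6 5 1, .mk 96 6 5 1, 800, 15, 10, 15⟩ (by decide +kernel)
theorem zR806 : Cov (ix [0, 1, 2, 17]) ⟨8191, 1, 8192⟩ ⟨1, 3, 1024⟩ ⟨383, 1, 768⟩ :=
  Cov.leafU ⟨.mk 96 5 5 1, .mk 122 15 5 74, .bot 128 20, .mk 105 15 5 81, .mk 96 6 5 1, .mk 96 6 5 1, 751, 15, 10, 15⟩ (by decide +kernel)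
theorem zR807 : Cov (ix [3, 4, 5, 6, 7, 10, 11, 12, 13]) ⟨32764, 3, 32768⟩ ⟨1, 3, 1024⟩ ⟨383, 1, 768⟩ :=
  Cov.leafU ⟨.mk 96 5 5 1, .mk 122 15 5 74, .mk 80 20 5 48, .mk 105 15 5 81, .mk 96 6 5 1, .mk 96 6 5 1, 839, 15, 10, 15⟩ (by decide +kernel)
theorem zR808 : Cov (ix [8, 9]) ⟨32764, 3, 32768⟩ ⟨1, 1, 1024⟩ ⟨383, 1, 768⟩ :=
  Cov.leafU ⟨.mk 96 5 5 1, .mk 74 15 5 26, .mk 80 20 5 48, .mk 81 15 5 57, .mk 96 6 5 1, .mk 96 6 5 1, 842, 15, 10, 15⟩ (by decide +kernel)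
theorem zR809 : Cov (ix [8, 9]) ⟨32764, 3, 32768⟩ ⟨1, 1, 512⟩ ⟨383, 1, 768⟩ :=
  Cov.leafU ⟨.mk 96 5 5 1, .mk 73 14 5 25, .mk 80 20 5 48, .mk 117 15 5 69, .mk 96 6 5 1, .mk 96 6 5 1, 828, 15, 10, 15⟩ (by decide +kernel)
theorem zR812 : Cov (ix [3, 4, 13]) ⟨32767, 1, 32768⟩ ⟨1, 3, 1024⟩ ⟨383, 1, 768⟩ :=
  Cov.leafU ⟨.mk 96 5 5 1, .mk 121 15 5 73, .bot 128 22, .mk 104 15 5 80, .mk 96 6 5 1, .mk 96 6 5 1, 780, 15, 10, 15⟩ (by decide +kernel)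
theorem zR813 : Cov (ix [5, 6, 7, 12]) ⟨32767, 1, 32768⟩ ⟨1, 1, 1024⟩ ⟨383, 1, 768⟩ :=
  Cov.leafU ⟨.mk 96 5 5 1, .mk 73 15 5 25, .bot 128 22, .mk 80 15 5 56, .mk 96 6 5 1, .mk 96 6 5 1, 782, 15, 10, 15⟩ (by decide +kernel)
theorem zR814 : Cov (ix [8, 9, 10, 11]) ⟨131068, 3, 131072⟩ ⟨1, 1, 1024⟩ ⟨383, 1, 768⟩ :=
  Cov.leafU ⟨.mk 96 5 5 1, .mk 73 15 5 25, .mk 80 22 5 48, .mk 80 15 5 56, .mk 96 6 5 1, .mk 96 6 5 1, 882, 15, 10, 15⟩ (by decide +kernel)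
theorem zR815 : Cov (ix [8, 9, 10, 11]) ⟨131071, 1, 131072⟩ ⟨1, 1, 1024⟩ ⟨383, 1, 768⟩ :=
  Cov.leafU ⟨.mk 96 5 5 1, .mk 73 15 5 25, .bot 128 24, .mk 79 15 5 55, .mk 96 6 5 1, .mk 96 6 5 1, 812, 15, 10, 15⟩ (by decide +kernel)
theorem zR818 : Cov (ix [5, 6, 7, 8, 9, 10, 11, 12]) ⟨32767, 1, 32768⟩ ⟨1, 1, 512⟩ ⟨383, 1, 768⟩ :=
  Cov.leafU ⟨.mk 96 5 5 1, .mk 73 14 5 25, .bot 128 22, .mk 116 15 5 68, .mk 96 6 5 1, .mk 96 6 5 1, 769, 15, 10, 15⟩ (by decide +kernel)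
theorem zR828 : Cov (ix [0, 1, 2, 3, 4, 5, 6, 7, 8, 10, 11, 12, 13, 16, 17]) ⟨2044, 3, 2048⟩ ⟨1, 3, 256⟩ ⟨95, 1, 192⟩ :=
  Cov.leafU ⟨.mk 96 5 5 1, .mk 65 12 5 40, .mk 80 16 5 48, .mk 112 13 5 85, .mk 95 6 5 1, .mk 96 6 5 1, 701, 15, 10, 15⟩ (by decide +kernel)
theorem zR829 : Cov (ix [9]) ⟨1022, 1, 1024⟩ ⟨1, 3, 256⟩ ⟨95, 1, 192⟩ :=
  Cov.leafU ⟨.mk 96 5 5 1, .mk 66 12 5 39, .mk 96 16 5 32, .mk 114 13 5 83, .mk 95 6 5 1, .mk 96 6 5 1, 673, 15, 10, 15⟩ (by decide +kernel)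
theorem zR830 : Cov (ix [9]) ⟨2046, 1, 2048⟩ ⟨1, 3, 256⟩ ⟨95, 1, 192⟩ :=
  Cov.leafU ⟨.mk 96 5 5 1, .mk 126 13 5 75, .mk 96 17 5 32, .mk 108 13 5 81, .mk 95 6 5 1, .mk 96 6 5 1, 693, 15, 10, 15⟩ (by decide +kernel)
theorem zR833 : Cov (ix [16]) ⟨2047, 1, 2048⟩ ⟨1, 3, 256⟩ ⟨95, 1, 192⟩ :=
  Cov.leafU ⟨.mk 96 5 5 1, .mk 122 13 5 74, .bot 128 18, .mk 105 13 5 81, .mk 95 6 5 1, .mk 96 6 5 1, 648, 15, 10, 15⟩ (by decide +kernel)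
theorem zR834 : Cov (ix [0, 1, 2, 3, 4, 5, 6, 12, 13, 17]) ⟨8188, 3, 8192⟩ ⟨1, 3, 256⟩ ⟨95, 1, 192⟩ :=
  Cov.leafU ⟨.mk 96 5 5 1, .mk 122 13 5 74, .mk 80 18 5 48, .mk 105 13 5 81, .mk 95 6 5 1, .mk 96 6 5 1, 741, 15, 10, 15⟩ (by decide +kernel)
theorem zR835 : Cov (ix [7, 8, 9, 10, 11]) ⟨8188, 3, 8192⟩ ⟨1, 1, 256⟩ ⟨95, 1, 192⟩ :=
  Cov.leafU ⟨.mk 96 5 5 1, .mk 74 13 5 26, .mk 80 18 5 48, .mk 81 13 5 57, .mk 96 6 5 1, .mk 96 6 5 1, 744, 15, 10, 15⟩ (by decide +kernel)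
theorem zR836 : Cov (ix [7, 8, 9, 10, 11]) ⟨8188, 3, 8192⟩ ⟨1, 1, 128⟩ ⟨95, 1, 192⟩ :=
  Cov.leafU ⟨.mk 96 5 5 1, .mk 73 12 5 25, .mk 80 18 5 48, .mk 117 13 5 69, .mk 95 6 5 1, .mk 96 6 5 1, 730, 15, 10, 15⟩ (by decide +kernel)
theorem zR839 : Cov (ix [0, 17]) ⟨8191, 1, 8192⟩ ⟨1, 3, 256⟩ ⟨95, 1, 192⟩ :=
  Cov.leafU ⟨.mk 96 5 5 1, .mk 121 13 5 73, .bot 128 20, .mk 103 13 5 79, .mk 95 6 5 1, .mk 96 6 5 1, 691, 15, 10, 15⟩ (by decide +kernel)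
theorem zR840 : Cov (ix [1, 2, 3, 4, 5, 6, 12, 13]) ⟨32764, 3, 32768⟩ ⟨1, 3, 256⟩ ⟨95, 1, 192⟩ :=
  Cov.leafU ⟨.mk 96 5 5 1, .mk 121 13 5 73, .mk 80 20 5 48, .mk 103 13 5 79, .mk 95 6 5 1, .mk 96 6 5 1, 780, 15, 10, 15⟩ (by decide +kernel)
theorem zR841 : Cov (ix [7, 8, 9, 10, 11]) ⟨32764, 3, 32768⟩ ⟨1, 1, 256⟩ ⟨95, 1, 192⟩ :=
  Cov.leafU ⟨.mk 96 5 5 1, .mk 73 13 5 25, .mk 80 20 5 48, .mk 79 13 5 55, .mk 96 6 5 1, .mk 96 6 5 1, 784, 15, 10, 15⟩ (by decide +kernel)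

end Crest.Agent.R163.Bx
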