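import Crest.Agent.R163.BzV

set_option autoImplicit false
set_option Elab.async false

namespace Crest.Agent.R163.Bx

theorem zR842 : Cov (ix [7, 8, 9, 10, 11]) ⟨32764, 3, 32768⟩ ⟨1, 1, 128⟩ ⟨95, 1, 192⟩ :=
  Cov.leafU ⟨.mk 96 5 5 1, .mk 73 12 5 25, .mk 80 20 5 48, .mk 115 13 5 67, .mk 95 6 5 1, .mk 96 6 5 1, 769, 15, 10, 15⟩ (by decide +kernel)
theorem zR845 : Cov (ix [1, 2, 3]) ⟨32767, 1, 32768⟩ ⟨1, 3, 256⟩ ⟨95, 1, 192⟩ :=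
  Cov.leafU ⟨.mk 96 5 5 1, .mk 121 13 5 73, .bot 128 22, .mk 103 13 5 79, .mk 95 6 5 1, .mk 96 6 5 1, 721, 15, 10, 15⟩ (by decide +kernel)
theorem zR846 : Cov (ix [4, 5, 6, 7, 8, 13]) ⟨32767, 1, 32768⟩ ⟨1, 1, 256⟩ ⟨95, 1, 192⟩ :=
  Cov.leafU ⟨.mk 96 5 5 1, .mk 73 13 5 25, .bot 128 22, .mk 79 13 5 55, .mk 96 6 5 1, .mk 96 6 5 1, 723, 15, 10, 15⟩ (by decide +kernel)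
theorem zR847 : Cov (ix [9, 10, 11, 12]) ⟨131068, 3, 131072⟩ ⟨1, 1, 256⟩ ⟨95, 1, 192⟩ :=
  Cov.leafU ⟨.mk 96 5 5 1, .mk 73 13 5 25, .mk 80 22 5 48, .mk 79 13 5 55, .mk 96 6 5 1, .mk 96 6 5 1, 811, 15, 10, 15⟩ (by decide +kernel)
theorem zR848 : Cov (ix [9, 10, 11, 12]) ⟨131071, 1, 131072⟩ ⟨1, 1, 256⟩ ⟨95, 1, 192⟩ :=
  Cov.leafU ⟨.mk 96 5 5 1, .mk 73 13 5 25, .bot 128 24, .mk 79 13 5 55, .mk 96 6 5 1, .mk 96 6 5 1, 740, 15, 10, 15⟩ (by decide +kernel)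
theorem zR851 : Cov (ix [4, 5, 6, 7, 8, 9, 10, 11, 13]) ⟨32767, 1, 32768⟩ ⟨1, 1, 128⟩ ⟨95, 1, 192⟩ :=
  Cov.leafU ⟨.mk 96 5 5 1, .mk 73 12 5 25, .bot 128 22, .mk 115 13 5 67, .mk 95 6 5 1, .mk 96 6 5 1, 710, 15, 10, 15⟩ (by decide +kernel)
theorem zR852 : Cov (ix [12]) ⟨131068, 3, 131072⟩ ⟨1, 1, 128⟩ ⟨95, 1, 192⟩ :=
  Cov.leafU ⟨.mk 96 5 5 1, .mk 73 12 5 25, .mk 80 22 5 48, .mk 115 13 5 67, .mk 95 6 5 1, .mk 96 6 5 1, 797, 15, 10, 15⟩ (by decide +kernel)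
theorem zR853 : Cov (ix [12]) ⟨131071, 1, 131072⟩ ⟨1, 1, 128⟩ ⟨95, 1, 192⟩ :=
  Cov.leafU ⟨.mk 96 5 5 1, .mk 73 12 5 25, .bot 128 24, .mk 115 13 5 67, .mk 95 6 5 1, .mk 96 6 5 1, 726, 15, 10, 15⟩ (by decide +kernel)
theorem zR866 : Cov (ix [13]) ⟨508, 3, 512⟩ ⟨1, 3, 64⟩ ⟨23, 1, 48⟩ :=
  Cov.leafU ⟨.mk 94 5 5 2, .mk 65 10 5 40, .mk 80 14 5 48, .mk 110 11 5 83, .mk 94 6 5 3, .mk 95 6 5 1, 591, 15, 10, 15⟩ (by decide +kernel)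
theorem zR867 : Cov (ix [0, 1, 2, 3, 4, 5, 6, 7, 8, 9, 10, 11, 12, 16, 17]) ⟨508, 3, 512⟩ ⟨1, 1, 64⟩ ⟨23, 1, 48⟩ :=
  Cov.leafU ⟨.mk 95 5 5 1, .mk 82 11 5 31, .mk 80 14 5 48, .mk 87 11 5 60, .mk 95 6 5 2, .mk 95 6 5 1, 606, 15, 10, 15⟩ (by decide +kernel)
theorem zR868 : Cov (ix [0, 1, 2, 3, 4, 5, 6, 7, 8, 9, 10, 11, 12, 16, 17]) ⟨508, 3, 512⟩ ⟨1, 1, 32⟩ ⟨23, 1, 48⟩ :=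
  Cov.leafU ⟨.mk 94 5 5 2, .mk 77 10 5 28, .mk 80 14 5 48, .mk 122 11 5 71, .mk 93 6 5 2, .mk 95 6 5 1, 592, 15, 10, 15⟩ (by decide +kernel)
theorem zR871 : Cov (ix [13]) ⟨2044, 3, 2048⟩ ⟨1, 3, 64⟩ ⟨23, 1, 48⟩ :=
  Cov.leafU ⟨.mk 94 5 5 2, .mk 122 11 5 74, .mk 80 16 5 48, .mk 103 11 5 79, .mk 94 6 5 3, .mk 95 6 5 1, 630, 15, 10, 15⟩ (by decide +kernel)
theorem zR872 : Cov (ix [0, 1, 2, 3, 4, 5, 6, 7, 8, 9, 10, 11, 12, 16, 17]) ⟨2044, 3, 2048⟩ ⟨1, 1, 64⟩ ⟨23, 1, 48⟩ :=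
  Cov.leafU ⟨.mk 95 5 5 1, .mk 74 11 5 26, .mk 80 16 5 48, .mk 80 11 5 56, .mk 95 6 5 2, .mk 95 6 5 1, 646, 15, 10, 15⟩ (by decide +kernel)
theorem zR873 : Cov (ix [0, 1, 2, 3, 4, 5, 6, 7, 8, 9, 10, 11, 12, 16, 17]) ⟨2044, 3, 2048⟩ ⟨1, 1, 32⟩ ⟨23, 1, 48⟩ :=
  Cov.leafU ⟨.mk 94 5 5 2, .mk 73 10 5 25, .mk 80 16 5 48, .mk 115 11 5 67, .mk 93 6 5 2, .mk 95 6 5 1, 631, 15, 10, 15⟩ (by decide +kernel)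
theorem zR876 : Cov (ix [16]) ⟨2047, 1, 2048⟩ ⟨1, 1, 64⟩ ⟨23, 1, 48⟩ :=
  Cov.leafU ⟨.mk 95 5 5 1, .mk 73 11 5 25, .bot 128 18, .mk 79 11 5 55, .mk 95 6 5 2, .mk 95 6 5 1, 590, 15, 10, 15⟩ (by decide +kernel)
theorem zR877 : Cov (ix [0, 1, 2, 3, 4, 5, 6, 7, 8, 9, 10, 11, 12, 13, 17]) ⟨8188, 3, 8192⟩ ⟨1, 1, 64⟩ ⟨23, 1, 48⟩ :=
  Cov.leafU ⟨.mk 95 5 5 1, .mk 73 11 5 25, .mk 80 18 5 48, .mk 79 11 5 55, .mk 95 6 5 2, .mk 95 6 5 1, 685, 15, 10, 15⟩ (by decide +kernel)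
theorem zR878 : Cov (ix [0, 1, 2, 3, 17]) ⟨8191, 1, 8192⟩ ⟨1, 1, 64⟩ ⟨23, 1, 48⟩ :=
  Cov.leafU ⟨.mk 95 5 5 1, .mk 73 11 5 25, .bot 128 20, .mk 78 11 5 54, .mk 95 6 5 2, .mk 95 6 5 1, 634, 15, 10, 15⟩ (by decide +kernel)
theorem zR879 : Cov (ix [4, 5, 6, 7, 8, 9, 10, 11, 12, 13]) ⟨32764, 3, 32768⟩ ⟨1, 1, 64⟩ ⟨23, 1, 48⟩ :=
  Cov.leafU ⟨.mk 95 5 5 1, .mk 73 11 5 25, .mk 80 20 5 48, .mk 78 11 5 54, .mk 95 6 5 2, .mk 95 6 5 1, 724, 15, 10, 15⟩ (by decide +kernel)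
theorem zR880 : Cov (ix [4, 5, 6, 13]) ⟨32767, 1, 32768⟩ ⟨1, 1, 64⟩ ⟨23, 1, 48⟩ :=
  Cov.leafU ⟨.mk 95 5 5 1, .mk 73 11 5 25, .bot 128 22, .mk 78 11 5 54, .mk 95 6 5 2, .mk 95 6 5 1, 663, 15, 10, 15⟩ (by decide +kernel)
theorem zR881 : Cov (ix [7, 8, 9, 10, 11, 12]) ⟨32767, 1, 32768⟩ ⟨1, 1, 64⟩ ⟨92, 3, 192⟩ :=
  Cov.leafU ⟨.mk 95 5 5 1, .mk 73 11 5 25, .bot 128 22, .mk 89 11 5 44, .mk 94 6 5 1, .mk 95 6 5 1, 692, 15, 10, 15⟩ (by decide +kernel)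
theorem zR882 : Cov (ix [7, 8, 9, 10, 11, 12]) ⟨32767, 1, 32768⟩ ⟨1, 1, 64⟩ ⟨95, 1, 192⟩ :=
  Cov.leafU ⟨.mk 95 5 5 1, .mk 73 11 5 25, .bot 128 22, .mk 93 12 5 45, .mk 95 6 5 1, .mk 96 6 5 1, 696, 15, 10, 15⟩ (by decide +kernel)
theorem zR889 : Cov (ix [16]) ⟨2047, 1, 2048⟩ ⟨1, 1, 32⟩ ⟨23, 1, 48⟩ :=
  Cov.leafU ⟨.mk 94 5 5 2, .mk 73 10 5 25, .bot 128 18, .mk 114 11 5 66, .mk 93 6 5 2, .mk 95 6 5 1, 578, 15, 10, 15⟩ (by decide +kernel)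
theorem zR890 : Cov (ix [0, 1, 2, 3, 4, 5, 6, 7, 8, 9, 10, 11, 12, 13, 17]) ⟨8188, 3, 8192⟩ ⟨1, 1, 32⟩ ⟨23, 1, 48⟩ :=
  Cov.leafU ⟨.mk 94 5 5 2, .mk 73 10 5 25, .mk 80 18 5 48, .mk 114 11 5 66, .mk 93 6 5 2, .mk 95 6 5 1, 671, 15, 10, 15⟩ (by decide +kernel)
theorem zR891 : Cov (ix [0, 1, 2, 3, 17]) ⟨8191, 1, 8192⟩ ⟨1, 1, 32⟩ ⟨23, 1, 48⟩ :=
  Cov.leafU ⟨.mk 94 5 5 2, .mk 73 10 5 25, .bot 128 20, .mk 113 11 5 65, .mk 93 6 5 2, .mk 95 6 5 1, 621, 15, 10, 15⟩ (by decide +kernel)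
theorem zR892 : Cov (ix [4, 5, 6, 7, 8, 9, 10, 11, 12, 13]) ⟨32764, 3, 32768⟩ ⟨1, 1, 32⟩ ⟨23, 1, 48⟩ :=
  Cov.leafU ⟨.mk 94 5 5 2, .mk 73 10 5 25, .mk 80 20 5 48, .mk 113 11 5 65, .mk 93 6 5 2, .mk 95 6 5 1, 710, 15, 10, 15⟩ (by decide +kernel)
theorem zR893 : Cov (ix [4, 5, 6]) ⟨32767, 1, 32768⟩ ⟨1, 1, 32⟩ ⟨23, 1, 48⟩ :=
  Cov.leafU ⟨.mk 94 5 5 2, .mk 73 10 5 25, .bot 128 22, .mk 113 11 5 65, .mk 93 6 5 2, .mk 95 6 5 1, 651, 15, 10, 15⟩ (by decide +kernel)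
theorem zR894 : Cov (ix [7, 8, 9, 10, 11, 12, 13]) ⟨131068, 3, 131072⟩ ⟨1, 1, 32⟩ ⟨23, 1, 48⟩ :=
  Cov.leafU ⟨.mk 94 5 5 2, .mk 73 10 5 25, .mk 80 22 5 48, .mk 113 11 5 65, .mk 93 6 5 2, .mk 95 6 5 1, 749, 15, 10, 15⟩ (by decide +kernel)
theorem zR895 : Cov (ix [7, 8, 13]) ⟨131071, 1, 131072⟩ ⟨1, 1, 32⟩ ⟨23, 1, 48⟩ :=
  Cov.leafU ⟨.mk 94 5 5 2, .mk 73 10 5 25, .bot 128 24, .mk 113 11 5 65, .mk 93 6 5 2, .mk 95 6 5 1, 680, 15, 10, 15⟩ (by decide +kernel)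
theorem zR896 : Cov (ix [9, 10, 11, 12]) ⟨524284, 3, 524288⟩ ⟨1, 1, 32⟩ ⟨23, 1, 48⟩ :=
  Cov.leafU ⟨.mk 94 5 5 2, .mk 73 10 5 25, .mk 80 24 5 48, .mk 113 11 5 65, .mk 93 6 5 2, .mk 95 6 5 1, 776, 15, 10, 15⟩ (by decide +kernel)
theorem zR897 : Cov (ix [9, 10, 11, 12]) ⟨524287, 1, 524288⟩ ⟨1, 1, 32⟩ ⟨23, 1, 48⟩ :=
  Cov.leafU ⟨.mk 94 5 5 2, .mk 73 10 5 25, .bot 128 26, .mk 113 11 5 65, .mk 93 6 5 2, .mk 95 6 5 1, 698, 15, 10, 15⟩ (by decide +kernel)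

end Crest.Agent.R163.Bx
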