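import Crest.Agent.R163.BzV

set_option autoImplicit false
set_option Elab.async false

namespace Crest.Agent.R163.Bx

theorem zR913 : Cov (ix [0, 1, 2, 3, 4, 5, 6, 7, 8, 9, 10, 11, 12, 13, 16, 17]) ⟨124, 3, 128⟩ ⟨1, 3, 16⟩ ⟨4, 1, 12⟩ :=
  Cov.leafU ⟨.mk 88 5 5 6, .mk 127 9 5 76, .mk 80 12 5 48, .mk 88 8 5 34, .mk 82 6 5 6, .mk 88 6 5 4, 505, 15, 10, 15⟩ (by decide +kernel)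
theorem zR914 : Cov (ix [13]) ⟨124, 3, 128⟩ ⟨1, 1, 16⟩ ⟨5, 1, 12⟩ :=
  Cov.leafU ⟨.mk 91 5 5 3, .mk 80 9 5 29, .mk 80 12 5 48, .mk 83 9 5 56, .mk 89 6 5 5, .mk 93 6 5 4, 496, 15, 10, 15⟩ (by decide +kernel)
theorem zR915 : Cov (ix [0, 1, 2, 3, 4, 5, 6, 7, 8, 9, 10, 11, 12, 16, 17]) ⟨124, 3, 128⟩ ⟨1, 1, 16⟩ ⟨20, 3, 48⟩ :=
  Cov.leafU ⟨.mk 91 5 5 3, .mk 80 9 5 29, .mk 80 12 5 48, .mk 93 9 5 46, .mk 88 6 5 4, .mk 92 6 5 3, 538, 15, 10, 15⟩ (by decide +kernel)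
theorem zR916 : Cov (ix [0, 1, 2, 3, 4, 5, 6, 7, 8, 9, 10, 11, 12, 16, 17]) ⟨124, 3, 128⟩ ⟨1, 1, 16⟩ ⟨23, 1, 48⟩ :=
  Cov.leafU ⟨.mk 91 5 5 3, .mk 80 9 5 29, .mk 80 12 5 48, .mk 109 10 5 54, .mk 91 6 5 3, .mk 95 6 5 2, 538, 15, 10, 15⟩ (by decide +kernel)
theorem zR919 : Cov (ix [0, 1, 2, 3, 12, 13, 16, 17]) ⟨124, 3, 128⟩ ⟨1, 1, 8⟩ ⟨5, 1, 12⟩ :=
  Cov.leafU ⟨.mk 86 5 5 4, .mk 75 8 5 26, .mk 80 12 5 48, .mk 114 9 5 63, .mk 85 6 5 5, .mk 93 6 5 4, 495, 15, 10, 15⟩ (by decide +kernel)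
theorem zR920 : Cov (ix [4, 5, 6, 7, 8, 9, 10, 11]) ⟨124, 3, 128⟩ ⟨2, 1, 16⟩ ⟨5, 1, 12⟩ :=
  Cov.leafU ⟨.mk 88 5 5 3, .mk 128 9 5 29, .mk 80 12 5 48, .mk 104 9 5 53, .mk 86 6 5 4, .mk 93 6 5 4, 506, 15, 10, 15⟩ (by decide +kernel)
theorem zR921 : Cov (ix [4, 5, 6, 7, 8, 9, 10, 11]) ⟨124, 3, 128⟩ ⟨3, 1, 16⟩ ⟨5, 1, 12⟩ :=
  Cov.leafU ⟨.mk 85 5 5 3, .mk 87 8 5 14, .mk 80 12 5 48, .mk 126 9 5 51, .mk 84 6 5 4, .mk 93 6 5 4, 504, 15, 10, 15⟩ (by decide +kernel)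
theorem zR926 : Cov (ix [0, 1, 2, 3, 4, 5, 6, 7, 8, 9, 10, 11, 12, 13, 16, 17]) ⟨508, 3, 512⟩ ⟨1, 3, 16⟩ ⟨4, 1, 12⟩ :=
  Cov.leafU ⟨.mk 88 5 5 5, .mk 122 9 5 74, .mk 80 14 5 48, .mk 86 8 5 33, .mk 83 6 5 6, .mk 88 6 5 3, 545, 15, 10, 15⟩ (by decide +kernel)
theorem zR927 : Cov (ix [0, 1, 2, 3, 4, 5, 6, 7, 8, 9, 10, 11, 12, 13, 16, 17]) ⟨2044, 3, 2048⟩ ⟨1, 3, 16⟩ ⟨4, 1, 12⟩ :=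
  Cov.leafU ⟨.mk 88 5 5 5, .mk 121 9 5 73, .mk 80 16 5 48, .mk 85 8 5 33, .mk 83 6 5 6, .mk 88 6 5 3, 584, 15, 10, 15⟩ (by decide +kernel)
theorem zR928 : Cov (ix [0, 1, 2, 3, 4, 5, 6, 7, 8, 9, 10, 11, 12, 13, 16, 17]) ⟨8188, 3, 8192⟩ ⟨1, 3, 16⟩ ⟨4, 1, 12⟩ :=
  Cov.leafU ⟨.mk 88 5 5 5, .mk 121 9 5 73, .mk 80 18 5 48, .mk 85 8 5 33, .mk 83 6 5 6, .mk 88 6 5 3, 624, 15, 10, 15⟩ (by decide +kernel)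
theorem zR929 : Cov (ix [0, 1, 2, 3, 4, 5, 6, 7, 8, 9, 10, 11, 12, 13, 16, 17]) ⟨32764, 3, 32768⟩ ⟨1, 3, 16⟩ ⟨4, 1, 12⟩ :=
  Cov.leafU ⟨.mk 88 5 5 5, .mk 121 9 5 73, .mk 80 20 5 48, .mk 85 8 5 33, .mk 83 6 5 6, .mk 88 6 5 3, 663, 15, 10, 15⟩ (by decide +kernel)
theorem zR930 : Cov (ix [0, 1, 2, 3, 4, 5, 6, 7, 8, 9, 10, 11, 12, 13, 16, 17]) ⟨131068, 3, 131072⟩ ⟨1, 3, 16⟩ ⟨4, 1, 12⟩ :=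
  Cov.leafU ⟨.mk 88 5 5 5, .mk 121 9 5 73, .mk 80 22 5 48, .mk 85 8 5 33, .mk 83 6 5 6, .mk 88 6 5 3, 702, 15, 10, 15⟩ (by decide +kernel)
theorem zR931 : Cov (ix [13, 16]) ⟨131071, 1, 131072⟩ ⟨1, 3, 16⟩ ⟨4, 1, 12⟩ :=
  Cov.leafU ⟨.mk 88 5 5 5, .mk 121 9 5 73, .bot 128 24, .mk 85 8 5 33, .mk 83 6 5 6, .mk 88 6 5 3, 617, 15, 10, 15⟩ (by decide +kernel)
theorem zR932 : Cov (ix [0, 1, 2, 3, 4, 5, 6, 7, 8, 9, 10, 11, 12, 17]) ⟨524284, 3, 524288⟩ ⟨1, 3, 16⟩ ⟨4, 1, 12⟩ :=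
  Cov.leafU ⟨.mk 88 5 5 5, .mk 121 9 5 73, .mk 80 24 5 48, .mk 85 8 5 33, .mk 83 6 5 6, .mk 88 6 5 3, 742, 15, 10, 15⟩ (by decide +kernel)
theorem zR933 : Cov (ix [0, 1, 2, 3, 4, 5, 6, 7, 8, 9, 10, 11, 12, 17]) ⟨524287, 1, 524288⟩ ⟨1, 3, 16⟩ ⟨4, 1, 12⟩ :=
  Cov.leafU ⟨.mk 88 5 5 5, .mk 121 9 5 73, .bot 128 26, .mk 85 8 5 33, .mk 83 6 5 6, .mk 88 6 5 3, 661, 15, 10, 15⟩ (by decide +kernel)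
theorem zR941 : Cov (ix [13]) ⟨508, 3, 512⟩ ⟨1, 1, 16⟩ ⟨5, 1, 12⟩ :=
  Cov.leafU ⟨.mk 91 5 5 2, .mk 74 9 5 26, .mk 80 14 5 48, .mk 77 9 5 53, .mk 89 6 5 4, .mk 93 6 5 3, 536, 15, 10, 15⟩ (by decide +kernel)
theorem zR942 : Cov (ix [0, 1, 2, 3, 4, 5, 6, 7, 8, 9, 10, 11, 12, 16, 17]) ⟨508, 3, 512⟩ ⟨1, 1, 16⟩ ⟨20, 3, 48⟩ :=
  Cov.leafU ⟨.mk 91 5 5 2, .mk 74 9 5 26, .mk 80 14 5 48, .mk 87 9 5 42, .mk 89 6 5 4, .mk 93 6 5 3, 578, 15, 10, 15⟩ (by decide +kernel)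
theorem zR943 : Cov (ix [0, 1, 2, 3, 4, 5, 6, 7, 8, 9, 10, 11, 12, 16, 17]) ⟨508, 3, 512⟩ ⟨1, 1, 16⟩ ⟨23, 1, 48⟩ :=
  Cov.leafU ⟨.mk 91 5 5 2, .mk 74 9 5 26, .mk 80 14 5 48, .mk 96 10 5 47, .mk 91 6 5 3, .mk 95 6 5 1, 578, 15, 10, 15⟩ (by decide +kernel)
theorem zR946 : Cov (ix [0, 1, 2, 3, 4, 5, 6, 8, 11, 12, 13, 16, 17]) ⟨508, 3, 512⟩ ⟨1, 1, 8⟩ ⟨5, 1, 12⟩ :=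
  Cov.leafU ⟨.mk 87 5 5 4, .mk 73 8 5 25, .mk 80 14 5 48, .mk 109 9 5 61, .mk 85 6 5 5, .mk 93 6 5 3, 535, 15, 10, 15⟩ (by decide +kernel)
theorem zR947 : Cov (ix [7, 9, 10]) ⟨508, 3, 512⟩ ⟨2, 1, 16⟩ ⟨5, 1, 12⟩ :=
  Cov.leafU ⟨.mk 88 5 5 2, .mk 122 9 5 26, .mk 80 14 5 48, .mk 99 9 5 51, .mk 87 6 5 4, .mk 93 6 5 3, 545, 15, 10, 15⟩ (by decide +kernel)
theorem zR948 : Cov (ix [7, 9, 10]) ⟨508, 3, 512⟩ ⟨3, 1, 16⟩ ⟨5, 1, 12⟩ :=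
  Cov.leafU ⟨.mk 85 5 5 2, .mk 85 8 5 13, .mk 80 14 5 48, .mk 121 9 5 49, .mk 84 6 5 4, .mk 93 6 5 3, 544, 15, 10, 15⟩ (by decide +kernel)
theorem zR952 : Cov (ix [12, 13]) ⟨2044, 3, 2048⟩ ⟨1, 1, 16⟩ ⟨5, 1, 12⟩ :=
  Cov.leafU ⟨.mk 91 5 5 2, .mk 73 9 5 25, .mk 80 16 5 48, .mk 76 9 5 52, .mk 89 6 5 4, .mk 93 6 5 3, 575, 15, 10, 15⟩ (by decide +kernel)
theorem zR953 : Cov (ix [0, 1, 2, 3, 4, 5, 6, 7, 8, 9, 10, 11, 16, 17]) ⟨2044, 3, 2048⟩ ⟨1, 1, 16⟩ ⟨20, 3, 48⟩ :=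
  Cov.leafU ⟨.mk 91 5 5 2, .mk 73 9 5 25, .mk 80 16 5 48, .mk 86 9 5 42, .mk 89 6 5 4, .mk 93 6 5 3, 617, 15, 10, 15⟩ (by decide +kernel)
theorem zR954 : Cov (ix [0, 1, 2, 3, 4, 5, 6, 7, 8, 9, 10, 11, 16, 17]) ⟨2044, 3, 2048⟩ ⟨1, 1, 16⟩ ⟨23, 1, 48⟩ :=
  Cov.leafU ⟨.mk 91 5 5 2, .mk 73 9 5 25, .mk 80 16 5 48, .mk 93 10 5 45, .mk 91 6 5 3, .mk 95 6 5 1, 617, 15, 10, 15⟩ (by decide +kernel)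
theorem zR957 : Cov (ix [0, 1, 2, 3, 4, 5, 6, 7, 8, 9, 10, 11, 12, 13, 16, 17]) ⟨2044, 3, 2048⟩ ⟨1, 1, 8⟩ ⟨5, 1, 12⟩ :=
  Cov.leafU ⟨.mk 87 5 5 4, .mk 73 8 5 25, .mk 80 16 5 48, .mk 108 9 5 60, .mk 85 6 5 5, .mk 93 6 5 3, 574, 15, 10, 15⟩ (by decide +kernel)
theorem zR959 : Cov (ix [12, 13]) ⟨8188, 3, 8192⟩ ⟨1, 1, 16⟩ ⟨5, 1, 12⟩ :=
  Cov.leafU ⟨.mk 91 5 5 2, .mk 73 9 5 25, .mk 80 18 5 48, .mk 75 9 5 51, .mk 89 6 5 4, .mk 93 6 5 3, 615, 15, 10, 15⟩ (by decide +kernel)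
theorem zR960 : Cov (ix [0, 1, 2, 3, 4, 5, 6, 7, 8, 9, 10, 11, 16, 17]) ⟨8188, 3, 8192⟩ ⟨1, 1, 16⟩ ⟨20, 3, 48⟩ :=
  Cov.leafU ⟨.mk 91 5 5 2, .mk 73 9 5 25, .mk 80 18 5 48, .mk 85 9 5 41, .mk 89 6 5 4, .mk 93 6 5 3, 657, 15, 10, 15⟩ (by decide +kernel)

end Crest.Agent.R163.Bx
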