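import Crest.Agent.R163.BzV

set_option autoImplicit false
set_option Elab.async false

namespace Crest.Agent.R163.Bx

theorem zR961 : Cov (ix [0, 1, 2, 3, 4, 5, 6, 7, 8, 9, 10, 11, 16, 17]) ⟨8188, 3, 8192⟩ ⟨1, 1, 16⟩ ⟨23, 1, 48⟩ :=
  Cov.leafU ⟨.mk 91 5 5 2, .mk 73 9 5 25, .mk 80 18 5 48, .mk 92 10 5 44, .mk 91 6 5 3, .mk 95 6 5 1, 657, 15, 10, 15⟩ (by decide +kernel)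
theorem zR964 : Cov (ix [16]) ⟨8191, 1, 8192⟩ ⟨1, 1, 16⟩ ⟨20, 3, 48⟩ :=
  Cov.leafU ⟨.mk 91 5 5 2, .mk 73 9 5 25, .bot 128 20, .mk 85 9 5 41, .mk 89 6 5 4, .mk 93 6 5 3, 591, 15, 10, 15⟩ (by decide +kernel)
theorem zR965 : Cov (ix [0, 1, 2, 3, 4, 5, 6, 7, 8, 9, 10, 11, 12, 13, 17]) ⟨32764, 3, 32768⟩ ⟨1, 1, 16⟩ ⟨20, 3, 48⟩ :=
  Cov.leafU ⟨.mk 91 5 5 2, .mk 73 9 5 25, .mk 80 20 5 48, .mk 85 9 5 41, .mk 89 6 5 4, .mk 93 6 5 3, 696, 15, 10, 15⟩ (by decide +kernel)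
theorem zR966 : Cov (ix [0, 1, 2, 3, 4, 5, 6, 13, 17]) ⟨32767, 1, 32768⟩ ⟨1, 1, 16⟩ ⟨20, 3, 48⟩ :=
  Cov.leafU ⟨.mk 91 5 5 2, .mk 73 9 5 25, .bot 128 22, .mk 85 9 5 41, .mk 89 6 5 4, .mk 93 6 5 3, 635, 15, 10, 15⟩ (by decide +kernel)
theorem zR967 : Cov (ix [7, 8, 9, 10, 11, 12]) ⟨131068, 3, 131072⟩ ⟨1, 1, 16⟩ ⟨20, 3, 48⟩ :=
  Cov.leafU ⟨.mk 91 5 5 2, .mk 73 9 5 25, .mk 80 22 5 48, .mk 85 9 5 41, .mk 89 6 5 4, .mk 93 6 5 3, 735, 15, 10, 15⟩ (by decide +kernel)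
theorem zR968 : Cov (ix [7, 8, 9, 10, 11, 12]) ⟨131071, 1, 131072⟩ ⟨1, 1, 16⟩ ⟨20, 3, 48⟩ :=
  Cov.leafU ⟨.mk 91 5 5 2, .mk 73 9 5 25, .bot 128 24, .mk 85 9 5 41, .mk 89 6 5 4, .mk 93 6 5 3, 664, 15, 10, 15⟩ (by decide +kernel)
theorem zR973 : Cov (ix [16]) ⟨8191, 1, 8192⟩ ⟨1, 1, 16⟩ ⟨23, 1, 48⟩ :=
  Cov.leafU ⟨.mk 91 5 5 2, .mk 73 9 5 25, .bot 128 20, .mk 92 10 5 44, .mk 91 6 5 3, .mk 95 6 5 1, 595, 15, 10, 15⟩ (by decide +kernel)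
theorem zR974 : Cov (ix [0, 1, 2, 3, 4, 5, 6, 7, 8, 9, 10, 11, 12, 13, 17]) ⟨32764, 3, 32768⟩ ⟨1, 1, 16⟩ ⟨23, 1, 48⟩ :=
  Cov.leafU ⟨.mk 91 5 5 2, .mk 73 9 5 25, .mk 80 20 5 48, .mk 92 10 5 44, .mk 91 6 5 3, .mk 95 6 5 1, 696, 15, 10, 15⟩ (by decide +kernel)
theorem zR975 : Cov (ix [0, 1, 2, 3, 4, 17]) ⟨32767, 1, 32768⟩ ⟨1, 1, 16⟩ ⟨23, 1, 48⟩ :=
  Cov.leafU ⟨.mk 91 5 5 2, .mk 73 9 5 25, .bot 128 22, .mk 92 10 5 44, .mk 91 6 5 3, .mk 95 6 5 1, 638, 15, 10, 15⟩ (by decide +kernel)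
theorem zR976 : Cov (ix [5, 6, 7, 8, 9, 10, 11, 12, 13]) ⟨131068, 3, 131072⟩ ⟨1, 1, 16⟩ ⟨23, 1, 48⟩ :=
  Cov.leafU ⟨.mk 91 5 5 2, .mk 73 9 5 25, .mk 80 22 5 48, .mk 92 10 5 44, .mk 91 6 5 3, .mk 95 6 5 1, 736, 15, 10, 15⟩ (by decide +kernel)
theorem zR977 : Cov (ix [5, 6, 13]) ⟨131071, 1, 131072⟩ ⟨1, 1, 16⟩ ⟨23, 1, 48⟩ :=
  Cov.leafU ⟨.mk 91 5 5 2, .mk 73 9 5 25, .bot 128 24, .mk 92 10 5 44, .mk 91 6 5 3, .mk 95 6 5 1, 668, 15, 10, 15⟩ (by decide +kernel)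
theorem zR978 : Cov (ix [7, 8, 9, 10, 11, 12]) ⟨524284, 3, 524288⟩ ⟨1, 1, 16⟩ ⟨23, 1, 48⟩ :=
  Cov.leafU ⟨.mk 91 5 5 2, .mk 73 9 5 25, .mk 80 24 5 48, .mk 92 10 5 44, .mk 91 6 5 3, .mk 95 6 5 1, 775, 15, 10, 15⟩ (by decide +kernel)
theorem zR979 : Cov (ix [7, 8, 9, 10, 11, 12]) ⟨524287, 1, 524288⟩ ⟨1, 1, 16⟩ ⟨23, 1, 48⟩ :=
  Cov.leafU ⟨.mk 91 5 5 2, .mk 73 9 5 25, .bot 128 26, .mk 92 10 5 44, .mk 91 6 5 3, .mk 95 6 5 1, 697, 15, 10, 15⟩ (by decide +kernel)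
theorem zR988 : Cov (ix [0, 1, 2, 3, 4, 5, 6, 7, 8, 9, 10, 11, 12, 13, 16, 17]) ⟨8188, 3, 8192⟩ ⟨1, 1, 8⟩ ⟨5, 1, 12⟩ :=
  Cov.leafU ⟨.mk 87 5 5 4, .mk 73 8 5 25, .mk 80 18 5 48, .mk 107 9 5 59, .mk 85 6 5 5, .mk 93 6 5 3, 613, 15, 10, 15⟩ (by decide +kernel)
theorem zR989 : Cov (ix [0, 1, 2, 3, 4, 5, 6, 7, 8, 9, 10, 11, 12, 13, 16, 17]) ⟨32764, 3, 32768⟩ ⟨1, 1, 8⟩ ⟨5, 1, 12⟩ :=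
  Cov.leafU ⟨.mk 87 5 5 4, .mk 73 8 5 25, .mk 80 20 5 48, .mk 107 9 5 59, .mk 85 6 5 5, .mk 93 6 5 3, 652, 15, 10, 15⟩ (by decide +kernel)
theorem zR990 : Cov (ix [0, 1, 2, 3, 4, 5, 6, 7, 8, 9, 10, 11, 12, 13, 16, 17]) ⟨131068, 3, 131072⟩ ⟨1, 1, 8⟩ ⟨5, 1, 12⟩ :=
  Cov.leafU ⟨.mk 87 5 5 4, .mk 73 8 5 25, .mk 80 22 5 48, .mk 107 9 5 59, .mk 85 6 5 5, .mk 93 6 5 3, 692, 15, 10, 15⟩ (by decide +kernel)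
theorem zR991 : Cov (ix [0, 1, 2, 3, 4, 5, 6, 7, 8, 9, 10, 11, 12, 13, 16, 17]) ⟨524284, 3, 524288⟩ ⟨1, 1, 8⟩ ⟨5, 1, 12⟩ :=
  Cov.leafU ⟨.mk 87 5 5 4, .mk 73 8 5 25, .mk 80 24 5 48, .mk 107 9 5 59, .mk 85 6 5 5, .mk 93 6 5 3, 731, 15, 10, 15⟩ (by decide +kernel)
theorem zR992 : Cov (ix [13, 16, 17]) ⟨524287, 1, 524288⟩ ⟨1, 1, 8⟩ ⟨5, 1, 12⟩ :=
  Cov.leafU ⟨.mk 87 5 5 4, .mk 73 8 5 25, .bot 128 26, .mk 107 9 5 59, .mk 85 6 5 5, .mk 93 6 5 3, 647, 15, 10, 15⟩ (by decide +kernel)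
theorem zR993 : Cov (ix [0, 1, 2, 3, 4, 5, 6, 7, 8, 10, 11, 12]) ⟨524287, 1, 524288⟩ ⟨1, 1, 8⟩ ⟨20, 3, 48⟩ :=
  Cov.leafU ⟨.mk 87 5 5 4, .mk 73 8 5 25, .bot 128 26, .mk 117 9 5 50, .mk 85 6 5 5, .mk 93 6 5 3, 683, 15, 10, 15⟩ (by decide +kernel)
theorem zR994 : Cov (ix [9]) ⟨2097148, 3, 2097152⟩ ⟨1, 1, 8⟩ ⟨20, 3, 48⟩ :=
  Cov.leafU ⟨.mk 87 5 5 4, .mk 73 8 5 25, .mk 80 26 5 48, .mk 117 9 5 50, .mk 85 6 5 5, .mk 93 6 5 3, 789, 15, 10, 15⟩ (by decide +kernel)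
theorem zR995 : Cov (ix [9]) ⟨2097151, 1, 2097152⟩ ⟨1, 1, 8⟩ ⟨20, 3, 48⟩ :=
  Cov.leafU ⟨.mk 87 5 5 4, .mk 73 8 5 25, .bot 128 28, .mk 117 9 5 50, .mk 85 6 5 5, .mk 93 6 5 3, 700, 15, 10, 15⟩ (by decide +kernel)
theorem zR998 : Cov (ix [0, 1, 2, 3, 4, 5, 6, 12]) ⟨524287, 1, 524288⟩ ⟨1, 1, 8⟩ ⟨23, 1, 48⟩ :=
  Cov.leafU ⟨.mk 87 5 5 4, .mk 73 8 5 25, .bot 128 26, .mk 81 9 5 33, .mk 87 6 5 4, .mk 95 6 5 1, 685, 15, 10, 15⟩ (by decide +kernel)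
theorem zR999 : Cov (ix [7, 8, 9, 10, 11]) ⟨2097148, 3, 2097152⟩ ⟨1, 1, 8⟩ ⟨23, 1, 48⟩ :=
  Cov.leafU ⟨.mk 87 5 5 4, .mk 73 8 5 25, .mk 80 26 5 48, .mk 81 9 5 33, .mk 87 6 5 4, .mk 95 6 5 1, 801, 15, 10, 15⟩ (by decide +kernel)
theorem zR1000 : Cov (ix [7, 8, 10, 11]) ⟨2097151, 1, 2097152⟩ ⟨1, 1, 8⟩ ⟨23, 1, 48⟩ :=
  Cov.leafU ⟨.mk 87 5 5 4, .mk 73 8 5 25, .bot 128 28, .mk 81 9 5 33, .mk 87 6 5 4, .mk 95 6 5 1, 715, 15, 10, 15⟩ (by decide +kernel)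
theorem zR1001 : Cov (ix [9]) ⟨8388604, 3, 8388608⟩ ⟨1, 1, 8⟩ ⟨23, 1, 48⟩ :=
  Cov.leafU ⟨.mk 87 5 5 4, .mk 73 8 5 25, .mk 80 28 5 48, .mk 81 9 5 33, .mk 87 6 5 4, .mk 95 6 5 1, 828, 15, 10, 15⟩ (by decide +kernel)
theorem zR1002 : Cov (ix [9]) ⟨8388607, 1, 8388608⟩ ⟨1, 1, 8⟩ ⟨23, 1, 48⟩ :=
  Cov.leafU ⟨.mk 87 5 5 4, .mk 73 8 5 25, .bot 128 30, .mk 81 9 5 33, .mk 87 6 5 4, .mk 95 6 5 1, 732, 15, 10, 15⟩ (by decide +kernel)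
theorem zR1020 : Cov (ix [13]) ⟨28, 3, 32⟩ ⟨1, 1, 4⟩ ⟨2, 1, 6⟩ :=
  Cov.leafU ⟨.mk 75 5 5 8, .mk 75 7 5 25, .mk 80 10 5 48, .mk 109 8 5 55, .mk 76 6 5 8, .mk 89 6 5 7, 415, 15, 10, 15⟩ (by decide +kernel)
theorem zR1021 : Cov (ix [6, 7, 8, 10, 11, 12]) ⟨14, 1, 16⟩ ⟨1, 1, 4⟩ ⟨2, 1, 6⟩ :=
  Cov.leafU ⟨.mk 74 5 5 7, .mk 77 7 5 24, .mk 96 10 5 32, .mk 112 8 5 51, .mk 76 6 5 8, .mk 88 6 5 6, 411, 15, 10, 15⟩ (by decide +kernel)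
theorem zR1022 : Cov (ix [0, 1, 2, 3, 4, 5, 9, 16, 17]) ⟨14, 1, 16⟩ ⟨2, 1, 8⟩ ⟨2, 1, 6⟩ :=
  Cov.leafU ⟨.mk 77 5 5 5, .mk 66 7 5 13, .mk 96 10 5 32, .mk 105 8 5 44, .mk 78 6 5 6, .mk 88 6 5 6, 421, 15, 10, 15⟩ (by decide +kernel)

end Crest.Agent.R163.Bx
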