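import Crest.Agent.R163.BzV

set_option autoImplicit false
set_option Elab.async false

namespace Crest.Agent.R163.Bx

theorem zR1023 : Cov (ix [0, 1, 2, 3, 4, 5, 9, 16, 17]) ⟨14, 1, 16⟩ ⟨3, 1, 8⟩ ⟨2, 1, 6⟩ :=
  Cov.leafU ⟨.mk 72 5 5 5, .mk 88 7 5 13, .mk 96 10 5 32, .mk 123 8 5 40, .mk 73 6 5 5, .mk 88 6 5 6, 421, 15, 10, 15⟩ (by decide +kernel)
theorem zR1026 : Cov (ix [8, 10, 11, 12]) ⟨30, 1, 32⟩ ⟨1, 1, 4⟩ ⟨2, 1, 6⟩ :=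
  Cov.leafU ⟨.mk 76 5 5 7, .mk 74 7 5 24, .mk 96 11 5 32, .mk 105 8 5 51, .mk 77 6 5 8, .mk 90 6 5 6, 431, 15, 10, 15⟩ (by decide +kernel)
theorem zR1027 : Cov (ix [0, 1, 2, 3, 4, 5, 6, 7, 9, 16, 17]) ⟨30, 1, 32⟩ ⟨2, 1, 8⟩ ⟨2, 1, 6⟩ :=
  Cov.leafU ⟨.mk 79 5 5 4, .mk 126 8 5 25, .mk 96 11 5 32, .mk 98 8 5 44, .mk 78 6 5 6, .mk 90 6 5 6, 441, 15, 10, 15⟩ (by decide +kernel)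
theorem zR1028 : Cov (ix [0, 1, 2, 3, 4, 5, 6, 7, 9, 16, 17]) ⟨30, 1, 32⟩ ⟨3, 1, 8⟩ ⟨2, 1, 6⟩ :=
  Cov.leafU ⟨.mk 73 5 5 4, .mk 86 7 5 13, .mk 96 11 5 32, .mk 117 8 5 40, .mk 74 6 5 5, .mk 90 6 5 6, 441, 15, 10, 15⟩ (by decide +kernel)
theorem zR1033 : Cov (ix [3, 4, 5, 6, 7, 8, 9, 10, 11, 12, 13]) ⟨14, 1, 16⟩ ⟨1, 1, 2⟩ ⟨2, 1, 6⟩ :=
  Cov.leafU ⟨.mk 116 6 5 24, .mk 72 6 5 23, .mk 96 10 5 32, .mk 82 7 5 29, .mk 121 7 5 23, .mk 88 6 5 6, 400, 15, 10, 15⟩ (by decide +kernel)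
theorem zR1034 : Cov (ix [0, 1, 2, 16, 17]) ⟨14, 1, 16⟩ ⟨2, 1, 4⟩ ⟨2, 1, 6⟩ :=
  Cov.leafU ⟨.mk 126 6 5 13, .mk 121 7 5 23, .mk 96 10 5 32, .mk 75 7 5 22, .mk 66 6 5 6, .mk 88 6 5 6, 410, 15, 10, 15⟩ (by decide +kernel)
theorem zR1035 : Cov (ix [0, 1, 2, 16, 17]) ⟨14, 1, 16⟩ ⟨3, 1, 4⟩ ⟨2, 1, 6⟩ :=
  Cov.leafU ⟨.mk 105 6 5 13, .mk 83 6 5 12, .mk 96 10 5 32, .mk 93 7 5 18, .mk 111 7 5 13, .mk 88 6 5 6, 410, 15, 10, 15⟩ (by decide +kernel)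
theorem zR1038 : Cov (ix [4, 5, 6, 7, 8, 10, 11, 12, 13]) ⟨30, 1, 32⟩ ⟨1, 1, 2⟩ ⟨2, 1, 6⟩ :=
  Cov.leafU ⟨.mk 118 6 5 24, .mk 72 6 5 24, .mk 96 11 5 32, .mk 79 7 5 29, .mk 121 7 5 24, .mk 90 6 5 6, 420, 15, 10, 15⟩ (by decide +kernel)
theorem zR1039 : Cov (ix [0, 1, 2, 3, 9, 16, 17]) ⟨30, 1, 32⟩ ⟨2, 1, 4⟩ ⟨2, 1, 6⟩ :=
  Cov.leafU ⟨.mk 65 5 5 7, .mk 121 7 5 24, .mk 96 11 5 32, .mk 72 7 5 22, .mk 66 6 5 6, .mk 90 6 5 6, 430, 15, 10, 15⟩ (by decide +kernel)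
theorem zR1040 : Cov (ix [0, 1, 2, 3, 9, 16, 17]) ⟨30, 1, 32⟩ ⟨3, 1, 4⟩ ⟨2, 1, 6⟩ :=
  Cov.leafU ⟨.mk 107 6 5 13, .mk 83 6 5 12, .mk 96 11 5 32, .mk 91 7 5 18, .mk 110 7 5 13, .mk 90 6 5 6, 430, 15, 10, 15⟩ (by decide +kernel)
theorem zR1045 : Cov (ix [12, 13]) ⟨124, 3, 128⟩ ⟨1, 1, 4⟩ ⟨2, 1, 6⟩ :=
  Cov.leafU ⟨.mk 77 5 5 7, .mk 73 7 5 25, .mk 80 12 5 48, .mk 101 8 5 52, .mk 77 6 5 8, .mk 90 6 5 6, 455, 15, 10, 15⟩ (by decide +kernel)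
theorem zR1046 : Cov (ix [4, 8, 11, 16]) ⟨124, 3, 128⟩ ⟨2, 1, 8⟩ ⟨2, 1, 6⟩ :=
  Cov.leafU ⟨.mk 80 5 5 4, .mk 123 8 5 26, .mk 80 12 5 48, .mk 94 8 5 45, .mk 79 6 5 6, .mk 90 6 5 6, 478, 15, 10, 15⟩ (by decide +kernel)
theorem zR1047 : Cov (ix [0, 1, 2, 3, 5, 6, 7, 9, 10, 17]) ⟨62, 1, 64⟩ ⟨2, 1, 8⟩ ⟨2, 1, 6⟩ :=
  Cov.leafU ⟨.mk 80 5 5 4, .mk 123 8 5 25, .mk 96 12 5 32, .mk 95 8 5 44, .mk 79 6 5 6, .mk 90 6 5 6, 462, 15, 10, 15⟩ (by decide +kernel)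
theorem zR1048 : Cov (ix [0, 1, 2, 3, 5, 6, 7, 9, 10, 17]) ⟨126, 1, 128⟩ ⟨2, 1, 8⟩ ⟨2, 1, 6⟩ :=
  Cov.leafU ⟨.mk 81 5 5 4, .mk 122 8 5 25, .mk 96 13 5 32, .mk 93 8 5 44, .mk 79 6 5 6, .mk 91 6 5 6, 481, 15, 10, 15⟩ (by decide +kernel)
theorem zR1051 : Cov (ix [0, 1, 2, 3, 4, 5, 6, 7, 8, 10, 11, 16, 17]) ⟨124, 3, 128⟩ ⟨3, 1, 8⟩ ⟨2, 1, 6⟩ :=
  Cov.leafU ⟨.mk 74 5 5 4, .mk 85 7 5 13, .mk 80 12 5 48, .mk 113 8 5 40, .mk 74 6 5 5, .mk 90 6 5 6, 477, 15, 10, 15⟩ (by decide +kernel)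
theorem zR1052 : Cov (ix [9]) ⟨62, 1, 64⟩ ⟨3, 1, 8⟩ ⟨2, 1, 6⟩ :=
  Cov.leafU ⟨.mk 74 5 5 4, .mk 85 7 5 13, .mk 96 12 5 32, .mk 114 8 5 40, .mk 74 6 5 5, .mk 90 6 5 6, 449, 15, 10, 15⟩ (by decide +kernel)
theorem zR1053 : Cov (ix [9]) ⟨126, 1, 128⟩ ⟨3, 1, 8⟩ ⟨2, 1, 6⟩ :=
  Cov.leafU ⟨.mk 75 5 5 4, .mk 85 7 5 13, .mk 96 13 5 32, .mk 112 8 5 39, .mk 74 6 5 5, .mk 91 6 5 6, 468, 15, 10, 15⟩ (by decide +kernel)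
theorem zR1058 : Cov (ix [13]) ⟨124, 3, 128⟩ ⟨1, 1, 2⟩ ⟨2, 1, 6⟩ :=
  Cov.leafU ⟨.mk 120 6 5 25, .mk 72 6 5 24, .mk 80 12 5 48, .mk 78 7 5 30, .mk 120 7 5 24, .mk 90 6 5 6, 444, 15, 10, 15⟩ (by decide +kernel)
theorem zR1059 : Cov (ix [4, 5, 6, 7, 8, 11, 12]) ⟨62, 1, 64⟩ ⟨1, 1, 2⟩ ⟨2, 1, 6⟩ :=
  Cov.leafU ⟨.mk 119 6 5 24, .mk 72 6 5 24, .mk 96 12 5 32, .mk 79 7 5 30, .mk 120 7 5 24, .mk 90 6 5 6, 440, 15, 10, 15⟩ (by decide +kernel)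
theorem zR1060 : Cov (ix [0, 1, 2, 3, 9, 10, 16, 17]) ⟨62, 1, 64⟩ ⟨2, 1, 4⟩ ⟨2, 1, 6⟩ :=
  Cov.leafU ⟨.mk 66 5 5 7, .mk 120 7 5 24, .mk 96 12 5 32, .mk 71 7 5 22, .mk 66 6 5 6, .mk 90 6 5 6, 450, 15, 10, 15⟩ (by decide +kernel)
theorem zR1061 : Cov (ix [0, 1, 2, 3, 9, 10, 16, 17]) ⟨62, 1, 64⟩ ⟨3, 1, 4⟩ ⟨2, 1, 6⟩ :=
  Cov.leafU ⟨.mk 108 6 5 13, .mk 84 6 5 13, .mk 96 12 5 32, .mk 90 7 5 18, .mk 110 7 5 14, .mk 90 6 5 6, 450, 15, 10, 15⟩ (by decide +kernel)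
theorem zR1064 : Cov (ix [4, 5, 6, 7, 8, 11, 12]) ⟨126, 1, 128⟩ ⟨1, 1, 2⟩ ⟨2, 1, 6⟩ :=
  Cov.leafU ⟨.mk 120 6 5 25, .mk 72 6 5 24, .mk 96 13 5 32, .mk 78 7 5 30, .mk 120 7 5 24, .mk 91 6 5 6, 460, 15, 10, 15⟩ (by decide +kernel)
theorem zR1065 : Cov (ix [0, 1, 2, 3, 9, 10, 16, 17]) ⟨126, 1, 128⟩ ⟨2, 1, 4⟩ ⟨2, 1, 6⟩ :=
  Cov.leafU ⟨.mk 66 5 5 7, .mk 120 7 5 24, .mk 96 13 5 32, .mk 70 7 5 22, .mk 66 6 5 6, .mk 91 6 5 6, 470, 15, 10, 15⟩ (by decide +kernel)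
theorem zR1066 : Cov (ix [0, 1, 2, 3, 9, 10, 16, 17]) ⟨126, 1, 128⟩ ⟨3, 1, 4⟩ ⟨2, 1, 6⟩ :=
  Cov.leafU ⟨.mk 108 6 5 13, .mk 84 6 5 13, .mk 96 13 5 32, .mk 90 7 5 18, .mk 110 7 5 14, .mk 91 6 5 6, 470, 15, 10, 15⟩ (by decide +kernel)
theorem zR1072 : Cov (ix [12, 13]) ⟨508, 3, 512⟩ ⟨1, 1, 4⟩ ⟨2, 1, 6⟩ :=
  Cov.leafU ⟨.mk 78 5 5 7, .mk 73 7 5 25, .mk 80 14 5 48, .mk 100 8 5 52, .mk 77 6 5 8, .mk 91 6 5 6, 495, 15, 10, 15⟩ (by decide +kernel)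
theorem zR1073 : Cov (ix [0, 1, 2, 3, 4, 5, 6, 7, 8, 9, 10, 11, 16, 17]) ⟨508, 3, 512⟩ ⟨1, 1, 4⟩ ⟨4, 1, 12⟩ :=
  Cov.leafU ⟨.mk 78 5 5 7, .mk 73 7 5 25, .mk 80 14 5 48, .mk 117 8 5 34, .mk 75 6 5 6, .mk 88 6 5 3, 522, 15, 10, 15⟩ (by decide +kernel)
theorem zR1074 : Cov (ix [0, 1, 2, 3, 4, 5, 6, 7, 8, 10, 11, 16, 17]) ⟨508, 3, 512⟩ ⟨1, 1, 4⟩ ⟨5, 1, 12⟩ :=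
  Cov.leafU ⟨.mk 78 5 5 7, .mk 73 7 5 25, .mk 80 14 5 48, .mk 86 8 5 38, .mk 77 6 5 7, .mk 93 6 5 3, 522, 15, 10, 15⟩ (by decide +kernel)
theorem zR1075 : Cov (ix [9]) ⟨254, 1, 256⟩ ⟨1, 1, 4⟩ ⟨5, 1, 12⟩ :=
  Cov.leafU ⟨.mk 78 5 5 7, .mk 73 7 5 25, .mk 96 14 5 32, .mk 86 8 5 38, .mk 77 6 5 7, .mk 93 6 5 3, 494, 15, 10, 15⟩ (by decide +kernel)
theorem zR1076 : Cov (ix [9]) ⟨510, 1, 512⟩ ⟨1, 1, 4⟩ ⟨5, 1, 12⟩ :=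
  Cov.leafU ⟨.mk 78 5 5 7, .mk 73 7 5 25, .mk 96 15 5 32, .mk 86 8 5 38, .mk 77 6 5 7, .mk 93 6 5 3, 514, 15, 10, 15⟩ (by decide +kernel)
theorem zR1081 : Cov (ix [7, 8, 13]) ⟨508, 3, 512⟩ ⟨1, 1, 2⟩ ⟨2, 1, 6⟩ :=
  Cov.leafU ⟨.mk 120 6 5 25, .mk 72 6 5 24, .mk 80 14 5 48, .mk 78 7 5 30, .mk 120 7 5 24, .mk 91 6 5 6, 496, 15, 10, 15⟩ (by decide +kernel)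
theorem zR1082 : Cov (ix [2, 3, 4, 5, 6, 9, 10, 11, 12]) ⟨254, 1, 256⟩ ⟨1, 1, 2⟩ ⟨2, 1, 6⟩ :=
  Cov.leafU ⟨.mk 120 6 5 25, .mk 72 6 5 24, .mk 96 14 5 32, .mk 78 7 5 30, .mk 120 7 5 24, .mk 91 6 5 6, 480, 15, 10, 15⟩ (by decide +kernel)
theorem zR1083 : Cov (ix [0, 1, 16, 17]) ⟨254, 1, 256⟩ ⟨2, 1, 4⟩ ⟨2, 1, 6⟩ :=
  Cov.leafU ⟨.mk 66 5 5 7, .mk 120 7 5 24, .mk 96 14 5 32, .mk 70 7 5 22, .mk 66 6 5 6, .mk 91 6 5 6, 490, 15, 10, 15⟩ (by decide +kernel)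

end Crest.Agent.R163.Bx
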