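import Crest.Agent.R163.BzV

set_option autoImplicit false
set_option Elab.async false

namespace Crest.Agent.R163.Bx

theorem zR1084 : Cov (ix [0, 1, 16, 17]) ⟨254, 1, 256⟩ ⟨3, 1, 4⟩ ⟨2, 1, 6⟩ :=
  Cov.leafU ⟨.mk 108 6 5 13, .mk 84 6 5 13, .mk 96 14 5 32, .mk 90 7 5 18, .mk 110 7 5 14, .mk 91 6 5 6, 490, 15, 10, 15⟩ (by decide +kernel)
theorem zR1087 : Cov (ix [0, 1, 2, 3, 4, 5, 6, 9, 10, 11, 12, 16, 17]) ⟨510, 1, 512⟩ ⟨1, 1, 2⟩ ⟨2, 1, 6⟩ :=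
  Cov.leafU ⟨.mk 120 6 5 25, .mk 72 6 5 24, .mk 96 15 5 32, .mk 78 7 5 30, .mk 120 7 5 24, .mk 91 6 5 6, 500, 15, 10, 15⟩ (by decide +kernel)
theorem zR1091 : Cov (ix [7, 8, 9, 10, 11, 12, 13]) ⟨2044, 3, 2048⟩ ⟨1, 1, 4⟩ ⟨2, 1, 6⟩ :=
  Cov.leafU ⟨.mk 78 5 5 7, .mk 73 7 5 25, .mk 80 16 5 48, .mk 99 8 5 51, .mk 77 6 5 8, .mk 91 6 5 6, 546, 15, 10, 15⟩ (by decide +kernel)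
theorem zR1092 : Cov (ix [0, 1, 2, 3, 4, 5, 6, 16, 17]) ⟨2044, 3, 2048⟩ ⟨2, 1, 8⟩ ⟨2, 1, 6⟩ :=
  Cov.leafU ⟨.mk 81 5 5 4, .mk 121 8 5 25, .mk 80 16 5 48, .mk 91 8 5 43, .mk 79 6 5 6, .mk 91 6 5 6, 557, 15, 10, 15⟩ (by decide +kernel)
theorem zR1093 : Cov (ix [0, 1, 2, 3, 4, 5, 6, 16, 17]) ⟨2044, 3, 2048⟩ ⟨3, 1, 8⟩ ⟨2, 1, 6⟩ :=
  Cov.leafU ⟨.mk 75 5 5 4, .mk 85 7 5 13, .mk 80 16 5 48, .mk 111 8 5 39, .mk 74 6 5 5, .mk 91 6 5 6, 556, 15, 10, 15⟩ (by decide +kernel)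
theorem zR1096 : Cov (ix [0, 1, 2, 3, 4, 5, 6, 7, 8, 9, 10, 11, 12, 13, 16, 17]) ⟨2044, 3, 2048⟩ ⟨1, 1, 2⟩ ⟨2, 1, 6⟩ :=
  Cov.leafU ⟨.mk 120 6 5 25, .mk 72 6 5 24, .mk 80 16 5 48, .mk 78 7 5 30, .mk 120 7 5 24, .mk 91 6 5 6, 535, 15, 10, 15⟩ (by decide +kernel)
theorem zR1098 : Cov (ix [3, 4, 5, 6, 7, 8, 9, 10, 11, 12, 13]) ⟨8188, 3, 8192⟩ ⟨1, 1, 4⟩ ⟨2, 1, 6⟩ :=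
  Cov.leafU ⟨.mk 78 5 5 7, .mk 73 7 5 25, .mk 80 18 5 48, .mk 99 8 5 51, .mk 77 6 5 8, .mk 91 6 5 6, 585, 15, 10, 15⟩ (by decide +kernel)
theorem zR1099 : Cov (ix [0, 1, 2, 16, 17]) ⟨8188, 3, 8192⟩ ⟨2, 1, 8⟩ ⟨2, 1, 6⟩ :=
  Cov.leafU ⟨.mk 81 5 5 4, .mk 121 8 5 25, .mk 80 18 5 48, .mk 91 8 5 43, .mk 79 6 5 6, .mk 91 6 5 6, 596, 15, 10, 15⟩ (by decide +kernel)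
theorem zR1100 : Cov (ix [0, 1, 2, 16, 17]) ⟨8188, 3, 8192⟩ ⟨3, 1, 8⟩ ⟨2, 1, 6⟩ :=
  Cov.leafU ⟨.mk 75 5 5 4, .mk 85 7 5 13, .mk 80 18 5 48, .mk 111 8 5 39, .mk 74 6 5 5, .mk 91 6 5 6, 595, 15, 10, 15⟩ (by decide +kernel)
theorem zR1103 : Cov (ix [0, 1, 2, 3, 4, 5, 6, 7, 8, 9, 10, 11, 12, 13, 16, 17]) ⟨8188, 3, 8192⟩ ⟨1, 1, 2⟩ ⟨2, 1, 6⟩ :=
  Cov.leafU ⟨.mk 120 6 5 25, .mk 72 6 5 24, .mk 80 18 5 48, .mk 78 7 5 30, .mk 120 7 5 24, .mk 91 6 5 6, 575, 15, 10, 15⟩ (by decide +kernel)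
theorem zR1105 : Cov (ix [0, 1, 2, 3, 4, 5, 6, 7, 8, 9, 10, 11, 12, 13, 16, 17]) ⟨32764, 3, 32768⟩ ⟨1, 1, 4⟩ ⟨2, 1, 6⟩ :=
  Cov.leafU ⟨.mk 78 5 5 7, .mk 73 7 5 25, .mk 80 20 5 48, .mk 99 8 5 51, .mk 77 6 5 8, .mk 91 6 5 6, 624, 15, 10, 15⟩ (by decide +kernel)
theorem zR1106 : Cov (ix [0, 1, 2, 3, 4, 5, 6, 7, 8, 9, 10, 11, 12, 13, 16, 17]) ⟨32764, 3, 32768⟩ ⟨1, 1, 2⟩ ⟨2, 1, 6⟩ :=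
  Cov.leafU ⟨.mk 120 6 5 25, .mk 72 6 5 24, .mk 80 20 5 48, .mk 78 7 5 30, .mk 120 7 5 24, .mk 91 6 5 6, 613, 15, 10, 15⟩ (by decide +kernel)
theorem zR1108 : Cov (ix [2, 3, 4, 5, 6, 7, 8, 9, 10, 11, 12, 13]) ⟨131068, 3, 131072⟩ ⟨1, 1, 4⟩ ⟨2, 1, 6⟩ :=
  Cov.leafU ⟨.mk 78 5 5 7, .mk 73 7 5 25, .mk 80 22 5 48, .mk 99 8 5 51, .mk 77 6 5 8, .mk 91 6 5 6, 664, 15, 10, 15⟩ (by decide +kernel)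
theorem zR1109 : Cov (ix [0, 1, 16, 17]) ⟨131068, 3, 131072⟩ ⟨2, 1, 8⟩ ⟨2, 1, 6⟩ :=
  Cov.leafU ⟨.mk 81 5 5 4, .mk 121 8 5 25, .mk 80 22 5 48, .mk 91 8 5 43, .mk 79 6 5 6, .mk 91 6 5 6, 675, 15, 10, 15⟩ (by decide +kernel)
theorem zR1110 : Cov (ix [0, 1, 16, 17]) ⟨131068, 3, 131072⟩ ⟨3, 1, 8⟩ ⟨2, 1, 6⟩ :=
  Cov.leafU ⟨.mk 75 5 5 4, .mk 85 7 5 13, .mk 80 22 5 48, .mk 111 8 5 39, .mk 74 6 5 5, .mk 91 6 5 6, 674, 15, 10, 15⟩ (by decide +kernel)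
theorem zR1113 : Cov (ix [4, 5, 6, 7, 8, 9, 10, 11, 12, 13]) ⟨524284, 3, 524288⟩ ⟨1, 1, 4⟩ ⟨2, 1, 6⟩ :=
  Cov.leafU ⟨.mk 78 5 5 7, .mk 73 7 5 25, .mk 80 24 5 48, .mk 99 8 5 51, .mk 77 6 5 8, .mk 91 6 5 6, 704, 15, 10, 15⟩ (by decide +kernel)
theorem zR1114 : Cov (ix [0, 1, 2, 3, 16, 17]) ⟨524284, 3, 524288⟩ ⟨2, 1, 8⟩ ⟨2, 1, 6⟩ :=
  Cov.leafU ⟨.mk 81 5 5 4, .mk 121 8 5 25, .mk 80 24 5 48, .mk 91 8 5 43, .mk 79 6 5 6, .mk 91 6 5 6, 714, 15, 10, 15⟩ (by decide +kernel)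
theorem zR1115 : Cov (ix [0, 1, 2, 3, 16, 17]) ⟨524284, 3, 524288⟩ ⟨3, 1, 8⟩ ⟨2, 1, 6⟩ :=
  Cov.leafU ⟨.mk 75 5 5 4, .mk 85 7 5 13, .mk 80 24 5 48, .mk 111 8 5 39, .mk 74 6 5 5, .mk 91 6 5 6, 713, 15, 10, 15⟩ (by decide +kernel)
theorem zR1118 : Cov (ix [6, 7, 8, 9, 10, 11, 12, 13]) ⟨2097148, 3, 2097152⟩ ⟨1, 1, 4⟩ ⟨2, 1, 6⟩ :=
  Cov.leafU ⟨.mk 78 5 5 7, .mk 73 7 5 25, .mk 80 26 5 48, .mk 99 8 5 51, .mk 77 6 5 8, .mk 91 6 5 6, 743, 15, 10, 15⟩ (by decide +kernel)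
theorem zR1119 : Cov (ix [0, 1, 2, 3, 4, 5, 16, 17]) ⟨2097148, 3, 2097152⟩ ⟨2, 1, 8⟩ ⟨2, 1, 6⟩ :=
  Cov.leafU ⟨.mk 81 5 5 4, .mk 121 8 5 25, .mk 80 26 5 48, .mk 91 8 5 43, .mk 79 6 5 6, .mk 91 6 5 6, 754, 15, 10, 15⟩ (by decide +kernel)
theorem zR1120 : Cov (ix [0, 1, 2, 3, 4, 5, 16, 17]) ⟨2097148, 3, 2097152⟩ ⟨3, 1, 8⟩ ⟨2, 1, 6⟩ :=
  Cov.leafU ⟨.mk 75 5 5 4, .mk 85 7 5 13, .mk 80 26 5 48, .mk 111 8 5 39, .mk 74 6 5 5, .mk 91 6 5 6, 753, 15, 10, 15⟩ (by decide +kernel)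
theorem zR1123 : Cov (ix [13]) ⟨2097151, 1, 2097152⟩ ⟨1, 1, 4⟩ ⟨2, 1, 6⟩ :=
  Cov.leafU ⟨.mk 78 5 5 7, .mk 73 7 5 25, .bot 128 28, .mk 99 8 5 51, .mk 77 6 5 8, .mk 91 6 5 6, 641, 15, 10, 15⟩ (by decide +kernel)
theorem zR1124 : Cov (ix [7, 8, 11, 12, 16]) ⟨2097151, 1, 2097152⟩ ⟨1, 1, 4⟩ ⟨4, 1, 12⟩ :=
  Cov.leafU ⟨.mk 78 5 5 7, .mk 73 7 5 25, .bot 128 28, .mk 116 8 5 34, .mk 75 6 5 6, .mk 88 6 5 3, 669, 15, 10, 15⟩ (by decide +kernel)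
theorem zR1125 : Cov (ix [0, 1, 2, 3, 4, 5, 6, 9, 10, 17]) ⟨8388604, 3, 8388608⟩ ⟨1, 1, 4⟩ ⟨4, 1, 12⟩ :=
  Cov.leafU ⟨.mk 78 5 5 7, .mk 73 7 5 25, .mk 80 28 5 48, .mk 116 8 5 34, .mk 75 6 5 6, .mk 88 6 5 3, 797, 15, 10, 15⟩ (by decide +kernel)
theorem zR1126 : Cov (ix [0, 1, 2, 3, 4, 5, 6, 9, 10, 17]) ⟨8388607, 1, 8388608⟩ ⟨1, 1, 4⟩ ⟨4, 1, 12⟩ :=
  Cov.leafU ⟨.mk 78 5 5 7, .mk 73 7 5 25, .bot 128 30, .mk 116 8 5 34, .mk 75 6 5 6, .mk 88 6 5 3, 700, 15, 10, 15⟩ (by decide +kernel)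
theorem zR1129 : Cov (ix [0, 1, 2, 3, 4, 5, 6, 7, 8, 9, 10, 11, 12, 16, 17]) ⟨8388604, 3, 8388608⟩ ⟨1, 1, 4⟩ ⟨5, 1, 12⟩ :=
  Cov.leafU ⟨.mk 78 5 5 7, .mk 73 7 5 25, .mk 80 28 5 48, .mk 86 8 5 38, .mk 77 6 5 7, .mk 93 6 5 3, 797, 15, 10, 15⟩ (by decide +kernel)
theorem zR1130 : Cov (ix [0, 5, 6, 7, 8, 11, 12, 16, 17]) ⟨8388607, 1, 8388608⟩ ⟨1, 1, 4⟩ ⟨5, 1, 12⟩ :=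
  Cov.leafU ⟨.mk 78 5 5 7, .mk 73 7 5 25, .bot 128 30, .mk 86 8 5 38, .mk 77 6 5 7, .mk 93 6 5 3, 702, 15, 10, 15⟩ (by decide +kernel)
theorem zR1131 : Cov (ix [1, 2, 3, 4, 9, 10]) ⟨8388607, 1, 8388608⟩ ⟨2, 1, 8⟩ ⟨5, 1, 12⟩ :=
  Cov.leafU ⟨.mk 81 5 5 4, .mk 121 8 5 25, .bot 128 30, .mk 76 8 5 28, .mk 80 6 5 5, .mk 93 6 5 3, 712, 15, 10, 15⟩ (by decide +kernel)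

end Crest.Agent.R163.Bx
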