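import Crest.Agent.R163.BzV

set_option autoImplicit false
set_option Elab.async false

namespace Crest.Agent.R163.Bx

theorem zR1132 : Cov (ix [1, 2, 3, 4, 10]) ⟨8388607, 1, 8388608⟩ ⟨3, 1, 8⟩ ⟨5, 1, 12⟩ :=
  Cov.leafU ⟨.mk 75 5 5 4, .mk 85 7 5 13, .bot 128 30, .mk 98 8 5 26, .mk 74 6 5 4, .mk 93 6 5 3, 711, 15, 10, 15⟩ (by decide +kernel)
theorem zR1133 : Cov (ix [9]) ⟨33554428, 3, 33554432⟩ ⟨3, 1, 8⟩ ⟨5, 1, 12⟩ :=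
  Cov.leafU ⟨.mk 75 5 5 4, .mk 85 7 5 13, .mk 80 30 5 48, .mk 98 8 5 26, .mk 74 6 5 4, .mk 93 6 5 3, 834, 15, 10, 15⟩ (by decide +kernel)
theorem zR1134 : Cov (ix [9]) ⟨33554431, 1, 33554432⟩ ⟨3, 1, 8⟩ ⟨5, 1, 12⟩ :=
  Cov.leafU ⟨.mk 75 5 5 4, .mk 85 7 5 13, .bot 128 32, .mk 98 8 5 26, .mk 74 6 5 4, .mk 93 6 5 3, 728, 15, 10, 15⟩ (by decide +kernel)
theorem zR1145 : Cov (ix [0, 1, 2, 3, 4, 5, 6, 7, 8, 9, 10, 11, 12, 13, 16, 17]) ⟨131068, 3, 131072⟩ ⟨1, 1, 2⟩ ⟨2, 1, 6⟩ :=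
  Cov.leafU ⟨.mk 120 6 5 25, .mk 72 6 5 24, .mk 80 22 5 48, .mk 78 7 5 30, .mk 120 7 5 24, .mk 91 6 5 6, 653, 15, 10, 15⟩ (by decide +kernel)
theorem zR1146 : Cov (ix [0, 1, 2, 3, 4, 5, 6, 7, 8, 9, 10, 11, 12, 13, 16, 17]) ⟨524284, 3, 524288⟩ ⟨1, 1, 2⟩ ⟨2, 1, 6⟩ :=
  Cov.leafU ⟨.mk 120 6 5 25, .mk 72 6 5 24, .mk 80 24 5 48, .mk 78 7 5 30, .mk 120 7 5 24, .mk 91 6 5 6, 693, 15, 10, 15⟩ (by decide +kernel)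
theorem zR1147 : Cov (ix [0, 1, 2, 3, 4, 5, 6, 7, 8, 9, 10, 11, 12, 13, 16, 17]) ⟨2097148, 3, 2097152⟩ ⟨1, 1, 2⟩ ⟨2, 1, 6⟩ :=
  Cov.leafU ⟨.mk 120 6 5 25, .mk 72 6 5 24, .mk 80 26 5 48, .mk 78 7 5 30, .mk 120 7 5 24, .mk 91 6 5 6, 732, 15, 10, 15⟩ (by decide +kernel)
theorem zR1148 : Cov (ix [0, 1, 2, 3, 4, 5, 6, 7, 8, 9, 10, 11, 12, 13, 16, 17]) ⟨8388604, 3, 8388608⟩ ⟨1, 1, 2⟩ ⟨2, 1, 6⟩ :=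
  Cov.leafU ⟨.mk 120 6 5 25, .mk 72 6 5 24, .mk 80 28 5 48, .mk 78 7 5 30, .mk 120 7 5 24, .mk 91 6 5 6, 771, 15, 10, 15⟩ (by decide +kernel)
theorem zR1149 : Cov (ix [13]) ⟨8388607, 1, 8388608⟩ ⟨1, 1, 2⟩ ⟨2, 1, 6⟩ :=
  Cov.leafU ⟨.mk 120 6 5 25, .mk 72 6 5 24, .bot 128 30, .mk 78 7 5 30, .mk 120 7 5 24, .mk 91 6 5 6, 660, 15, 10, 15⟩ (by decide +kernel)
theorem zR1150 : Cov (ix [0, 1, 2, 3, 4, 5, 6, 7, 8, 9, 10, 11, 12, 17]) ⟨33554428, 3, 33554432⟩ ⟨1, 1, 2⟩ ⟨2, 1, 6⟩ :=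
  Cov.leafU ⟨.mk 120 6 5 25, .mk 72 6 5 24, .mk 80 30 5 48, .mk 78 7 5 30, .mk 120 7 5 24, .mk 91 6 5 6, 810, 15, 10, 15⟩ (by decide +kernel)
theorem zR1151 : Cov (ix [16]) ⟨33554428, 3, 33554432⟩ ⟨2, 1, 4⟩ ⟨2, 1, 6⟩ :=
  Cov.leafU ⟨.mk 66 5 5 7, .mk 120 7 5 24, .mk 80 30 5 48, .mk 70 7 5 22, .mk 66 6 5 6, .mk 91 6 5 6, 807, 15, 10, 15⟩ (by decide +kernel)
theorem zR1152 : Cov (ix [16]) ⟨33554428, 3, 33554432⟩ ⟨3, 1, 4⟩ ⟨2, 1, 6⟩ :=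
  Cov.leafU ⟨.mk 108 6 5 13, .mk 84 6 5 13, .mk 80 30 5 48, .mk 90 7 5 18, .mk 110 7 5 14, .mk 91 6 5 6, 807, 15, 10, 15⟩ (by decide +kernel)
theorem zR1155 : Cov (ix [0, 1, 2, 3, 4, 5, 6, 7, 8, 9, 10, 11, 12, 17]) ⟨134217724, 3, 134217728⟩ ⟨1, 1, 2⟩ ⟨2, 1, 6⟩ :=
  Cov.leafU ⟨.mk 120 6 5 25, .mk 72 6 5 24, .mk 80 32 5 48, .mk 78 7 5 30, .mk 120 7 5 24, .mk 91 6 5 6, 850, 15, 10, 15⟩ (by decide +kernel)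
theorem zR1156 : Cov (ix [16]) ⟨134217724, 3, 134217728⟩ ⟨2, 1, 4⟩ ⟨2, 1, 6⟩ :=
  Cov.leafU ⟨.mk 66 5 5 7, .mk 120 7 5 24, .mk 80 32 5 48, .mk 70 7 5 22, .mk 66 6 5 6, .mk 91 6 5 6, 847, 15, 10, 15⟩ (by decide +kernel)
theorem zR1157 : Cov (ix [16]) ⟨134217724, 3, 134217728⟩ ⟨3, 1, 4⟩ ⟨2, 1, 6⟩ :=
  Cov.leafU ⟨.mk 108 6 5 13, .mk 84 6 5 13, .mk 80 32 5 48, .mk 90 7 5 18, .mk 110 7 5 14, .mk 91 6 5 6, 847, 15, 10, 15⟩ (by decide +kernel)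
theorem zR1160 : Cov (ix [7, 8]) ⟨134217727, 1, 134217728⟩ ⟨1, 1, 2⟩ ⟨2, 1, 6⟩ :=
  Cov.leafU ⟨.mk 120 6 5 25, .mk 72 6 5 24, .bot 128 34, .mk 78 7 5 30, .mk 120 7 5 24, .mk 91 6 5 6, 735, 15, 10, 15⟩ (by decide +kernel)
theorem zR1161 : Cov (ix [0, 1, 2, 3, 4, 5, 6, 9, 10, 11, 12, 16, 17]) ⟨134217727, 1, 134217728⟩ ⟨2, 1, 4⟩ ⟨2, 1, 6⟩ :=
  Cov.leafU ⟨.mk 66 5 5 7, .mk 120 7 5 24, .bot 128 34, .mk 70 7 5 22, .mk 66 6 5 6, .mk 91 6 5 6, 745, 15, 10, 15⟩ (by decide +kernel)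
theorem zR1162 : Cov (ix [3, 4, 5, 6, 12]) ⟨134217727, 1, 134217728⟩ ⟨3, 1, 4⟩ ⟨2, 1, 6⟩ :=
  Cov.leafU ⟨.mk 108 6 5 13, .mk 84 6 5 13, .bot 128 34, .mk 90 7 5 18, .mk 110 7 5 14, .mk 91 6 5 6, 745, 15, 10, 15⟩ (by decide +kernel)
theorem zR1163 : Cov (ix [0, 1, 2, 9, 10, 11, 16, 17]) ⟨536870908, 3, 536870912⟩ ⟨3, 1, 4⟩ ⟨2, 1, 6⟩ :=
  Cov.leafU ⟨.mk 108 6 5 13, .mk 84 6 5 13, .mk 80 34 5 48, .mk 90 7 5 18, .mk 110 7 5 14, .mk 91 6 5 6, 900, 15, 10, 15⟩ (by decide +kernel)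
theorem zR1164 : Cov (ix [0, 1, 2, 9, 10, 11, 16, 17]) ⟨536870911, 1, 536870912⟩ ⟨3, 1, 4⟩ ⟨2, 1, 6⟩ :=
  Cov.leafU ⟨.mk 108 6 5 13, .mk 84 6 5 13, .bot 128 36, .mk 90 7 5 18, .mk 110 7 5 14, .mk 91 6 5 6, 775, 15, 10, 15⟩ (by decide +kernel)

end Crest.Agent.R163.Bx
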