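import Crest.Agent.R163.BzP01
import Crest.Agent.R163.BzL01
import Crest.Agent.R163.BzR01
import Crest.Agent.R163.BzR02
import Crest.Agent.R163.BzR03
import Crest.Agent.R163.BzR04
import Crest.Agent.R163.BzR05
import Crest.Agent.R163.BzR06
import Crest.Agent.R163.BzR07
import Crest.Agent.R163.BzR08
import Crest.Agent.R163.BzR09
import Crest.Agent.R163.BzR10
import Crest.Agent.R163.BzR11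
import Crest.Agent.R163.BzR12
import Crest.Agent.R163.BzR13
import Crest.Agent.R163.BzR14
import Crest.Agent.R163.BzR15
import Crest.Agent.R163.BzR16
import Crest.Agent.R163.BzR17
import Crest.Agent.R163.BzR18
import Crest.Agent.R163.BzR19
import Crest.Agent.R163.BzR20

set_option autoImplicit false
set_option Elab.async false

namespace Crest.Agent.R163.Bx

theorem zP2 : Cov (ix [14]) ⟨0, 1, 8⟩ ⟨0, 1, 1⟩ ⟨4, 1, 12⟩ :=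
  Cov.sz zP0 zP1 (by decide +kernel)
theorem zP6 : Cov (ix [14]) ⟨0, 1, 8⟩ ⟨1, 3, 4⟩ ⟨5, 1, 12⟩ :=
  Cov.sx zP4 zP5 (by decide +kernel)
theorem zP7 : Cov (ix [14]) ⟨0, 1, 8⟩ ⟨0, 1, 1⟩ ⟨5, 1, 12⟩ :=
  Cov.sy zP3 zP6 (by decide +kernel)
theorem zP8 : Cov (ix [14]) ⟨0, 1, 8⟩ ⟨0, 1, 1⟩ ⟨2, 1, 6⟩ :=
  Cov.sz zP2 zP7 (by decide +kernel)
theorem zP11 : Cov (ix [14]) ⟨1, 1, 8⟩ ⟨0, 1, 4⟩ ⟨2, 1, 6⟩ :=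
  Cov.sx zP9 zP10 (by decide +kernel)
theorem zP14 : Cov (ix [14]) ⟨1, 1, 8⟩ ⟨1, 1, 4⟩ ⟨2, 1, 6⟩ :=
  Cov.sx zP12 zP13 (by decide +kernel)
theorem zP17 : Cov (ix [14]) ⟨1, 1, 8⟩ ⟨1, 1, 2⟩ ⟨2, 1, 6⟩ :=
  Cov.sx zP15 zP16 (by decide +kernel)
theorem zP18 : Cov (ix [14]) ⟨1, 1, 8⟩ ⟨1, 3, 4⟩ ⟨2, 1, 6⟩ :=
  Cov.sy zP14 zP17 (by decide +kernel)
theorem zP19 : Cov (ix [14]) ⟨1, 1, 8⟩ ⟨0, 1, 1⟩ ⟨2, 1, 6⟩ :=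
  Cov.sy zP11 zP18 (by decide +kernel)
theorem zP20 : Cov (ix [14]) ⟨0, 1, 4⟩ ⟨0, 1, 1⟩ ⟨2, 1, 6⟩ :=
  Cov.sx zP8 zP19 (by decide +kernel)
theorem zP23 : Cov (ix [14]) ⟨1, 1, 4⟩ ⟨0, 1, 4⟩ ⟨2, 1, 6⟩ :=
  Cov.sx zP21 zP22 (by decide +kernel)
theorem zP26 : Cov (ix [14]) ⟨1, 1, 4⟩ ⟨1, 1, 4⟩ ⟨2, 1, 6⟩ :=
  Cov.sx zP24 zP25 (by decide +kernel)
theorem zP29 : Cov (ix [14]) ⟨1, 1, 4⟩ ⟨1, 1, 2⟩ ⟨2, 1, 6⟩ :=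
  Cov.sx zP27 zP28 (by decide +kernel)
theorem zP30 : Cov (ix [14]) ⟨1, 1, 4⟩ ⟨1, 3, 4⟩ ⟨2, 1, 6⟩ :=
  Cov.sy zP26 zP29 (by decide +kernel)
theorem zP31 : Cov (ix [14]) ⟨1, 1, 4⟩ ⟨0, 1, 1⟩ ⟨2, 1, 6⟩ :=
  Cov.sy zP23 zP30 (by decide +kernel)
theorem zP32 : Cov (ix [14]) ⟨0, 1, 2⟩ ⟨0, 1, 1⟩ ⟨2, 1, 6⟩ :=
  Cov.sx zP20 zP31 (by decide +kernel)
theorem zL4 : Cov (ix [15]) ⟨0, 1, 8⟩ ⟨0, 1, 1⟩ ⟨2, 1, 6⟩ :=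
  Cov.sx zL2 zL3 (by decide +kernel)
theorem zL5 : Cov (ix [0, 1, 2, 3, 4, 5, 6, 7, 8, 10, 11, 15]) ⟨0, 1, 8⟩ ⟨0, 1, 1⟩ ⟨2, 1, 6⟩ :=
  Cov.unI zL1 zL4 (by decide +kernel)
theorem zL9 : Cov (ix [15]) ⟨1, 1, 8⟩ ⟨0, 1, 1⟩ ⟨2, 1, 6⟩ :=
  Cov.sx zL7 zL8 (by decide +kernel)
theorem zL10 : Cov (ix [0, 1, 2, 3, 4, 5, 6, 7, 8, 10, 11, 15]) ⟨1, 1, 8⟩ ⟨0, 1, 1⟩ ⟨2, 1, 6⟩ :=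
  Cov.unI zL6 zL9 (by decide +kernel)
theorem zL11 : Cov (ix [0, 1, 2, 3, 4, 5, 6, 7, 8, 10, 11, 15]) ⟨0, 1, 4⟩ ⟨0, 1, 1⟩ ⟨2, 1, 6⟩ :=
  Cov.sx zL5 zL10 (by decide +kernel)
theorem zL12 : Cov (ix [0, 1, 2, 3, 4, 5, 6, 7, 8, 9, 10, 11, 12, 13, 15]) ⟨0, 1, 4⟩ ⟨0, 1, 1⟩ ⟨2, 1, 6⟩ :=
  Cov.unI zL0 zL11 (by decide +kernel)
theorem zL18 : Cov (ix [0]) ⟨2, 1, 8⟩ ⟨0, 1, 4⟩ ⟨2, 1, 6⟩ :=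
  Cov.sx zL16 zL17 (by decide +kernel)
theorem zL19 : Cov (ix [0, 1, 2, 3, 4, 5, 6, 15]) ⟨2, 1, 8⟩ ⟨0, 1, 4⟩ ⟨2, 1, 6⟩ :=
  Cov.unI zL15 zL18 (by decide +kernel)
theorem zL23 : Cov (ix [0, 1, 2, 3]) ⟨3, 1, 8⟩ ⟨0, 1, 4⟩ ⟨2, 1, 6⟩ :=
  Cov.sx zL21 zL22 (by decide +kernel)
theorem zL24 : Cov (ix [0, 1, 2, 3, 4, 5, 6, 15]) ⟨3, 1, 8⟩ ⟨0, 1, 4⟩ ⟨2, 1, 6⟩ :=
  Cov.unI zL20 zL23 (by decide +kernel)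
theorem zL25 : Cov (ix [0, 1, 2, 3, 4, 5, 6, 15]) ⟨1, 1, 4⟩ ⟨0, 1, 4⟩ ⟨2, 1, 6⟩ :=
  Cov.sx zL19 zL24 (by decide +kernel)
theorem zL26 : Cov (ix [0, 1, 2, 3, 4, 5, 6, 7, 8, 10, 11, 15]) ⟨1, 1, 4⟩ ⟨0, 1, 4⟩ ⟨2, 1, 6⟩ :=
  Cov.unI zL14 zL25 (by decide +kernel)
theorem zL31 : Cov (ix [0, 15]) ⟨1, 1, 4⟩ ⟨1, 1, 4⟩ ⟨2, 1, 6⟩ :=
  Cov.sx zL29 zL30 (by decide +kernel)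
theorem zL32 : Cov (ix [0, 1, 2, 15]) ⟨1, 1, 4⟩ ⟨1, 1, 4⟩ ⟨2, 1, 6⟩ :=
  Cov.unI zL28 zL31 (by decide +kernel)
theorem zL34 : Cov (ix [0, 1, 2, 15]) ⟨1, 1, 4⟩ ⟨1, 3, 4⟩ ⟨2, 1, 6⟩ :=
  Cov.sy zL32 zL33 (by decide +kernel)
theorem zL35 : Cov (ix [0, 1, 2, 3, 4, 5, 6, 7, 8, 10, 11, 15]) ⟨1, 1, 4⟩ ⟨1, 3, 4⟩ ⟨2, 1, 6⟩ :=
  Cov.unI zL27 zL34 (by decide +kernel)
theorem zL36 : Cov (ix [0, 1, 2, 3, 4, 5, 6, 7, 8, 10, 11, 15]) ⟨1, 1, 4⟩ ⟨0, 1, 1⟩ ⟨2, 1, 6⟩ :=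
  Cov.sy zL26 zL35 (by decide +kernel)
theorem zL37 : Cov (ix [0, 1, 2, 3, 4, 5, 6, 7, 8, 9, 10, 11, 12, 13, 15]) ⟨1, 1, 4⟩ ⟨0, 1, 1⟩ ⟨2, 1, 6⟩ :=
  Cov.unI zL13 zL36 (by decide +kernel)
theorem zL38 : Cov (ix [0, 1, 2, 3, 4, 5, 6, 7, 8, 9, 10, 11, 12, 13, 15]) ⟨0, 1, 2⟩ ⟨0, 1, 1⟩ ⟨2, 1, 6⟩ :=
  Cov.sx zL12 zL37 (by decide +kernel)
theorem zR5 : Cov (ix [4]) ⟨8, 1, 16⟩ ⟨0, 1, 4⟩ ⟨2, 1, 6⟩ :=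
  Cov.sx zR3 zR4 (by decide +kernel)
theorem zR6 : Cov (ix [0, 1, 2, 3, 4, 5, 6, 7, 17]) ⟨8, 1, 16⟩ ⟨0, 1, 4⟩ ⟨2, 1, 6⟩ :=
  Cov.unI zR2 zR5 (by decide +kernel)
theorem zR10 : Cov (ix [3, 4, 5, 6, 7]) ⟨9, 1, 16⟩ ⟨0, 1, 4⟩ ⟨2, 1, 6⟩ :=
  Cov.sy zR8 zR9 (by decide +kernel)
theorem zR11 : Cov (ix [0, 1, 2, 3, 4, 5, 6, 7, 17]) ⟨9, 1, 16⟩ ⟨0, 1, 4⟩ ⟨2, 1, 6⟩ :=
  Cov.unI zR7 zR10 (by decide +kernel)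
theorem zR12 : Cov (ix [0, 1, 2, 3, 4, 5, 6, 7, 17]) ⟨4, 1, 8⟩ ⟨0, 1, 4⟩ ⟨2, 1, 6⟩ :=
  Cov.sx zR6 zR11 (by decide +kernel)
theorem zR13 : Cov (ix [0, 1, 2, 3, 4, 5, 6, 7, 8, 9, 10, 11, 12, 16, 17]) ⟨4, 1, 8⟩ ⟨0, 1, 4⟩ ⟨2, 1, 6⟩ :=
  Cov.unI zR1 zR12 (by decide +kernel)
theorem zR20 : Cov (ix [6, 7]) ⟨5, 1, 8⟩ ⟨0, 1, 16⟩ ⟨5, 1, 12⟩ :=
  Cov.sx zR18 zR19 (by decide +kernel)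
theorem zR21 : Cov (ix [0, 1, 2, 3, 4, 5, 6, 7, 8, 9, 17]) ⟨5, 1, 8⟩ ⟨0, 1, 16⟩ ⟨5, 1, 12⟩ :=
  Cov.unI zR17 zR20 (by decide +kernel)
theorem zR25 : Cov (ix [3, 4, 5, 6, 7]) ⟨5, 1, 8⟩ ⟨1, 3, 16⟩ ⟨5, 1, 12⟩ :=
  Cov.sx zR23 zR24 (by decide +kernel)
theorem zR26 : Cov (ix [0, 1, 2, 3, 4, 5, 6, 7, 8, 9, 17]) ⟨5, 1, 8⟩ ⟨1, 3, 16⟩ ⟨5, 1, 12⟩ :=
  Cov.unI zR22 zR25 (by decide +kernel)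
theorem zR27 : Cov (ix [0, 1, 2, 3, 4, 5, 6, 7, 8, 9, 17]) ⟨5, 1, 8⟩ ⟨0, 1, 4⟩ ⟨5, 1, 12⟩ :=
  Cov.sy zR21 zR26 (by decide +kernel)
theorem zR28 : Cov (ix [0, 1, 2, 3, 4, 5, 6, 7, 8, 9, 10, 16, 17]) ⟨5, 1, 8⟩ ⟨0, 1, 4⟩ ⟨5, 1, 12⟩ :=
  Cov.unI zR16 zR27 (by decide +kernel)
theorem zR29 : Cov (ix [0, 1, 2, 3, 4, 5, 6, 7, 8, 9, 10, 16, 17]) ⟨5, 1, 8⟩ ⟨0, 1, 4⟩ ⟨2, 1, 6⟩ :=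
  Cov.sz zR15 zR28 (by decide +kernel)
theorem zR30 : Cov (ix [0, 1, 2, 3, 4, 5, 6, 7, 8, 9, 10, 11, 12, 16, 17]) ⟨5, 1, 8⟩ ⟨0, 1, 4⟩ ⟨2, 1, 6⟩ :=
  Cov.unI zR14 zR29 (by decide +kernel)
theorem zR31 : Cov (ix [0, 1, 2, 3, 4, 5, 6, 7, 8, 9, 10, 11, 12, 16, 17]) ⟨2, 1, 4⟩ ⟨0, 1, 4⟩ ⟨2, 1, 6⟩ :=
  Cov.sx zR13 zR30 (by decide +kernel)
theorem zR32 : Cov (ix [0, 1, 2, 3, 4, 5, 6, 7, 8, 9, 10, 11, 12, 13, 16, 17]) ⟨2, 1, 4⟩ ⟨0, 1, 4⟩ ⟨2, 1, 6⟩ :=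
  Cov.unI zR0 zR31 (by decide +kernel)
theorem zR36 : Cov (ix [0, 1, 2, 3, 4, 5, 6, 7, 8, 9, 10, 11, 12, 16, 17]) ⟨6, 1, 8⟩ ⟨0, 1, 4⟩ ⟨4, 1, 12⟩ :=
  Cov.sy zR34 zR35 (by decide +kernel)
theorem zR37 : Cov (ix [0, 1, 2, 3, 4, 5, 6, 7, 8, 9, 10, 11, 12, 13, 16, 17]) ⟨6, 1, 8⟩ ⟨0, 1, 4⟩ ⟨4, 1, 12⟩ :=
  Cov.unI zR33 zR36 (by decide +kernel)
theorem zR44 : Cov (ix [9]) ⟨13, 1, 16⟩ ⟨0, 1, 16⟩ ⟨5, 1, 12⟩ :=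
  Cov.sx zR42 zR43 (by decide +kernel)
theorem zR45 : Cov (ix [0, 1, 2, 3, 4, 5, 6, 7, 8, 9, 10, 11, 17]) ⟨13, 1, 16⟩ ⟨0, 1, 16⟩ ⟨5, 1, 12⟩ :=
  Cov.unI zR41 zR44 (by decide +kernel)
theorem zR46 : Cov (ix [0, 1, 2, 3, 4, 5, 6, 7, 8, 9, 10, 11, 17]) ⟨6, 1, 8⟩ ⟨0, 1, 16⟩ ⟨5, 1, 12⟩ :=
  Cov.sx zR40 zR45 (by decide +kernel)
theorem zR47 : Cov (ix [0, 1, 2, 3, 4, 5, 6, 7, 8, 9, 10, 11, 12, 16, 17]) ⟨6, 1, 8⟩ ⟨0, 1, 16⟩ ⟨5, 1, 12⟩ :=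
  Cov.unI zR39 zR46 (by decide +kernel)
theorem zR52 : Cov (ix [4, 5, 6, 7, 8, 9]) ⟨6, 1, 8⟩ ⟨1, 1, 16⟩ ⟨5, 1, 12⟩ :=
  Cov.sx zR50 zR51 (by decide +kernel)
theorem zR53 : Cov (ix [0, 1, 2, 3, 4, 5, 6, 7, 8, 9, 10, 16, 17]) ⟨6, 1, 8⟩ ⟨1, 1, 16⟩ ⟨5, 1, 12⟩ :=
  Cov.unI zR49 zR52 (by decide +kernel)
theorem zR57 : Cov (ix [4, 5, 6, 7, 8, 9]) ⟨6, 1, 8⟩ ⟨1, 1, 8⟩ ⟨5, 1, 12⟩ :=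
  Cov.sx zR55 zR56 (by decide +kernel)
theorem zR58 : Cov (ix [0, 1, 2, 3, 4, 5, 6, 7, 8, 9, 10, 16, 17]) ⟨6, 1, 8⟩ ⟨1, 1, 8⟩ ⟨5, 1, 12⟩ :=
  Cov.unI zR54 zR57 (by decide +kernel)
theorem zR59 : Cov (ix [0, 1, 2, 3, 4, 5, 6, 7, 8, 9, 10, 16, 17]) ⟨6, 1, 8⟩ ⟨1, 3, 16⟩ ⟨5, 1, 12⟩ :=
  Cov.sy zR53 zR58 (by decide +kernel)
theorem zR60 : Cov (ix [0, 1, 2, 3, 4, 5, 6, 7, 8, 9, 10, 11, 12, 16, 17]) ⟨6, 1, 8⟩ ⟨1, 3, 16⟩ ⟨5, 1, 12⟩ :=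
  Cov.unI zR48 zR59 (by decide +kernel)
theorem zR61 : Cov (ix [0, 1, 2, 3, 4, 5, 6, 7, 8, 9, 10, 11, 12, 16, 17]) ⟨6, 1, 8⟩ ⟨0, 1, 4⟩ ⟨5, 1, 12⟩ :=
  Cov.sy zR47 zR60 (by decide +kernel)
theorem zR62 : Cov (ix [0, 1, 2, 3, 4, 5, 6, 7, 8, 9, 10, 11, 12, 13, 16, 17]) ⟨6, 1, 8⟩ ⟨0, 1, 4⟩ ⟨5, 1, 12⟩ :=
  Cov.unI zR38 zR61 (by decide +kernel)
theorem zR63 : Cov (ix [0, 1, 2, 3, 4, 5, 6, 7, 8, 9, 10, 11, 12, 13, 16, 17]) ⟨6, 1, 8⟩ ⟨0, 1, 4⟩ ⟨2, 1, 6⟩ :=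
  Cov.sz zR37 zR62 (by decide +kernel)
theorem zR64 : Cov (ix [0, 1, 2, 3, 4, 5, 6, 7, 8, 9, 10, 11, 12, 13, 16, 17]) ⟨4, 3, 8⟩ ⟨0, 1, 4⟩ ⟨2, 1, 6⟩ :=
  Cov.sx zR32 zR63 (by decide +kernel)
theorem zR69 : Cov (ix [0, 1, 2, 3, 4, 5, 6, 7, 16, 17]) ⟨2, 1, 4⟩ ⟨1, 1, 4⟩ ⟨2, 1, 6⟩ :=
  Cov.sx zR67 zR68 (by decide +kernel)
theorem zR70 : Cov (ix [0, 1, 2, 3, 4, 5, 6, 7, 8, 9, 10, 11, 16, 17]) ⟨2, 1, 4⟩ ⟨1, 1, 4⟩ ⟨2, 1, 6⟩ :=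
  Cov.unI zR66 zR69 (by decide +kernel)
theorem zR74 : Cov (ix [0, 1, 2, 16, 17]) ⟨2, 1, 4⟩ ⟨1, 1, 2⟩ ⟨2, 1, 6⟩ :=
  Cov.sx zR72 zR73 (by decide +kernel)
theorem zR75 : Cov (ix [0, 1, 2, 3, 4, 5, 6, 7, 8, 9, 10, 11, 16, 17]) ⟨2, 1, 4⟩ ⟨1, 1, 2⟩ ⟨2, 1, 6⟩ :=
  Cov.unI zR71 zR74 (by decide +kernel)
theorem zR76 : Cov (ix [0, 1, 2, 3, 4, 5, 6, 7, 8, 9, 10, 11, 16, 17]) ⟨2, 1, 4⟩ ⟨1, 3, 4⟩ ⟨2, 1, 6⟩ :=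
  Cov.sy zR70 zR75 (by decide +kernel)
theorem zR77 : Cov (ix [0, 1, 2, 3, 4, 5, 6, 7, 8, 9, 10, 11, 12, 13, 16, 17]) ⟨2, 1, 4⟩ ⟨1, 3, 4⟩ ⟨2, 1, 6⟩ :=
  Cov.unI zR65 zR76 (by decide +kernel)
theorem zR82 : Cov (ix [0, 1, 2, 3, 4, 5, 6, 7, 16, 17]) ⟨6, 1, 8⟩ ⟨1, 1, 4⟩ ⟨2, 1, 6⟩ :=
  Cov.sx zR80 zR81 (by decide +kernel)
theorem zR83 : Cov (ix [0, 1, 2, 3, 4, 5, 6, 7, 8, 9, 10, 11, 12, 16, 17]) ⟨6, 1, 8⟩ ⟨1, 1, 4⟩ ⟨2, 1, 6⟩ :=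
  Cov.unI zR79 zR82 (by decide +kernel)
theorem zR87 : Cov (ix [0, 16, 17]) ⟨6, 1, 8⟩ ⟨1, 1, 2⟩ ⟨2, 1, 6⟩ :=
  Cov.sx zR85 zR86 (by decide +kernel)
theorem zR88 : Cov (ix [0, 1, 2, 3, 4, 5, 6, 7, 8, 9, 10, 11, 12, 16, 17]) ⟨6, 1, 8⟩ ⟨1, 1, 2⟩ ⟨2, 1, 6⟩ :=
  Cov.unI zR84 zR87 (by decide +kernel)
theorem zR89 : Cov (ix [0, 1, 2, 3, 4, 5, 6, 7, 8, 9, 10, 11, 12, 16, 17]) ⟨6, 1, 8⟩ ⟨1, 3, 4⟩ ⟨2, 1, 6⟩ :=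
  Cov.sy zR83 zR88 (by decide +kernel)
theorem zR90 : Cov (ix [0, 1, 2, 3, 4, 5, 6, 7, 8, 9, 10, 11, 12, 13, 16, 17]) ⟨6, 1, 8⟩ ⟨1, 3, 4⟩ ⟨2, 1, 6⟩ :=
  Cov.unI zR78 zR89 (by decide +kernel)
theorem zR91 : Cov (ix [0, 1, 2, 3, 4, 5, 6, 7, 8, 9, 10, 11, 12, 13, 16, 17]) ⟨4, 3, 8⟩ ⟨1, 3, 4⟩ ⟨2, 1, 6⟩ :=
  Cov.sx zR77 zR90 (by decide +kernel)
theorem zR92 : Cov (ix [0, 1, 2, 3, 4, 5, 6, 7, 8, 9, 10, 11, 12, 13, 16, 17]) ⟨4, 3, 8⟩ ⟨0, 1, 1⟩ ⟨2, 1, 6⟩ :=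
  Cov.sy zR64 zR91 (by decide +kernel)
theorem zR96 : Cov (ix [0, 1, 2, 3, 4, 5, 6, 7, 8, 9, 10, 11, 12, 16, 17]) ⟨28, 3, 32⟩ ⟨0, 1, 16⟩ ⟨4, 1, 12⟩ :=
  Cov.sx zR94 zR95 (by decide +kernel)
theorem zR97 : Cov (ix [0, 1, 2, 3, 4, 5, 6, 7, 8, 9, 10, 11, 12, 13, 16, 17]) ⟨28, 3, 32⟩ ⟨0, 1, 16⟩ ⟨4, 1, 12⟩ :=
  Cov.unI zR93 zR96 (by decide +kernel)
theorem zR100 : Cov (ix [0, 1, 2, 3, 4, 5, 6, 7, 8, 9, 10, 11, 12, 13, 16, 17]) ⟨28, 3, 32⟩ ⟨0, 1, 16⟩ ⟨20, 3, 48⟩ :=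
  Cov.sx zR98 zR99 (by decide +kernel)
theorem zR104 : Cov (ix [7, 8, 9, 10]) ⟨14, 1, 16⟩ ⟨0, 1, 16⟩ ⟨23, 1, 48⟩ :=
  Cov.sx zR102 zR103 (by decide +kernel)
theorem zR105 : Cov (ix [0, 1, 2, 3, 4, 5, 6, 7, 8, 9, 10, 11, 12, 13, 16, 17]) ⟨14, 1, 16⟩ ⟨0, 1, 16⟩ ⟨23, 1, 48⟩ :=
  Cov.unI zR101 zR104 (by decide +kernel)
theorem zR109 : Cov (ix [3, 4, 5, 6, 7, 8, 9, 10, 11, 12]) ⟨30, 1, 32⟩ ⟨0, 1, 16⟩ ⟨23, 1, 48⟩ :=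
  Cov.sy zR107 zR108 (by decide +kernel)
theorem zR110 : Cov (ix [0, 1, 2, 3, 4, 5, 6, 7, 8, 9, 10, 11, 12, 13, 16, 17]) ⟨30, 1, 32⟩ ⟨0, 1, 16⟩ ⟨23, 1, 48⟩ :=
  Cov.unI zR106 zR109 (by decide +kernel)
theorem zR111 : Cov (ix [0, 1, 2, 3, 4, 5, 6, 7, 8, 9, 10, 11, 12, 13, 16, 17]) ⟨28, 3, 32⟩ ⟨0, 1, 16⟩ ⟨23, 1, 48⟩ :=
  Cov.sx zR105 zR110 (by decide +kernel)
theorem zR112 : Cov (ix [0, 1, 2, 3, 4, 5, 6, 7, 8, 9, 10, 11, 12, 13, 16, 17]) ⟨28, 3, 32⟩ ⟨0, 1, 16⟩ ⟨5, 1, 12⟩ :=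
  Cov.sz zR100 zR111 (by decide +kernel)
theorem zR113 : Cov (ix [0, 1, 2, 3, 4, 5, 6, 7, 8, 9, 10, 11, 12, 13, 16, 17]) ⟨28, 3, 32⟩ ⟨0, 1, 16⟩ ⟨2, 1, 6⟩ :=
  Cov.sz zR97 zR112 (by decide +kernel)
theorem zR117 : Cov (ix [0, 1, 2, 3, 4, 5, 6, 7, 8, 9, 10, 17]) ⟨28, 3, 32⟩ ⟨1, 3, 16⟩ ⟨4, 1, 12⟩ :=
  Cov.sx zR115 zR116 (by decide +kernel)
theorem zR118 : Cov (ix [0, 1, 2, 3, 4, 5, 6, 7, 8, 9, 10, 11, 12, 13, 16, 17]) ⟨28, 3, 32⟩ ⟨1, 3, 16⟩ ⟨4, 1, 12⟩ :=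
  Cov.unI zR114 zR117 (by decide +kernel)
theorem zR123 : Cov (ix [6, 7, 8, 9]) ⟨14, 1, 16⟩ ⟨1, 1, 16⟩ ⟨5, 1, 12⟩ :=
  Cov.sx zR121 zR122 (by decide +kernel)
theorem zR124 : Cov (ix [0, 1, 2, 3, 4, 5, 6, 7, 8, 9, 10, 11, 12, 16, 17]) ⟨14, 1, 16⟩ ⟨1, 1, 16⟩ ⟨5, 1, 12⟩ :=
  Cov.unI zR120 zR123 (by decide +kernel)
theorem zR128 : Cov (ix [5, 6, 7, 8, 9, 10]) ⟨30, 1, 32⟩ ⟨1, 1, 16⟩ ⟨5, 1, 12⟩ :=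
  Cov.sy zR126 zR127 (by decide +kernel)
theorem zR129 : Cov (ix [0, 1, 2, 3, 4, 5, 6, 7, 8, 9, 10, 11, 12, 16, 17]) ⟨30, 1, 32⟩ ⟨1, 1, 16⟩ ⟨5, 1, 12⟩ :=
  Cov.unI zR125 zR128 (by decide +kernel)
theorem zR130 : Cov (ix [0, 1, 2, 3, 4, 5, 6, 7, 8, 9, 10, 11, 12, 16, 17]) ⟨28, 3, 32⟩ ⟨1, 1, 16⟩ ⟨5, 1, 12⟩ :=
  Cov.sx zR124 zR129 (by decide +kernel)
theorem zR131 : Cov (ix [0, 1, 2, 3, 4, 5, 6, 7, 8, 9, 10, 11, 12, 13, 16, 17]) ⟨28, 3, 32⟩ ⟨1, 1, 16⟩ ⟨5, 1, 12⟩ :=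
  Cov.unI zR119 zR130 (by decide +kernel)
theorem zR136 : Cov (ix [9]) ⟨14, 1, 16⟩ ⟨1, 1, 8⟩ ⟨5, 1, 12⟩ :=
  Cov.sx zR134 zR135 (by decide +kernel)
theorem zR137 : Cov (ix [0, 1, 2, 3, 4, 5, 6, 7, 8, 9, 10, 11, 12, 16, 17]) ⟨14, 1, 16⟩ ⟨1, 1, 8⟩ ⟨5, 1, 12⟩ :=
  Cov.unI zR133 zR136 (by decide +kernel)
theorem zR141 : Cov (ix [9]) ⟨30, 1, 32⟩ ⟨1, 1, 8⟩ ⟨5, 1, 12⟩ :=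
  Cov.sx zR139 zR140 (by decide +kernel)
theorem zR142 : Cov (ix [0, 1, 2, 3, 4, 5, 6, 7, 8, 9, 10, 11, 12, 16, 17]) ⟨30, 1, 32⟩ ⟨1, 1, 8⟩ ⟨5, 1, 12⟩ :=
  Cov.unI zR138 zR141 (by decide +kernel)
theorem zR143 : Cov (ix [0, 1, 2, 3, 4, 5, 6, 7, 8, 9, 10, 11, 12, 16, 17]) ⟨28, 3, 32⟩ ⟨1, 1, 8⟩ ⟨5, 1, 12⟩ :=
  Cov.sx zR137 zR142 (by decide +kernel)
theorem zR144 : Cov (ix [0, 1, 2, 3, 4, 5, 6, 7, 8, 9, 10, 11, 12, 13, 16, 17]) ⟨28, 3, 32⟩ ⟨1, 1, 8⟩ ⟨5, 1, 12⟩ :=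
  Cov.unI zR132 zR143 (by decide +kernel)
theorem zR145 : Cov (ix [0, 1, 2, 3, 4, 5, 6, 7, 8, 9, 10, 11, 12, 13, 16, 17]) ⟨28, 3, 32⟩ ⟨1, 3, 16⟩ ⟨5, 1, 12⟩ :=
  Cov.sy zR131 zR144 (by decide +kernel)
theorem zR146 : Cov (ix [0, 1, 2, 3, 4, 5, 6, 7, 8, 9, 10, 11, 12, 13, 16, 17]) ⟨28, 3, 32⟩ ⟨1, 3, 16⟩ ⟨2, 1, 6⟩ :=
  Cov.sz zR118 zR145 (by decide +kernel)
theorem zR147 : Cov (ix [0, 1, 2, 3, 4, 5, 6, 7, 8, 9, 10, 11, 12, 13, 16, 17]) ⟨28, 3, 32⟩ ⟨0, 1, 4⟩ ⟨2, 1, 6⟩ :=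
  Cov.sy zR113 zR146 (by decide +kernel)
theorem zR150 : Cov (ix [0, 1, 2, 3, 4, 5, 6, 7, 8, 9, 10, 11, 12, 13, 16, 17]) ⟨124, 3, 128⟩ ⟨0, 1, 16⟩ ⟨4, 1, 12⟩ :=
  Cov.sy zR148 zR149 (by decide +kernel)
theorem zR157 : Cov (ix [0, 1, 2, 3, 4, 5, 6, 7, 8, 9, 10, 11, 12, 17]) ⟨8191, 1, 8192⟩ ⟨0, 1, 1024⟩ ⟨4, 1, 12⟩ :=
  Cov.sx zR155 zR156 (by decide +kernel)
theorem zR158 : Cov (ix [0, 1, 2, 3, 4, 5, 6, 7, 8, 9, 10, 11, 12, 13, 16, 17]) ⟨8191, 1, 8192⟩ ⟨0, 1, 1024⟩ ⟨4, 1, 12⟩ :=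
  Cov.unI zR154 zR157 (by decide +kernel)
theorem zR159 : Cov (ix [0, 1, 2, 3, 4, 5, 6, 7, 8, 9, 10, 11, 12, 13, 16, 17]) ⟨2047, 1, 2048⟩ ⟨0, 1, 1024⟩ ⟨4, 1, 12⟩ :=
  Cov.sx zR153 zR158 (by decide +kernel)
theorem zR161 : Cov (ix [0, 1, 2, 3, 4, 5, 6, 7, 8, 9, 10, 11, 12, 13, 16, 17]) ⟨2047, 1, 2048⟩ ⟨0, 1, 256⟩ ⟨4, 1, 12⟩ :=
  Cov.sy zR159 zR160 (by decide +kernel)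
theorem zR162 : Cov (ix [0, 1, 2, 3, 4, 5, 6, 7, 8, 9, 10, 11, 12, 13, 16, 17]) ⟨511, 1, 512⟩ ⟨0, 1, 256⟩ ⟨4, 1, 12⟩ :=
  Cov.sx zR152 zR161 (by decide +kernel)
theorem zR165 : Cov (ix [0, 1, 2, 3, 4, 5, 6, 7, 8, 9, 10, 11, 12, 13, 16, 17]) ⟨511, 1, 512⟩ ⟨1, 3, 256⟩ ⟨4, 1, 12⟩ :=
  Cov.sx zR163 zR164 (by decide +kernel)
theorem zR166 : Cov (ix [0, 1, 2, 3, 4, 5, 6, 7, 8, 9, 10, 11, 12, 13, 16, 17]) ⟨511, 1, 512⟩ ⟨0, 1, 64⟩ ⟨4, 1, 12⟩ :=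
  Cov.sy zR162 zR165 (by decide +kernel)
theorem zR167 : Cov (ix [0, 1, 2, 3, 4, 5, 6, 7, 8, 9, 10, 11, 12, 13, 16, 17]) ⟨127, 1, 128⟩ ⟨0, 1, 64⟩ ⟨4, 1, 12⟩ :=
  Cov.sx zR151 zR166 (by decide +kernel)
theorem zR172 : Cov (ix [0, 1, 2, 3, 4, 5, 6, 7, 8, 9, 10, 11, 12, 13, 16, 17]) ⟨2047, 1, 2048⟩ ⟨1, 3, 64⟩ ⟨4, 1, 12⟩ :=
  Cov.sx zR170 zR171 (by decide +kernel)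
theorem zR173 : Cov (ix [0, 1, 2, 3, 4, 5, 6, 7, 8, 9, 10, 11, 12, 13, 16, 17]) ⟨511, 1, 512⟩ ⟨1, 3, 64⟩ ⟨4, 1, 12⟩ :=
  Cov.sx zR169 zR172 (by decide +kernel)
theorem zR174 : Cov (ix [0, 1, 2, 3, 4, 5, 6, 7, 8, 9, 10, 11, 12, 13, 16, 17]) ⟨127, 1, 128⟩ ⟨1, 3, 64⟩ ⟨4, 1, 12⟩ :=
  Cov.sx zR168 zR173 (by decide +kernel)
theorem zR175 : Cov (ix [0, 1, 2, 3, 4, 5, 6, 7, 8, 9, 10, 11, 12, 13, 16, 17]) ⟨127, 1, 128⟩ ⟨0, 1, 16⟩ ⟨4, 1, 12⟩ :=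
  Cov.sy zR167 zR174 (by decide +kernel)
theorem zR176 : Cov (ix [0, 1, 2, 3, 4, 5, 6, 7, 8, 9, 10, 11, 12, 13, 16, 17]) ⟨31, 1, 32⟩ ⟨0, 1, 16⟩ ⟨4, 1, 12⟩ :=
  Cov.sx zR150 zR175 (by decide +kernel)
theorem zR179 : Cov (ix [0, 1, 2, 3, 4, 5, 6, 7, 8, 9, 10, 11, 12, 13, 16, 17]) ⟨124, 3, 128⟩ ⟨0, 1, 16⟩ ⟨20, 3, 48⟩ :=
  Cov.sy zR177 zR178 (by decide +kernel)
theorem zR183 : Cov (ix [7, 8, 9, 10, 11]) ⟨508, 3, 512⟩ ⟨0, 1, 64⟩ ⟨20, 3, 48⟩ :=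
  Cov.sx zR181 zR182 (by decide +kernel)
theorem zR184 : Cov (ix [0, 1, 2, 3, 4, 5, 6, 7, 8, 9, 10, 11, 12, 13, 16, 17]) ⟨508, 3, 512⟩ ⟨0, 1, 64⟩ ⟨20, 3, 48⟩ :=
  Cov.unI zR180 zR183 (by decide +kernel)
theorem zR192 : Cov (ix [6, 7, 8, 9, 10, 11, 12]) ⟨32767, 1, 32768⟩ ⟨0, 1, 4096⟩ ⟨20, 3, 48⟩ :=
  Cov.sy zR190 zR191 (by decide +kernel)
theorem zR193 : Cov (ix [3, 4, 5, 6, 7, 8, 9, 10, 11, 12, 13]) ⟨32767, 1, 32768⟩ ⟨0, 1, 4096⟩ ⟨20, 3, 48⟩ :=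
  Cov.unI zR189 zR192 (by decide +kernel)
theorem zR194 : Cov (ix [3, 4, 5, 6, 7, 8, 9, 10, 11, 12, 13]) ⟨8191, 1, 8192⟩ ⟨0, 1, 4096⟩ ⟨20, 3, 48⟩ :=
  Cov.sx zR188 zR193 (by decide +kernel)
theorem zR195 : Cov (ix [0, 1, 2, 3, 4, 5, 6, 7, 8, 9, 10, 11, 12, 13, 16, 17]) ⟨8191, 1, 8192⟩ ⟨0, 1, 4096⟩ ⟨20, 3, 48⟩ :=
  Cov.unI zR187 zR194 (by decide +kernel)
theorem zR197 : Cov (ix [0, 1, 2, 3, 4, 5, 6, 7, 8, 9, 10, 11, 12, 13, 16, 17]) ⟨8191, 1, 8192⟩ ⟨0, 1, 1024⟩ ⟨20, 3, 48⟩ :=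
  Cov.sy zR195 zR196 (by decide +kernel)
theorem zR198 : Cov (ix [0, 1, 2, 3, 4, 5, 6, 7, 8, 9, 10, 11, 12, 13, 16, 17]) ⟨2047, 1, 2048⟩ ⟨0, 1, 1024⟩ ⟨20, 3, 48⟩ :=
  Cov.sx zR186 zR197 (by decide +kernel)
theorem zR202 : Cov (ix [7, 8, 9, 10, 11, 12]) ⟨2047, 1, 2048⟩ ⟨1, 3, 1024⟩ ⟨20, 3, 48⟩ :=
  Cov.sx zR200 zR201 (by decide +kernel)
theorem zR203 : Cov (ix [0, 1, 2, 3, 4, 5, 6, 7, 8, 9, 10, 11, 12, 13, 16, 17]) ⟨2047, 1, 2048⟩ ⟨1, 3, 1024⟩ ⟨20, 3, 48⟩ :=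
  Cov.unI zR199 zR202 (by decide +kernel)
theorem zR204 : Cov (ix [0, 1, 2, 3, 4, 5, 6, 7, 8, 9, 10, 11, 12, 13, 16, 17]) ⟨2047, 1, 2048⟩ ⟨0, 1, 256⟩ ⟨20, 3, 48⟩ :=
  Cov.sy zR198 zR203 (by decide +kernel)
theorem zR205 : Cov (ix [0, 1, 2, 3, 4, 5, 6, 7, 8, 9, 10, 11, 12, 13, 16, 17]) ⟨511, 1, 512⟩ ⟨0, 1, 256⟩ ⟨20, 3, 48⟩ :=
  Cov.sx zR185 zR204 (by decide +kernel)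
theorem zR210 : Cov (ix [2, 3, 4, 5, 6, 7, 8, 9, 10, 11, 12, 13]) ⟨2047, 1, 2048⟩ ⟨1, 3, 256⟩ ⟨20, 3, 48⟩ :=
  Cov.sx zR208 zR209 (by decide +kernel)
theorem zR211 : Cov (ix [0, 1, 2, 3, 4, 5, 6, 7, 8, 9, 10, 11, 12, 13, 16, 17]) ⟨2047, 1, 2048⟩ ⟨1, 3, 256⟩ ⟨20, 3, 48⟩ :=
  Cov.unI zR207 zR210 (by decide +kernel)
theorem zR212 : Cov (ix [0, 1, 2, 3, 4, 5, 6, 7, 8, 9, 10, 11, 12, 13, 16, 17]) ⟨511, 1, 512⟩ ⟨1, 3, 256⟩ ⟨20, 3, 48⟩ :=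
  Cov.sx zR206 zR211 (by decide +kernel)
theorem zR213 : Cov (ix [0, 1, 2, 3, 4, 5, 6, 7, 8, 9, 10, 11, 12, 13, 16, 17]) ⟨511, 1, 512⟩ ⟨0, 1, 64⟩ ⟨20, 3, 48⟩ :=
  Cov.sy zR205 zR212 (by decide +kernel)
theorem zR214 : Cov (ix [0, 1, 2, 3, 4, 5, 6, 7, 8, 9, 10, 11, 12, 13, 16, 17]) ⟨127, 1, 128⟩ ⟨0, 1, 64⟩ ⟨20, 3, 48⟩ :=
  Cov.sx zR184 zR213 (by decide +kernel)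
theorem zR223 : Cov (ix [9]) ⟨32767, 1, 32768⟩ ⟨1, 3, 64⟩ ⟨20, 3, 48⟩ :=
  Cov.sx zR221 zR222 (by decide +kernel)
theorem zR224 : Cov (ix [1, 2, 3, 4, 5, 6, 7, 8, 9, 10, 11, 12, 13]) ⟨32767, 1, 32768⟩ ⟨1, 3, 64⟩ ⟨20, 3, 48⟩ :=
  Cov.unI zR220 zR223 (by decide +kernel)
theorem zR225 : Cov (ix [1, 2, 3, 4, 5, 6, 7, 8, 9, 10, 11, 12, 13]) ⟨8191, 1, 8192⟩ ⟨1, 3, 64⟩ ⟨20, 3, 48⟩ :=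
  Cov.sx zR219 zR224 (by decide +kernel)
theorem zR226 : Cov (ix [0, 1, 2, 3, 4, 5, 6, 7, 8, 9, 10, 11, 12, 13, 16, 17]) ⟨8191, 1, 8192⟩ ⟨1, 3, 64⟩ ⟨20, 3, 48⟩ :=
  Cov.unI zR218 zR225 (by decide +kernel)
theorem zR227 : Cov (ix [0, 1, 2, 3, 4, 5, 6, 7, 8, 9, 10, 11, 12, 13, 16, 17]) ⟨2047, 1, 2048⟩ ⟨1, 3, 64⟩ ⟨20, 3, 48⟩ :=
  Cov.sx zR217 zR226 (by decide +kernel)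
theorem zR228 : Cov (ix [0, 1, 2, 3, 4, 5, 6, 7, 8, 9, 10, 11, 12, 13, 16, 17]) ⟨511, 1, 512⟩ ⟨1, 3, 64⟩ ⟨20, 3, 48⟩ :=
  Cov.sx zR216 zR227 (by decide +kernel)
theorem zR229 : Cov (ix [0, 1, 2, 3, 4, 5, 6, 7, 8, 9, 10, 11, 12, 13, 16, 17]) ⟨127, 1, 128⟩ ⟨1, 3, 64⟩ ⟨20, 3, 48⟩ :=
  Cov.sx zR215 zR228 (by decide +kernel)
theorem zR230 : Cov (ix [0, 1, 2, 3, 4, 5, 6, 7, 8, 9, 10, 11, 12, 13, 16, 17]) ⟨127, 1, 128⟩ ⟨0, 1, 16⟩ ⟨20, 3, 48⟩ :=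
  Cov.sy zR214 zR229 (by decide +kernel)
theorem zR231 : Cov (ix [0, 1, 2, 3, 4, 5, 6, 7, 8, 9, 10, 11, 12, 13, 16, 17]) ⟨31, 1, 32⟩ ⟨0, 1, 16⟩ ⟨20, 3, 48⟩ :=
  Cov.sx zR179 zR230 (by decide +kernel)
theorem zR236 : Cov (ix [3, 4, 5, 6, 7, 8, 9, 10, 11, 12]) ⟨124, 3, 128⟩ ⟨0, 1, 64⟩ ⟨95, 1, 192⟩ :=
  Cov.sx zR234 zR235 (by decide +kernel)
theorem zR237 : Cov (ix [0, 1, 2, 3, 4, 5, 6, 7, 8, 9, 10, 11, 12, 13, 16, 17]) ⟨124, 3, 128⟩ ⟨0, 1, 64⟩ ⟨95, 1, 192⟩ :=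
  Cov.unI zR233 zR236 (by decide +kernel)
theorem zR238 : Cov (ix [0, 1, 2, 3, 4, 5, 6, 7, 8, 9, 10, 11, 12, 13, 16, 17]) ⟨124, 3, 128⟩ ⟨0, 1, 64⟩ ⟨23, 1, 48⟩ :=
  Cov.sz zR232 zR237 (by decide +kernel)
theorem zR242 : Cov (ix [0, 1, 2, 3, 4, 5, 6, 7, 8, 9, 10, 11, 12, 16, 17]) ⟨124, 3, 128⟩ ⟨1, 3, 64⟩ ⟨23, 1, 48⟩ :=
  Cov.sy zR240 zR241 (by decide +kernel)
theorem zR243 : Cov (ix [0, 1, 2, 3, 4, 5, 6, 7, 8, 9, 10, 11, 12, 13, 16, 17]) ⟨124, 3, 128⟩ ⟨1, 3, 64⟩ ⟨23, 1, 48⟩ :=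
  Cov.unI zR239 zR242 (by decide +kernel)
theorem zR244 : Cov (ix [0, 1, 2, 3, 4, 5, 6, 7, 8, 9, 10, 11, 12, 13, 16, 17]) ⟨124, 3, 128⟩ ⟨0, 1, 16⟩ ⟨23, 1, 48⟩ :=
  Cov.sy zR238 zR243 (by decide +kernel)
theorem zR248 : Cov (ix [5, 6, 7, 8, 9, 10, 11, 12, 13]) ⟨508, 3, 512⟩ ⟨0, 1, 64⟩ ⟨92, 3, 192⟩ :=
  Cov.sy zR246 zR247 (by decide +kernel)
theorem zR249 : Cov (ix [0, 1, 2, 3, 4, 5, 6, 7, 8, 9, 10, 11, 12, 13, 16, 17]) ⟨508, 3, 512⟩ ⟨0, 1, 64⟩ ⟨92, 3, 192⟩ :=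
  Cov.unI zR245 zR248 (by decide +kernel)
theorem zR262 : Cov (ix [10, 11, 12]) ⟨131071, 1, 131072⟩ ⟨0, 1, 65536⟩ ⟨92, 3, 192⟩ :=
  Cov.sx zR260 zR261 (by decide +kernel)
theorem zR263 : Cov (ix [9, 10, 11, 12, 13]) ⟨131071, 1, 131072⟩ ⟨0, 1, 65536⟩ ⟨92, 3, 192⟩ :=
  Cov.unI zR259 zR262 (by decide +kernel)
theorem zR264 : Cov (ix [9, 10, 11, 12, 13]) ⟨32767, 1, 32768⟩ ⟨0, 1, 65536⟩ ⟨92, 3, 192⟩ :=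
  Cov.sx zR258 zR263 (by decide +kernel)
theorem zR265 : Cov (ix [7, 8, 9, 10, 11, 12, 13]) ⟨32767, 1, 32768⟩ ⟨0, 1, 65536⟩ ⟨92, 3, 192⟩ :=
  Cov.unI zR257 zR264 (by decide +kernel)
theorem zR267 : Cov (ix [7, 8, 9, 10, 11, 12, 13]) ⟨32767, 1, 32768⟩ ⟨0, 1, 16384⟩ ⟨92, 3, 192⟩ :=
  Cov.sy zR265 zR266 (by decide +kernel)
theorem zR268 : Cov (ix [5, 6, 7, 8, 9, 10, 11, 12, 13]) ⟨32767, 1, 32768⟩ ⟨0, 1, 16384⟩ ⟨92, 3, 192⟩ :=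
  Cov.unI zR256 zR267 (by decide +kernel)
theorem zR270 : Cov (ix [5, 6, 7, 8, 9, 10, 11, 12, 13]) ⟨32767, 1, 32768⟩ ⟨0, 1, 4096⟩ ⟨92, 3, 192⟩ :=
  Cov.sy zR268 zR269 (by decide +kernel)
theorem zR271 : Cov (ix [3, 4, 5, 6, 7, 8, 9, 10, 11, 12, 13]) ⟨32767, 1, 32768⟩ ⟨0, 1, 4096⟩ ⟨92, 3, 192⟩ :=
  Cov.unI zR255 zR270 (by decide +kernel)
theorem zR272 : Cov (ix [3, 4, 5, 6, 7, 8, 9, 10, 11, 12, 13]) ⟨8191, 1, 8192⟩ ⟨0, 1, 4096⟩ ⟨92, 3, 192⟩ :=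
  Cov.sx zR254 zR271 (by decide +kernel)
theorem zR273 : Cov (ix [1, 2, 3, 4, 5, 6, 7, 8, 9, 10, 11, 12, 13]) ⟨8191, 1, 8192⟩ ⟨0, 1, 4096⟩ ⟨92, 3, 192⟩ :=
  Cov.unI zR253 zR272 (by decide +kernel)
theorem zR277 : Cov (ix [9, 10, 11, 12]) ⟨8191, 1, 8192⟩ ⟨1, 3, 4096⟩ ⟨92, 3, 192⟩ :=
  Cov.sx zR275 zR276 (by decide +kernel)
theorem zR278 : Cov (ix [1, 2, 3, 4, 5, 6, 7, 8, 9, 10, 11, 12, 13]) ⟨8191, 1, 8192⟩ ⟨1, 3, 4096⟩ ⟨92, 3, 192⟩ :=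
  Cov.unI zR274 zR277 (by decide +kernel)
theorem zR279 : Cov (ix [1, 2, 3, 4, 5, 6, 7, 8, 9, 10, 11, 12, 13]) ⟨8191, 1, 8192⟩ ⟨0, 1, 1024⟩ ⟨92, 3, 192⟩ :=
  Cov.sy zR273 zR278 (by decide +kernel)
theorem zR280 : Cov (ix [0, 1, 2, 3, 4, 5, 6, 7, 8, 9, 10, 11, 12, 13, 16, 17]) ⟨8191, 1, 8192⟩ ⟨0, 1, 1024⟩ ⟨92, 3, 192⟩ :=
  Cov.unI zR252 zR279 (by decide +kernel)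
theorem zR281 : Cov (ix [0, 1, 2, 3, 4, 5, 6, 7, 8, 9, 10, 11, 12, 13, 16, 17]) ⟨2047, 1, 2048⟩ ⟨0, 1, 1024⟩ ⟨92, 3, 192⟩ :=
  Cov.sx zR251 zR280 (by decide +kernel)
theorem zR287 : Cov (ix [9, 10, 11, 12]) ⟨8191, 1, 8192⟩ ⟨1, 3, 1024⟩ ⟨92, 3, 192⟩ :=
  Cov.sx zR285 zR286 (by decide +kernel)
theorem zR288 : Cov (ix [5, 6, 7, 8, 9, 10, 11, 12, 13]) ⟨8191, 1, 8192⟩ ⟨1, 3, 1024⟩ ⟨92, 3, 192⟩ :=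
  Cov.unI zR284 zR287 (by decide +kernel)
theorem zR289 : Cov (ix [5, 6, 7, 8, 9, 10, 11, 12, 13]) ⟨2047, 1, 2048⟩ ⟨1, 3, 1024⟩ ⟨92, 3, 192⟩ :=
  Cov.sx zR283 zR288 (by decide +kernel)
theorem zR290 : Cov (ix [0, 1, 2, 3, 4, 5, 6, 7, 8, 9, 10, 11, 12, 13, 16, 17]) ⟨2047, 1, 2048⟩ ⟨1, 3, 1024⟩ ⟨92, 3, 192⟩ :=
  Cov.unI zR282 zR289 (by decide +kernel)
theorem zR291 : Cov (ix [0, 1, 2, 3, 4, 5, 6, 7, 8, 9, 10, 11, 12, 13, 16, 17]) ⟨2047, 1, 2048⟩ ⟨0, 1, 256⟩ ⟨92, 3, 192⟩ :=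
  Cov.sy zR281 zR290 (by decide +kernel)
theorem zR292 : Cov (ix [0, 1, 2, 3, 4, 5, 6, 7, 8, 9, 10, 11, 12, 13, 16, 17]) ⟨511, 1, 512⟩ ⟨0, 1, 256⟩ ⟨92, 3, 192⟩ :=
  Cov.sx zR250 zR291 (by decide +kernel)
theorem zR300 : Cov (ix [8, 9, 10, 11, 12, 13]) ⟨8191, 1, 8192⟩ ⟨1, 3, 256⟩ ⟨92, 3, 192⟩ :=
  Cov.sx zR298 zR299 (by decide +kernel)
theorem zR301 : Cov (ix [4, 5, 6, 7, 8, 9, 10, 11, 12, 13]) ⟨8191, 1, 8192⟩ ⟨1, 3, 256⟩ ⟨92, 3, 192⟩ :=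
  Cov.unI zR297 zR300 (by decide +kernel)
theorem zR302 : Cov (ix [4, 5, 6, 7, 8, 9, 10, 11, 12, 13]) ⟨2047, 1, 2048⟩ ⟨1, 3, 256⟩ ⟨92, 3, 192⟩ :=
  Cov.sx zR296 zR301 (by decide +kernel)
theorem zR303 : Cov (ix [0, 1, 2, 3, 4, 5, 6, 7, 8, 9, 10, 11, 12, 13, 17]) ⟨2047, 1, 2048⟩ ⟨1, 3, 256⟩ ⟨92, 3, 192⟩ :=
  Cov.unI zR295 zR302 (by decide +kernel)
theorem zR304 : Cov (ix [0, 1, 2, 3, 4, 5, 6, 7, 8, 9, 10, 11, 12, 13, 17]) ⟨511, 1, 512⟩ ⟨1, 3, 256⟩ ⟨92, 3, 192⟩ :=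
  Cov.sx zR294 zR303 (by decide +kernel)
theorem zR305 : Cov (ix [0, 1, 2, 3, 4, 5, 6, 7, 8, 9, 10, 11, 12, 13, 16, 17]) ⟨511, 1, 512⟩ ⟨1, 3, 256⟩ ⟨92, 3, 192⟩ :=
  Cov.unI zR293 zR304 (by decide +kernel)
theorem zR306 : Cov (ix [0, 1, 2, 3, 4, 5, 6, 7, 8, 9, 10, 11, 12, 13, 16, 17]) ⟨511, 1, 512⟩ ⟨0, 1, 64⟩ ⟨92, 3, 192⟩ :=
  Cov.sy zR292 zR305 (by decide +kernel)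
theorem zR307 : Cov (ix [0, 1, 2, 3, 4, 5, 6, 7, 8, 9, 10, 11, 12, 13, 16, 17]) ⟨127, 1, 128⟩ ⟨0, 1, 64⟩ ⟨92, 3, 192⟩ :=
  Cov.sx zR249 zR306 (by decide +kernel)
theorem zR311 : Cov (ix [0, 1, 2, 3, 4, 5, 6, 7, 8, 9, 10, 11, 12, 16, 17]) ⟨508, 3, 512⟩ ⟨0, 1, 256⟩ ⟨95, 1, 192⟩ :=
  Cov.sz zR309 zR310 (by decide +kernel)
theorem zR312 : Cov (ix [0, 1, 2, 3, 4, 5, 6, 7, 8, 9, 10, 11, 12, 13, 16, 17]) ⟨508, 3, 512⟩ ⟨0, 1, 256⟩ ⟨95, 1, 192⟩ :=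
  Cov.unI zR308 zR311 (by decide +kernel)
theorem zR314 : Cov (ix [0, 1, 2, 3, 4, 5, 6, 7, 8, 9, 10, 11, 12, 13, 16, 17]) ⟨508, 3, 512⟩ ⟨0, 1, 64⟩ ⟨95, 1, 192⟩ :=
  Cov.sy zR312 zR313 (by decide +kernel)
theorem zR318 : Cov (ix [10, 11, 12]) ⟨2044, 3, 2048⟩ ⟨0, 1, 256⟩ ⟨380, 3, 768⟩ :=
  Cov.sx zR316 zR317 (by decide +kernel)
theorem zR319 : Cov (ix [0, 1, 2, 3, 4, 5, 6, 7, 8, 9, 10, 11, 12, 13, 16, 17]) ⟨2044, 3, 2048⟩ ⟨0, 1, 256⟩ ⟨380, 3, 768⟩ :=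
  Cov.unI zR315 zR318 (by decide +kernel)
theorem zR334 : Cov (ix [12]) ⟨524287, 1, 524288⟩ ⟨0, 1, 262144⟩ ⟨190, 1, 384⟩ :=
  Cov.sx zR332 zR333 (by decide +kernel)
theorem zR335 : Cov (ix [9, 10, 11, 12]) ⟨524287, 1, 524288⟩ ⟨0, 1, 262144⟩ ⟨190, 1, 384⟩ :=
  Cov.unI zR331 zR334 (by decide +kernel)
theorem zR341 : Cov (ix [11, 12]) ⟨2097151, 1, 2097152⟩ ⟨0, 1, 262144⟩ ⟨382, 1, 768⟩ :=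
  Cov.sy zR339 zR340 (by decide +kernel)
theorem zR342 : Cov (ix [10, 11, 12]) ⟨2097151, 1, 2097152⟩ ⟨0, 1, 262144⟩ ⟨382, 1, 768⟩ :=
  Cov.unI zR338 zR341 (by decide +kernel)
theorem zR343 : Cov (ix [10, 11, 12]) ⟨524287, 1, 524288⟩ ⟨0, 1, 262144⟩ ⟨382, 1, 768⟩ :=
  Cov.sx zR337 zR342 (by decide +kernel)
theorem zR344 : Cov (ix [9, 10, 11, 12]) ⟨524287, 1, 524288⟩ ⟨0, 1, 262144⟩ ⟨382, 1, 768⟩ :=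
  Cov.unI zR336 zR343 (by decide +kernel)
theorem zR345 : Cov (ix [9, 10, 11, 12]) ⟨524287, 1, 524288⟩ ⟨0, 1, 262144⟩ ⟨380, 3, 768⟩ :=
  Cov.sz zR335 zR344 (by decide +kernel)
theorem zR347 : Cov (ix [9, 10, 11, 12]) ⟨524287, 1, 524288⟩ ⟨0, 1, 65536⟩ ⟨380, 3, 768⟩ :=
  Cov.sy zR345 zR346 (by decide +kernel)
theorem zR348 : Cov (ix [8, 9, 10, 11, 12, 13]) ⟨524287, 1, 524288⟩ ⟨0, 1, 65536⟩ ⟨380, 3, 768⟩ :=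
  Cov.unI zR330 zR347 (by decide +kernel)
theorem zR349 : Cov (ix [8, 9, 10, 11, 12, 13]) ⟨131071, 1, 131072⟩ ⟨0, 1, 65536⟩ ⟨380, 3, 768⟩ :=
  Cov.sx zR329 zR348 (by decide +kernel)
theorem zR350 : Cov (ix [7, 8, 9, 10, 11, 12, 13]) ⟨131071, 1, 131072⟩ ⟨0, 1, 65536⟩ ⟨380, 3, 768⟩ :=
  Cov.unI zR328 zR349 (by decide +kernel)
theorem zR351 : Cov (ix [7, 8, 9, 10, 11, 12, 13]) ⟨32767, 1, 32768⟩ ⟨0, 1, 65536⟩ ⟨380, 3, 768⟩ :=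
  Cov.sx zR327 zR350 (by decide +kernel)
theorem zR352 : Cov (ix [6, 7, 8, 9, 10, 11, 12, 13]) ⟨32767, 1, 32768⟩ ⟨0, 1, 65536⟩ ⟨380, 3, 768⟩ :=
  Cov.unI zR326 zR351 (by decide +kernel)
theorem zR358 : Cov (ix [10, 11, 12]) ⟨131071, 1, 131072⟩ ⟨1, 3, 65536⟩ ⟨380, 3, 768⟩ :=
  Cov.sx zR356 zR357 (by decide +kernel)
theorem zR359 : Cov (ix [9, 10, 11, 12]) ⟨131071, 1, 131072⟩ ⟨1, 3, 65536⟩ ⟨380, 3, 768⟩ :=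
  Cov.unI zR355 zR358 (by decide +kernel)
theorem zR360 : Cov (ix [9, 10, 11, 12]) ⟨32767, 1, 32768⟩ ⟨1, 3, 65536⟩ ⟨380, 3, 768⟩ :=
  Cov.sx zR354 zR359 (by decide +kernel)
theorem zR361 : Cov (ix [6, 7, 8, 9, 10, 11, 12, 13]) ⟨32767, 1, 32768⟩ ⟨1, 3, 65536⟩ ⟨380, 3, 768⟩ :=
  Cov.unI zR353 zR360 (by decide +kernel)
theorem zR362 : Cov (ix [6, 7, 8, 9, 10, 11, 12, 13]) ⟨32767, 1, 32768⟩ ⟨0, 1, 16384⟩ ⟨380, 3, 768⟩ :=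
  Cov.sy zR352 zR361 (by decide +kernel)
theorem zR363 : Cov (ix [4, 5, 6, 7, 8, 9, 10, 11, 12, 13]) ⟨32767, 1, 32768⟩ ⟨0, 1, 16384⟩ ⟨380, 3, 768⟩ :=
  Cov.unI zR325 zR362 (by decide +kernel)
theorem zR369 : Cov (ix [11]) ⟨131071, 1, 131072⟩ ⟨1, 3, 16384⟩ ⟨380, 3, 768⟩ :=
  Cov.sx zR367 zR368 (by decide +kernel)
theorem zR370 : Cov (ix [9, 10, 11, 12]) ⟨131071, 1, 131072⟩ ⟨1, 3, 16384⟩ ⟨380, 3, 768⟩ :=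
  Cov.unI zR366 zR369 (by decide +kernel)
theorem zR371 : Cov (ix [9, 10, 11, 12]) ⟨32767, 1, 32768⟩ ⟨1, 3, 16384⟩ ⟨380, 3, 768⟩ :=
  Cov.sx zR365 zR370 (by decide +kernel)
theorem zR372 : Cov (ix [4, 5, 6, 7, 8, 9, 10, 11, 12, 13]) ⟨32767, 1, 32768⟩ ⟨1, 3, 16384⟩ ⟨380, 3, 768⟩ :=
  Cov.unI zR364 zR371 (by decide +kernel)
theorem zR373 : Cov (ix [4, 5, 6, 7, 8, 9, 10, 11, 12, 13]) ⟨32767, 1, 32768⟩ ⟨0, 1, 4096⟩ ⟨380, 3, 768⟩ :=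
  Cov.sy zR363 zR372 (by decide +kernel)
theorem zR374 : Cov (ix [2, 3, 4, 5, 6, 7, 8, 9, 10, 11, 12, 13]) ⟨32767, 1, 32768⟩ ⟨0, 1, 4096⟩ ⟨380, 3, 768⟩ :=
  Cov.unI zR324 zR373 (by decide +kernel)
theorem zR375 : Cov (ix [2, 3, 4, 5, 6, 7, 8, 9, 10, 11, 12, 13]) ⟨8191, 1, 8192⟩ ⟨0, 1, 4096⟩ ⟨380, 3, 768⟩ :=
  Cov.sx zR323 zR374 (by decide +kernel)
theorem zR376 : Cov (ix [0, 1, 2, 3, 4, 5, 6, 7, 8, 9, 10, 11, 12, 13, 17]) ⟨8191, 1, 8192⟩ ⟨0, 1, 4096⟩ ⟨380, 3, 768⟩ :=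
  Cov.unI zR322 zR375 (by decide +kernel)
theorem zR382 : Cov (ix [11, 12]) ⟨32767, 1, 32768⟩ ⟨1, 3, 4096⟩ ⟨380, 3, 768⟩ :=
  Cov.sx zR380 zR381 (by decide +kernel)
theorem zR383 : Cov (ix [7, 8, 9, 10, 11, 12, 13]) ⟨32767, 1, 32768⟩ ⟨1, 3, 4096⟩ ⟨380, 3, 768⟩ :=
  Cov.unI zR379 zR382 (by decide +kernel)
theorem zR384 : Cov (ix [7, 8, 9, 10, 11, 12, 13]) ⟨8191, 1, 8192⟩ ⟨1, 3, 4096⟩ ⟨380, 3, 768⟩ :=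
  Cov.sx zR378 zR383 (by decide +kernel)
theorem zR385 : Cov (ix [0, 1, 2, 3, 4, 5, 6, 7, 8, 9, 10, 11, 12, 13, 17]) ⟨8191, 1, 8192⟩ ⟨1, 3, 4096⟩ ⟨380, 3, 768⟩ :=
  Cov.unI zR377 zR384 (by decide +kernel)
theorem zR386 : Cov (ix [0, 1, 2, 3, 4, 5, 6, 7, 8, 9, 10, 11, 12, 13, 17]) ⟨8191, 1, 8192⟩ ⟨0, 1, 1024⟩ ⟨380, 3, 768⟩ :=
  Cov.sy zR376 zR385 (by decide +kernel)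
theorem zR387 : Cov (ix [0, 1, 2, 3, 4, 5, 6, 7, 8, 9, 10, 11, 12, 13, 16, 17]) ⟨8191, 1, 8192⟩ ⟨0, 1, 1024⟩ ⟨380, 3, 768⟩ :=
  Cov.unI zR321 zR386 (by decide +kernel)
theorem zR388 : Cov (ix [0, 1, 2, 3, 4, 5, 6, 7, 8, 9, 10, 11, 12, 13, 16, 17]) ⟨2047, 1, 2048⟩ ⟨0, 1, 1024⟩ ⟨380, 3, 768⟩ :=
  Cov.sx zR320 zR387 (by decide +kernel)
theorem zR394 : Cov (ix [7, 8, 9, 10, 11, 12, 13]) ⟨8191, 1, 8192⟩ ⟨1, 3, 1024⟩ ⟨380, 3, 768⟩ :=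
  Cov.sx zR392 zR393 (by decide +kernel)
theorem zR395 : Cov (ix [4, 5, 6, 7, 8, 9, 10, 11, 12, 13]) ⟨8191, 1, 8192⟩ ⟨1, 3, 1024⟩ ⟨380, 3, 768⟩ :=
  Cov.unI zR391 zR394 (by decide +kernel)
theorem zR396 : Cov (ix [4, 5, 6, 7, 8, 9, 10, 11, 12, 13]) ⟨2047, 1, 2048⟩ ⟨1, 3, 1024⟩ ⟨380, 3, 768⟩ :=
  Cov.sx zR390 zR395 (by decide +kernel)
theorem zR397 : Cov (ix [0, 1, 2, 3, 4, 5, 6, 7, 8, 9, 10, 11, 12, 13, 16, 17]) ⟨2047, 1, 2048⟩ ⟨1, 3, 1024⟩ ⟨380, 3, 768⟩ :=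
  Cov.unI zR389 zR396 (by decide +kernel)
theorem zR398 : Cov (ix [0, 1, 2, 3, 4, 5, 6, 7, 8, 9, 10, 11, 12, 13, 16, 17]) ⟨2047, 1, 2048⟩ ⟨0, 1, 256⟩ ⟨380, 3, 768⟩ :=
  Cov.sy zR388 zR397 (by decide +kernel)
theorem zR399 : Cov (ix [0, 1, 2, 3, 4, 5, 6, 7, 8, 9, 10, 11, 12, 13, 16, 17]) ⟨511, 1, 512⟩ ⟨0, 1, 256⟩ ⟨380, 3, 768⟩ :=
  Cov.sx zR319 zR398 (by decide +kernel)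
theorem zR403 : Cov (ix [2, 3, 4, 5, 6, 7, 8, 9, 10, 11]) ⟨2044, 3, 2048⟩ ⟨0, 1, 1024⟩ ⟨383, 1, 768⟩ :=
  Cov.sz zR401 zR402 (by decide +kernel)
theorem zR404 : Cov (ix [0, 1, 2, 3, 4, 5, 6, 7, 8, 9, 10, 11, 12, 13, 16, 17]) ⟨2044, 3, 2048⟩ ⟨0, 1, 1024⟩ ⟨383, 1, 768⟩ :=
  Cov.unI zR400 zR403 (by decide +kernel)
theorem zR406 : Cov (ix [0, 1, 2, 3, 4, 5, 6, 7, 8, 9, 10, 11, 12, 13, 16, 17]) ⟨2044, 3, 2048⟩ ⟨0, 1, 256⟩ ⟨383, 1, 768⟩ :=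
  Cov.sy zR404 zR405 (by decide +kernel)
theorem zR410 : Cov (ix [9, 10, 11]) ⟨8188, 3, 8192⟩ ⟨0, 1, 1024⟩ ⟨1532, 3, 3072⟩ :=
  Cov.sx zR408 zR409 (by decide +kernel)
theorem zR411 : Cov (ix [0, 1, 2, 3, 4, 5, 6, 7, 8, 9, 10, 11, 12, 13, 16, 17]) ⟨8188, 3, 8192⟩ ⟨0, 1, 1024⟩ ⟨1532, 3, 3072⟩ :=
  Cov.unI zR407 zR410 (by decide +kernel)
theorem zR417 : Cov (ix [9, 10]) ⟨32764, 3, 32768⟩ ⟨0, 1, 4096⟩ ⟨1532, 3, 3072⟩ :=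
  Cov.sx zR415 zR416 (by decide +kernel)
theorem zR418 : Cov (ix [0, 1, 2, 3, 4, 5, 6, 7, 8, 9, 10, 11, 12, 13]) ⟨32764, 3, 32768⟩ ⟨0, 1, 4096⟩ ⟨1532, 3, 3072⟩ :=
  Cov.unI zR414 zR417 (by decide +kernel)
theorem zR427 : Cov (ix [9, 10]) ⟨524284, 3, 524288⟩ ⟨0, 1, 65536⟩ ⟨1532, 3, 3072⟩ :=
  Cov.sx zR425 zR426 (by decide +kernel)
theorem zR428 : Cov (ix [7, 8, 9, 10, 11, 12, 13]) ⟨524284, 3, 524288⟩ ⟨0, 1, 65536⟩ ⟨1532, 3, 3072⟩ :=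
  Cov.unI zR424 zR427 (by decide +kernel)
theorem zR434 : Cov (ix [9, 10]) ⟨2097148, 3, 2097152⟩ ⟨0, 1, 262144⟩ ⟨1532, 3, 3072⟩ :=
  Cov.sy zR432 zR433 (by decide +kernel)
theorem zR435 : Cov (ix [8, 9, 10, 11, 12]) ⟨2097148, 3, 2097152⟩ ⟨0, 1, 262144⟩ ⟨1532, 3, 3072⟩ :=
  Cov.unI zR431 zR434 (by decide +kernel)
theorem zR440 : Cov (ix [10, 11]) ⟨2097151, 1, 2097152⟩ ⟨0, 1, 1048576⟩ ⟨766, 1, 1536⟩ :=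
  Cov.sy zR438 zR439 (by decide +kernel)
theorem zR441 : Cov (ix [9, 10, 11, 12]) ⟨2097151, 1, 2097152⟩ ⟨0, 1, 1048576⟩ ⟨766, 1, 1536⟩ :=
  Cov.unI zR437 zR440 (by decide +kernel)
theorem zR445 : Cov (ix [9, 10, 11]) ⟨2097151, 1, 2097152⟩ ⟨0, 1, 4194304⟩ ⟨1534, 1, 3072⟩ :=
  Cov.sx zR443 zR444 (by decide +kernel)
theorem zR447 : Cov (ix [9, 10, 11]) ⟨2097151, 1, 2097152⟩ ⟨0, 1, 1048576⟩ ⟨1534, 1, 3072⟩ :=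
  Cov.sy zR445 zR446 (by decide +kernel)
theorem zR448 : Cov (ix [9, 10, 11, 12]) ⟨2097151, 1, 2097152⟩ ⟨0, 1, 1048576⟩ ⟨1534, 1, 3072⟩ :=
  Cov.unI zR442 zR447 (by decide +kernel)
theorem zR449 : Cov (ix [9, 10, 11, 12]) ⟨2097151, 1, 2097152⟩ ⟨0, 1, 1048576⟩ ⟨1532, 3, 3072⟩ :=
  Cov.sz zR441 zR448 (by decide +kernel)
theorem zR450 : Cov (ix [8, 9, 10, 11, 12]) ⟨2097151, 1, 2097152⟩ ⟨0, 1, 1048576⟩ ⟨1532, 3, 3072⟩ :=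
  Cov.unI zR436 zR449 (by decide +kernel)
theorem zR454 : Cov (ix [9, 10, 11]) ⟨2097151, 1, 2097152⟩ ⟨1, 3, 1048576⟩ ⟨1532, 3, 3072⟩ :=
  Cov.sz zR452 zR453 (by decide +kernel)
theorem zR455 : Cov (ix [8, 9, 10, 11, 12]) ⟨2097151, 1, 2097152⟩ ⟨1, 3, 1048576⟩ ⟨1532, 3, 3072⟩ :=
  Cov.unI zR451 zR454 (by decide +kernel)
theorem zR456 : Cov (ix [8, 9, 10, 11, 12]) ⟨2097151, 1, 2097152⟩ ⟨0, 1, 262144⟩ ⟨1532, 3, 3072⟩ :=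
  Cov.sy zR450 zR455 (by decide +kernel)
theorem zR457 : Cov (ix [8, 9, 10, 11, 12]) ⟨524287, 1, 524288⟩ ⟨0, 1, 262144⟩ ⟨1532, 3, 3072⟩ :=
  Cov.sx zR435 zR456 (by decide +kernel)
theorem zR458 : Cov (ix [7, 8, 9, 10, 11, 12]) ⟨524287, 1, 524288⟩ ⟨0, 1, 262144⟩ ⟨1532, 3, 3072⟩ :=
  Cov.unI zR430 zR457 (by decide +kernel)
theorem zR464 : Cov (ix [10]) ⟨524287, 1, 524288⟩ ⟨1, 3, 262144⟩ ⟨1534, 1, 3072⟩ :=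
  Cov.sx zR462 zR463 (by decide +kernel)
theorem zR465 : Cov (ix [9, 10, 11]) ⟨524287, 1, 524288⟩ ⟨1, 3, 262144⟩ ⟨1534, 1, 3072⟩ :=
  Cov.unI zR461 zR464 (by decide +kernel)
theorem zR466 : Cov (ix [9, 10, 11]) ⟨524287, 1, 524288⟩ ⟨1, 3, 262144⟩ ⟨1532, 3, 3072⟩ :=
  Cov.sz zR460 zR465 (by decide +kernel)
theorem zR467 : Cov (ix [7, 8, 9, 10, 11, 12]) ⟨524287, 1, 524288⟩ ⟨1, 3, 262144⟩ ⟨1532, 3, 3072⟩ :=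
  Cov.unI zR459 zR466 (by decide +kernel)
theorem zR468 : Cov (ix [7, 8, 9, 10, 11, 12]) ⟨524287, 1, 524288⟩ ⟨0, 1, 65536⟩ ⟨1532, 3, 3072⟩ :=
  Cov.sy zR458 zR467 (by decide +kernel)
theorem zR469 : Cov (ix [7, 8, 9, 10, 11, 12, 13]) ⟨524287, 1, 524288⟩ ⟨0, 1, 65536⟩ ⟨1532, 3, 3072⟩ :=
  Cov.unI zR429 zR468 (by decide +kernel)
theorem zR470 : Cov (ix [7, 8, 9, 10, 11, 12, 13]) ⟨131071, 1, 131072⟩ ⟨0, 1, 65536⟩ ⟨1532, 3, 3072⟩ :=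
  Cov.sx zR428 zR469 (by decide +kernel)
theorem zR471 : Cov (ix [5, 6, 7, 8, 9, 10, 11, 12, 13]) ⟨131071, 1, 131072⟩ ⟨0, 1, 65536⟩ ⟨1532, 3, 3072⟩ :=
  Cov.unI zR423 zR470 (by decide +kernel)
theorem zR477 : Cov (ix [9, 10, 11]) ⟨524287, 1, 524288⟩ ⟨1, 3, 65536⟩ ⟨1532, 3, 3072⟩ :=
  Cov.sx zR475 zR476 (by decide +kernel)
theorem zR478 : Cov (ix [9, 10, 11, 12]) ⟨524287, 1, 524288⟩ ⟨1, 3, 65536⟩ ⟨1532, 3, 3072⟩ :=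
  Cov.unI zR474 zR477 (by decide +kernel)
theorem zR479 : Cov (ix [9, 10, 11, 12]) ⟨131071, 1, 131072⟩ ⟨1, 3, 65536⟩ ⟨1532, 3, 3072⟩ :=
  Cov.sx zR473 zR478 (by decide +kernel)
theorem zR480 : Cov (ix [5, 6, 7, 8, 9, 10, 11, 12, 13]) ⟨131071, 1, 131072⟩ ⟨1, 3, 65536⟩ ⟨1532, 3, 3072⟩ :=
  Cov.unI zR472 zR479 (by decide +kernel)
theorem zR481 : Cov (ix [5, 6, 7, 8, 9, 10, 11, 12, 13]) ⟨131071, 1, 131072⟩ ⟨0, 1, 16384⟩ ⟨1532, 3, 3072⟩ :=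
  Cov.sy zR471 zR480 (by decide +kernel)
theorem zR482 : Cov (ix [4, 5, 6, 7, 8, 9, 10, 11, 12, 13]) ⟨131071, 1, 131072⟩ ⟨0, 1, 16384⟩ ⟨1532, 3, 3072⟩ :=
  Cov.unI zR422 zR481 (by decide +kernel)
theorem zR483 : Cov (ix [4, 5, 6, 7, 8, 9, 10, 11, 12, 13]) ⟨32767, 1, 32768⟩ ⟨0, 1, 16384⟩ ⟨1532, 3, 3072⟩ :=
  Cov.sx zR421 zR482 (by decide +kernel)
theorem zR484 : Cov (ix [2, 3, 4, 5, 6, 7, 8, 9, 10, 11, 12, 13]) ⟨32767, 1, 32768⟩ ⟨0, 1, 16384⟩ ⟨1532, 3, 3072⟩ :=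
  Cov.unI zR420 zR483 (by decide +kernel)
theorem zR490 : Cov (ix [9, 10, 11]) ⟨131071, 1, 131072⟩ ⟨1, 3, 16384⟩ ⟨1532, 3, 3072⟩ :=
  Cov.sx zR488 zR489 (by decide +kernel)
theorem zR491 : Cov (ix [8, 9, 10, 11, 12]) ⟨131071, 1, 131072⟩ ⟨1, 3, 16384⟩ ⟨1532, 3, 3072⟩ :=
  Cov.unI zR487 zR490 (by decide +kernel)
theorem zR492 : Cov (ix [8, 9, 10, 11, 12]) ⟨32767, 1, 32768⟩ ⟨1, 3, 16384⟩ ⟨1532, 3, 3072⟩ :=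
  Cov.sx zR486 zR491 (by decide +kernel)
theorem zR493 : Cov (ix [2, 3, 4, 5, 6, 7, 8, 9, 10, 11, 12, 13]) ⟨32767, 1, 32768⟩ ⟨1, 3, 16384⟩ ⟨1532, 3, 3072⟩ :=
  Cov.unI zR485 zR492 (by decide +kernel)
theorem zR494 : Cov (ix [2, 3, 4, 5, 6, 7, 8, 9, 10, 11, 12, 13]) ⟨32767, 1, 32768⟩ ⟨0, 1, 4096⟩ ⟨1532, 3, 3072⟩ :=
  Cov.sy zR484 zR493 (by decide +kernel)
theorem zR495 : Cov (ix [0, 1, 2, 3, 4, 5, 6, 7, 8, 9, 10, 11, 12, 13]) ⟨32767, 1, 32768⟩ ⟨0, 1, 4096⟩ ⟨1532, 3, 3072⟩ :=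
  Cov.unI zR419 zR494 (by decide +kernel)
theorem zR496 : Cov (ix [0, 1, 2, 3, 4, 5, 6, 7, 8, 9, 10, 11, 12, 13]) ⟨8191, 1, 8192⟩ ⟨0, 1, 4096⟩ ⟨1532, 3, 3072⟩ :=
  Cov.sx zR418 zR495 (by decide +kernel)
theorem zR497 : Cov (ix [0, 1, 2, 3, 4, 5, 6, 7, 8, 9, 10, 11, 12, 13, 17]) ⟨8191, 1, 8192⟩ ⟨0, 1, 4096⟩ ⟨1532, 3, 3072⟩ :=
  Cov.unI zR413 zR496 (by decide +kernel)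
theorem zR503 : Cov (ix [9, 10, 11, 12]) ⟨32767, 1, 32768⟩ ⟨1, 3, 4096⟩ ⟨1532, 3, 3072⟩ :=
  Cov.sx zR501 zR502 (by decide +kernel)
theorem zR504 : Cov (ix [6, 7, 8, 9, 10, 11, 12, 13]) ⟨32767, 1, 32768⟩ ⟨1, 3, 4096⟩ ⟨1532, 3, 3072⟩ :=
  Cov.unI zR500 zR503 (by decide +kernel)
theorem zR505 : Cov (ix [6, 7, 8, 9, 10, 11, 12, 13]) ⟨8191, 1, 8192⟩ ⟨1, 3, 4096⟩ ⟨1532, 3, 3072⟩ :=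
  Cov.sx zR499 zR504 (by decide +kernel)
theorem zR506 : Cov (ix [0, 1, 2, 3, 4, 5, 6, 7, 8, 9, 10, 11, 12, 13, 17]) ⟨8191, 1, 8192⟩ ⟨1, 3, 4096⟩ ⟨1532, 3, 3072⟩ :=
  Cov.unI zR498 zR505 (by decide +kernel)
theorem zR507 : Cov (ix [0, 1, 2, 3, 4, 5, 6, 7, 8, 9, 10, 11, 12, 13, 17]) ⟨8191, 1, 8192⟩ ⟨0, 1, 1024⟩ ⟨1532, 3, 3072⟩ :=
  Cov.sy zR497 zR506 (by decide +kernel)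
theorem zR508 : Cov (ix [0, 1, 2, 3, 4, 5, 6, 7, 8, 9, 10, 11, 12, 13, 16, 17]) ⟨8191, 1, 8192⟩ ⟨0, 1, 1024⟩ ⟨1532, 3, 3072⟩ :=
  Cov.unI zR412 zR507 (by decide +kernel)
theorem zR509 : Cov (ix [0, 1, 2, 3, 4, 5, 6, 7, 8, 9, 10, 11, 12, 13, 16, 17]) ⟨2047, 1, 2048⟩ ⟨0, 1, 1024⟩ ⟨1532, 3, 3072⟩ :=
  Cov.sx zR411 zR508 (by decide +kernel)
theorem zR513 : Cov (ix [4, 5, 6, 7, 8, 9, 10, 11]) ⟨8188, 3, 8192⟩ ⟨0, 1, 4096⟩ ⟨1535, 1, 3072⟩ :=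
  Cov.sz zR511 zR512 (by decide +kernel)
theorem zR514 : Cov (ix [0, 1, 2, 3, 4, 5, 6, 7, 8, 9, 10, 11, 12, 13, 16, 17]) ⟨8188, 3, 8192⟩ ⟨0, 1, 4096⟩ ⟨1535, 1, 3072⟩ :=
  Cov.unI zR510 zR513 (by decide +kernel)
theorem zR519 : Cov (ix [9, 10]) ⟨32764, 3, 32768⟩ ⟨0, 1, 4096⟩ ⟨6140, 3, 12288⟩ :=
  Cov.sx zR517 zR518 (by decide +kernel)
theorem zR520 : Cov (ix [0, 1, 2, 3, 4, 5, 6, 7, 8, 9, 10, 11, 12, 13, 17]) ⟨32764, 3, 32768⟩ ⟨0, 1, 4096⟩ ⟨6140, 3, 12288⟩ :=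
  Cov.unI zR516 zR519 (by decide +kernel)
theorem zR526 : Cov (ix [9]) ⟨131068, 3, 131072⟩ ⟨0, 1, 16384⟩ ⟨6140, 3, 12288⟩ :=
  Cov.sx zR524 zR525 (by decide +kernel)
theorem zR527 : Cov (ix [4, 5, 6, 7, 8, 9, 10, 11, 12, 13]) ⟨131068, 3, 131072⟩ ⟨0, 1, 16384⟩ ⟨6140, 3, 12288⟩ :=
  Cov.unI zR523 zR526 (by decide +kernel)
theorem zR533 : Cov (ix [9]) ⟨524284, 3, 524288⟩ ⟨0, 1, 65536⟩ ⟨6140, 3, 12288⟩ :=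
  Cov.sy zR531 zR532 (by decide +kernel)
theorem zR534 : Cov (ix [6, 7, 8, 9, 10, 11, 12]) ⟨524284, 3, 524288⟩ ⟨0, 1, 65536⟩ ⟨6140, 3, 12288⟩ :=
  Cov.unI zR530 zR533 (by decide +kernel)
theorem zR539 : Cov (ix [9]) ⟨2097148, 3, 2097152⟩ ⟨0, 1, 262144⟩ ⟨6140, 3, 12288⟩ :=
  Cov.sz zR537 zR538 (by decide +kernel)
theorem zR540 : Cov (ix [7, 8, 9, 10, 11, 12]) ⟨2097148, 3, 2097152⟩ ⟨0, 1, 262144⟩ ⟨6140, 3, 12288⟩ :=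
  Cov.unI zR536 zR539 (by decide +kernel)
theorem zR545 : Cov (ix [9]) ⟨8388604, 3, 8388608⟩ ⟨0, 1, 1048576⟩ ⟨6140, 3, 12288⟩ :=
  Cov.sz zR543 zR544 (by decide +kernel)
theorem zR546 : Cov (ix [8, 9, 10, 11]) ⟨8388604, 3, 8388608⟩ ⟨0, 1, 1048576⟩ ⟨6140, 3, 12288⟩ :=
  Cov.unI zR542 zR545 (by decide +kernel)
theorem zR551 : Cov (ix [9]) ⟨8388607, 1, 8388608⟩ ⟨0, 1, 4194304⟩ ⟨3070, 1, 6144⟩ :=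
  Cov.sx zR549 zR550 (by decide +kernel)
theorem zR552 : Cov (ix [9, 10, 11]) ⟨8388607, 1, 8388608⟩ ⟨0, 1, 4194304⟩ ⟨3070, 1, 6144⟩ :=
  Cov.unI zR548 zR551 (by decide +kernel)
theorem zR556 : Cov (ix [9]) ⟨8388607, 1, 8388608⟩ ⟨0, 1, 4194304⟩ ⟨6142, 1, 12288⟩ :=
  Cov.sy zR554 zR555 (by decide +kernel)
theorem zR557 : Cov (ix [9, 10, 11]) ⟨8388607, 1, 8388608⟩ ⟨0, 1, 4194304⟩ ⟨6142, 1, 12288⟩ :=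
  Cov.unI zR553 zR556 (by decide +kernel)
theorem zR558 : Cov (ix [9, 10, 11]) ⟨8388607, 1, 8388608⟩ ⟨0, 1, 4194304⟩ ⟨6140, 3, 12288⟩ :=
  Cov.sz zR552 zR557 (by decide +kernel)
theorem zR562 : Cov (ix [9]) ⟨8388607, 1, 8388608⟩ ⟨1, 3, 4194304⟩ ⟨6140, 3, 12288⟩ :=
  Cov.sz zR560 zR561 (by decide +kernel)
theorem zR563 : Cov (ix [9, 10, 11]) ⟨8388607, 1, 8388608⟩ ⟨1, 3, 4194304⟩ ⟨6140, 3, 12288⟩ :=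
  Cov.unI zR559 zR562 (by decide +kernel)
theorem zR564 : Cov (ix [9, 10, 11]) ⟨8388607, 1, 8388608⟩ ⟨0, 1, 1048576⟩ ⟨6140, 3, 12288⟩ :=
  Cov.sy zR558 zR563 (by decide +kernel)
theorem zR565 : Cov (ix [8, 9, 10, 11]) ⟨8388607, 1, 8388608⟩ ⟨0, 1, 1048576⟩ ⟨6140, 3, 12288⟩ :=
  Cov.unI zR547 zR564 (by decide +kernel)
theorem zR566 : Cov (ix [8, 9, 10, 11]) ⟨2097151, 1, 2097152⟩ ⟨0, 1, 1048576⟩ ⟨6140, 3, 12288⟩ :=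
  Cov.sx zR546 zR565 (by decide +kernel)
theorem zR567 : Cov (ix [7, 8, 9, 10, 11, 12]) ⟨2097151, 1, 2097152⟩ ⟨0, 1, 1048576⟩ ⟨6140, 3, 12288⟩ :=
  Cov.unI zR541 zR566 (by decide +kernel)
theorem zR571 : Cov (ix [9, 10]) ⟨2097151, 1, 2097152⟩ ⟨1, 3, 1048576⟩ ⟨6140, 3, 12288⟩ :=
  Cov.sz zR569 zR570 (by decide +kernel)
theorem zR572 : Cov (ix [7, 8, 9, 10, 11, 12]) ⟨2097151, 1, 2097152⟩ ⟨1, 3, 1048576⟩ ⟨6140, 3, 12288⟩ :=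
  Cov.unI zR568 zR571 (by decide +kernel)
theorem zR573 : Cov (ix [7, 8, 9, 10, 11, 12]) ⟨2097151, 1, 2097152⟩ ⟨0, 1, 262144⟩ ⟨6140, 3, 12288⟩ :=
  Cov.sy zR567 zR572 (by decide +kernel)
theorem zR574 : Cov (ix [7, 8, 9, 10, 11, 12]) ⟨524287, 1, 524288⟩ ⟨0, 1, 262144⟩ ⟨6140, 3, 12288⟩ :=
  Cov.sx zR540 zR573 (by decide +kernel)
theorem zR580 : Cov (ix [9]) ⟨2097151, 1, 2097152⟩ ⟨1, 3, 262144⟩ ⟨6140, 3, 12288⟩ :=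
  Cov.sz zR578 zR579 (by decide +kernel)
theorem zR581 : Cov (ix [9, 10, 11]) ⟨2097151, 1, 2097152⟩ ⟨1, 3, 262144⟩ ⟨6140, 3, 12288⟩ :=
  Cov.unI zR577 zR580 (by decide +kernel)
theorem zR582 : Cov (ix [9, 10, 11]) ⟨524287, 1, 524288⟩ ⟨1, 3, 262144⟩ ⟨6140, 3, 12288⟩ :=
  Cov.sx zR576 zR581 (by decide +kernel)
theorem zR583 : Cov (ix [7, 8, 9, 10, 11, 12]) ⟨524287, 1, 524288⟩ ⟨1, 3, 262144⟩ ⟨6140, 3, 12288⟩ :=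
  Cov.unI zR575 zR582 (by decide +kernel)
theorem zR584 : Cov (ix [7, 8, 9, 10, 11, 12]) ⟨524287, 1, 524288⟩ ⟨0, 1, 65536⟩ ⟨6140, 3, 12288⟩ :=
  Cov.sy zR574 zR583 (by decide +kernel)
theorem zR585 : Cov (ix [6, 7, 8, 9, 10, 11, 12]) ⟨524287, 1, 524288⟩ ⟨0, 1, 65536⟩ ⟨6140, 3, 12288⟩ :=
  Cov.unI zR535 zR584 (by decide +kernel)
theorem zR586 : Cov (ix [6, 7, 8, 9, 10, 11, 12]) ⟨131071, 1, 131072⟩ ⟨0, 1, 65536⟩ ⟨6140, 3, 12288⟩ :=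
  Cov.sx zR534 zR585 (by decide +kernel)
theorem zR587 : Cov (ix [5, 6, 7, 8, 9, 10, 11, 12, 13]) ⟨131071, 1, 131072⟩ ⟨0, 1, 65536⟩ ⟨6140, 3, 12288⟩ :=
  Cov.unI zR529 zR586 (by decide +kernel)
theorem zR593 : Cov (ix [9, 10]) ⟨524287, 1, 524288⟩ ⟨1, 3, 65536⟩ ⟨6140, 3, 12288⟩ :=
  Cov.sx zR591 zR592 (by decide +kernel)
theorem zR594 : Cov (ix [8, 9, 10, 11]) ⟨524287, 1, 524288⟩ ⟨1, 3, 65536⟩ ⟨6140, 3, 12288⟩ :=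
  Cov.unI zR590 zR593 (by decide +kernel)
theorem zR595 : Cov (ix [8, 9, 10, 11]) ⟨131071, 1, 131072⟩ ⟨1, 3, 65536⟩ ⟨6140, 3, 12288⟩ :=
  Cov.sx zR589 zR594 (by decide +kernel)
theorem zR596 : Cov (ix [5, 6, 7, 8, 9, 10, 11, 12, 13]) ⟨131071, 1, 131072⟩ ⟨1, 3, 65536⟩ ⟨6140, 3, 12288⟩ :=
  Cov.unI zR588 zR595 (by decide +kernel)
theorem zR597 : Cov (ix [5, 6, 7, 8, 9, 10, 11, 12, 13]) ⟨131071, 1, 131072⟩ ⟨0, 1, 16384⟩ ⟨6140, 3, 12288⟩ :=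
  Cov.sy zR587 zR596 (by decide +kernel)
theorem zR598 : Cov (ix [4, 5, 6, 7, 8, 9, 10, 11, 12, 13]) ⟨131071, 1, 131072⟩ ⟨0, 1, 16384⟩ ⟨6140, 3, 12288⟩ :=
  Cov.unI zR528 zR597 (by decide +kernel)
theorem zR599 : Cov (ix [4, 5, 6, 7, 8, 9, 10, 11, 12, 13]) ⟨32767, 1, 32768⟩ ⟨0, 1, 16384⟩ ⟨6140, 3, 12288⟩ :=
  Cov.sx zR527 zR598 (by decide +kernel)
theorem zR600 : Cov (ix [1, 2, 3, 4, 5, 6, 7, 8, 9, 10, 11, 12, 13]) ⟨32767, 1, 32768⟩ ⟨0, 1, 16384⟩ ⟨6140, 3, 12288⟩ :=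
  Cov.unI zR522 zR599 (by decide +kernel)
theorem zR606 : Cov (ix [9, 10, 11]) ⟨131071, 1, 131072⟩ ⟨1, 3, 16384⟩ ⟨6140, 3, 12288⟩ :=
  Cov.sx zR604 zR605 (by decide +kernel)
theorem zR607 : Cov (ix [7, 8, 9, 10, 11, 12]) ⟨131071, 1, 131072⟩ ⟨1, 3, 16384⟩ ⟨6140, 3, 12288⟩ :=
  Cov.unI zR603 zR606 (by decide +kernel)
theorem zR608 : Cov (ix [7, 8, 9, 10, 11, 12]) ⟨32767, 1, 32768⟩ ⟨1, 3, 16384⟩ ⟨6140, 3, 12288⟩ :=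
  Cov.sx zR602 zR607 (by decide +kernel)
theorem zR609 : Cov (ix [1, 2, 3, 4, 5, 6, 7, 8, 9, 10, 11, 12, 13]) ⟨32767, 1, 32768⟩ ⟨1, 3, 16384⟩ ⟨6140, 3, 12288⟩ :=
  Cov.unI zR601 zR608 (by decide +kernel)
theorem zR610 : Cov (ix [1, 2, 3, 4, 5, 6, 7, 8, 9, 10, 11, 12, 13]) ⟨32767, 1, 32768⟩ ⟨0, 1, 4096⟩ ⟨6140, 3, 12288⟩ :=
  Cov.sy zR600 zR609 (by decide +kernel)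
theorem zR611 : Cov (ix [0, 1, 2, 3, 4, 5, 6, 7, 8, 9, 10, 11, 12, 13, 17]) ⟨32767, 1, 32768⟩ ⟨0, 1, 4096⟩ ⟨6140, 3, 12288⟩ :=
  Cov.unI zR521 zR610 (by decide +kernel)
theorem zR612 : Cov (ix [0, 1, 2, 3, 4, 5, 6, 7, 8, 9, 10, 11, 12, 13, 17]) ⟨8191, 1, 8192⟩ ⟨0, 1, 4096⟩ ⟨6140, 3, 12288⟩ :=
  Cov.sx zR520 zR611 (by decide +kernel)
theorem zR613 : Cov (ix [0, 1, 2, 3, 4, 5, 6, 7, 8, 9, 10, 11, 12, 13, 16, 17]) ⟨8191, 1, 8192⟩ ⟨0, 1, 4096⟩ ⟨6140, 3, 12288⟩ :=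
  Cov.unI zR515 zR612 (by decide +kernel)
theorem zR617 : Cov (ix [6, 7, 8, 9, 10, 11]) ⟨32764, 3, 32768⟩ ⟨0, 1, 16384⟩ ⟨6143, 1, 12288⟩ :=
  Cov.sz zR615 zR616 (by decide +kernel)
theorem zR618 : Cov (ix [0, 1, 2, 3, 4, 5, 6, 7, 8, 9, 10, 11, 12, 13, 16, 17]) ⟨32764, 3, 32768⟩ ⟨0, 1, 16384⟩ ⟨6143, 1, 12288⟩ :=
  Cov.unI zR614 zR617 (by decide +kernel)
theorem zR626 : Cov (ix [9]) ⟨524284, 3, 524288⟩ ⟨0, 1, 65536⟩ ⟨24572, 3, 49152⟩ :=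
  Cov.sx zR624 zR625 (by decide +kernel)
theorem zR627 : Cov (ix [6, 7, 8, 9, 10, 11, 12]) ⟨524284, 3, 524288⟩ ⟨0, 1, 65536⟩ ⟨24572, 3, 49152⟩ :=
  Cov.unI zR623 zR626 (by decide +kernel)
theorem zR636 : Cov (ix [9]) ⟨8388607, 1, 8388608⟩ ⟨0, 1, 4194304⟩ ⟨12286, 1, 24576⟩ :=
  Cov.sx zR634 zR635 (by decide +kernel)
theorem zR638 : Cov (ix [9]) ⟨8388607, 1, 8388608⟩ ⟨0, 1, 4194304⟩ ⟨24572, 3, 49152⟩ :=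
  Cov.sz zR636 zR637 (by decide +kernel)
theorem zR639 : Cov (ix [9, 10]) ⟨8388607, 1, 8388608⟩ ⟨0, 1, 4194304⟩ ⟨24572, 3, 49152⟩ :=
  Cov.unI zR633 zR638 (by decide +kernel)
theorem zR641 : Cov (ix [9, 10]) ⟨8388607, 1, 8388608⟩ ⟨0, 1, 1048576⟩ ⟨24572, 3, 49152⟩ :=
  Cov.sy zR639 zR640 (by decide +kernel)
theorem zR642 : Cov (ix [9, 10]) ⟨2097151, 1, 2097152⟩ ⟨0, 1, 1048576⟩ ⟨24572, 3, 49152⟩ :=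
  Cov.sx zR632 zR641 (by decide +kernel)
theorem zR643 : Cov (ix [8, 9, 10, 11]) ⟨2097151, 1, 2097152⟩ ⟨0, 1, 1048576⟩ ⟨24572, 3, 49152⟩ :=
  Cov.unI zR631 zR642 (by decide +kernel)
theorem zR647 : Cov (ix [9]) ⟨2097151, 1, 2097152⟩ ⟨1, 3, 1048576⟩ ⟨24572, 3, 49152⟩ :=
  Cov.sx zR645 zR646 (by decide +kernel)
theorem zR648 : Cov (ix [8, 9, 10, 11]) ⟨2097151, 1, 2097152⟩ ⟨1, 3, 1048576⟩ ⟨24572, 3, 49152⟩ :=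
  Cov.unI zR644 zR647 (by decide +kernel)
theorem zR649 : Cov (ix [8, 9, 10, 11]) ⟨2097151, 1, 2097152⟩ ⟨0, 1, 262144⟩ ⟨24572, 3, 49152⟩ :=
  Cov.sy zR643 zR648 (by decide +kernel)
theorem zR650 : Cov (ix [7, 8, 9, 10, 11, 12]) ⟨2097151, 1, 2097152⟩ ⟨0, 1, 262144⟩ ⟨24572, 3, 49152⟩ :=
  Cov.unI zR630 zR649 (by decide +kernel)
theorem zR651 : Cov (ix [7, 8, 9, 10, 11, 12]) ⟨524287, 1, 524288⟩ ⟨0, 1, 262144⟩ ⟨24572, 3, 49152⟩ :=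
  Cov.sx zR629 zR650 (by decide +kernel)
theorem zR657 : Cov (ix [9]) ⟨2097151, 1, 2097152⟩ ⟨1, 3, 262144⟩ ⟨24572, 3, 49152⟩ :=
  Cov.sx zR655 zR656 (by decide +kernel)
theorem zR658 : Cov (ix [9, 10]) ⟨2097151, 1, 2097152⟩ ⟨1, 3, 262144⟩ ⟨24572, 3, 49152⟩ :=
  Cov.unI zR654 zR657 (by decide +kernel)
theorem zR659 : Cov (ix [9, 10]) ⟨524287, 1, 524288⟩ ⟨1, 3, 262144⟩ ⟨24572, 3, 49152⟩ :=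
  Cov.sx zR653 zR658 (by decide +kernel)
theorem zR660 : Cov (ix [7, 8, 9, 10, 11, 12]) ⟨524287, 1, 524288⟩ ⟨1, 3, 262144⟩ ⟨24572, 3, 49152⟩ :=
  Cov.unI zR652 zR659 (by decide +kernel)
theorem zR661 : Cov (ix [7, 8, 9, 10, 11, 12]) ⟨524287, 1, 524288⟩ ⟨0, 1, 65536⟩ ⟨24572, 3, 49152⟩ :=
  Cov.sy zR651 zR660 (by decide +kernel)
theorem zR662 : Cov (ix [6, 7, 8, 9, 10, 11, 12]) ⟨524287, 1, 524288⟩ ⟨0, 1, 65536⟩ ⟨24572, 3, 49152⟩ :=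
  Cov.unI zR628 zR661 (by decide +kernel)
theorem zR663 : Cov (ix [6, 7, 8, 9, 10, 11, 12]) ⟨131071, 1, 131072⟩ ⟨0, 1, 65536⟩ ⟨24572, 3, 49152⟩ :=
  Cov.sx zR627 zR662 (by decide +kernel)
theorem zR664 : Cov (ix [5, 6, 7, 8, 9, 10, 11, 12]) ⟨131071, 1, 131072⟩ ⟨0, 1, 65536⟩ ⟨24572, 3, 49152⟩ :=
  Cov.unI zR622 zR663 (by decide +kernel)
theorem zR665 : Cov (ix [5, 6, 7, 8, 9, 10, 11, 12]) ⟨32767, 1, 32768⟩ ⟨0, 1, 65536⟩ ⟨24572, 3, 49152⟩ :=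
  Cov.sx zR621 zR664 (by decide +kernel)
theorem zR666 : Cov (ix [3, 4, 5, 6, 7, 8, 9, 10, 11, 12, 13]) ⟨32767, 1, 32768⟩ ⟨0, 1, 65536⟩ ⟨24572, 3, 49152⟩ :=
  Cov.unI zR620 zR665 (by decide +kernel)
theorem zR674 : Cov (ix [9]) ⟨524287, 1, 524288⟩ ⟨1, 3, 65536⟩ ⟨24572, 3, 49152⟩ :=
  Cov.sx zR672 zR673 (by decide +kernel)
theorem zR675 : Cov (ix [8, 9, 10, 11]) ⟨524287, 1, 524288⟩ ⟨1, 3, 65536⟩ ⟨24572, 3, 49152⟩ :=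
  Cov.unI zR671 zR674 (by decide +kernel)
theorem zR676 : Cov (ix [8, 9, 10, 11]) ⟨131071, 1, 131072⟩ ⟨1, 3, 65536⟩ ⟨24572, 3, 49152⟩ :=
  Cov.sx zR670 zR675 (by decide +kernel)
theorem zR677 : Cov (ix [7, 8, 9, 10, 11, 12]) ⟨131071, 1, 131072⟩ ⟨1, 3, 65536⟩ ⟨24572, 3, 49152⟩ :=
  Cov.unI zR669 zR676 (by decide +kernel)
theorem zR678 : Cov (ix [7, 8, 9, 10, 11, 12]) ⟨32767, 1, 32768⟩ ⟨1, 3, 65536⟩ ⟨24572, 3, 49152⟩ :=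
  Cov.sx zR668 zR677 (by decide +kernel)
theorem zR679 : Cov (ix [3, 4, 5, 6, 7, 8, 9, 10, 11, 12, 13]) ⟨32767, 1, 32768⟩ ⟨1, 3, 65536⟩ ⟨24572, 3, 49152⟩ :=
  Cov.unI zR667 zR678 (by decide +kernel)
theorem zR680 : Cov (ix [3, 4, 5, 6, 7, 8, 9, 10, 11, 12, 13]) ⟨32767, 1, 32768⟩ ⟨0, 1, 16384⟩ ⟨24572, 3, 49152⟩ :=
  Cov.sy zR666 zR679 (by decide +kernel)
theorem zR681 : Cov (ix [0, 1, 2, 3, 4, 5, 6, 7, 8, 9, 10, 11, 12, 13, 16, 17]) ⟨32767, 1, 32768⟩ ⟨0, 1, 16384⟩ ⟨24572, 3, 49152⟩ :=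
  Cov.unI zR619 zR680 (by decide +kernel)
theorem zR685 : Cov (ix [9]) ⟨131068, 3, 131072⟩ ⟨0, 1, 65536⟩ ⟨24575, 1, 49152⟩ :=
  Cov.sx zR683 zR684 (by decide +kernel)
theorem zR686 : Cov (ix [0, 1, 2, 3, 4, 5, 6, 7, 8, 9, 10, 11, 12, 13, 16, 17]) ⟨131068, 3, 131072⟩ ⟨0, 1, 65536⟩ ⟨24575, 1, 49152⟩ :=
  Cov.unI zR682 zR685 (by decide +kernel)
theorem zR695 : Cov (ix [9, 10]) ⟨2097151, 1, 2097152⟩ ⟨0, 1, 262144⟩ ⟨98300, 3, 196608⟩ :=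
  Cov.sy zR693 zR694 (by decide +kernel)
theorem zR696 : Cov (ix [8, 9, 10, 11]) ⟨2097151, 1, 2097152⟩ ⟨0, 1, 262144⟩ ⟨98300, 3, 196608⟩ :=
  Cov.unI zR692 zR695 (by decide +kernel)
theorem zR697 : Cov (ix [8, 9, 10, 11]) ⟨524287, 1, 524288⟩ ⟨0, 1, 262144⟩ ⟨98300, 3, 196608⟩ :=
  Cov.sx zR691 zR696 (by decide +kernel)
theorem zR698 : Cov (ix [7, 8, 9, 10, 11]) ⟨524287, 1, 524288⟩ ⟨0, 1, 262144⟩ ⟨98300, 3, 196608⟩ :=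
  Cov.unI zR690 zR697 (by decide +kernel)
theorem zR700 : Cov (ix [7, 8, 9, 10, 11]) ⟨524287, 1, 524288⟩ ⟨0, 1, 65536⟩ ⟨98300, 3, 196608⟩ :=
  Cov.sy zR698 zR699 (by decide +kernel)
theorem zR701 : Cov (ix [6, 7, 8, 9, 10, 11, 12]) ⟨524287, 1, 524288⟩ ⟨0, 1, 65536⟩ ⟨98300, 3, 196608⟩ :=
  Cov.unI zR689 zR700 (by decide +kernel)
theorem zR702 : Cov (ix [6, 7, 8, 9, 10, 11, 12]) ⟨131071, 1, 131072⟩ ⟨0, 1, 65536⟩ ⟨98300, 3, 196608⟩ :=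
  Cov.sx zR688 zR701 (by decide +kernel)
theorem zR703 : Cov (ix [0, 1, 2, 3, 4, 5, 6, 7, 8, 9, 10, 11, 12, 13, 16, 17]) ⟨131071, 1, 131072⟩ ⟨0, 1, 65536⟩ ⟨98300, 3, 196608⟩ :=
  Cov.unI zR687 zR702 (by decide +kernel)
theorem zR714 : Cov (ix [6, 7, 8, 9, 10, 11]) ⟨2097151, 1, 2097152⟩ ⟨0, 1, 1048576⟩ ⟨393215, 1, 786432⟩ :=
  Cov.sz zR712 zR713 (by decide +kernel)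
theorem zR715 : Cov (ix [4, 5, 6, 7, 8, 9, 10, 11]) ⟨2097151, 1, 2097152⟩ ⟨0, 1, 1048576⟩ ⟨393215, 1, 786432⟩ :=
  Cov.unI zR711 zR714 (by decide +kernel)
theorem zR716 : Cov (ix [4, 5, 6, 7, 8, 9, 10, 11]) ⟨524287, 1, 524288⟩ ⟨0, 1, 1048576⟩ ⟨393215, 1, 786432⟩ :=
  Cov.sx zR710 zR715 (by decide +kernel)
theorem zR717 : Cov (ix [3, 4, 5, 6, 7, 8, 9, 10, 11, 12]) ⟨524287, 1, 524288⟩ ⟨0, 1, 1048576⟩ ⟨393215, 1, 786432⟩ :=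
  Cov.unI zR709 zR716 (by decide +kernel)
theorem zR719 : Cov (ix [3, 4, 5, 6, 7, 8, 9, 10, 11, 12]) ⟨524287, 1, 524288⟩ ⟨0, 1, 262144⟩ ⟨393215, 1, 786432⟩ :=
  Cov.sy zR717 zR718 (by decide +kernel)
theorem zR720 : Cov (ix [0, 1, 2, 3, 4, 5, 6, 7, 8, 9, 10, 11, 12, 17]) ⟨524287, 1, 524288⟩ ⟨0, 1, 262144⟩ ⟨393215, 1, 786432⟩ :=
  Cov.unI zR708 zR719 (by decide +kernel)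
theorem zR721 : Cov (ix [0, 1, 2, 3, 4, 5, 6, 7, 8, 9, 10, 11, 12, 17]) ⟨524287, 1, 524288⟩ ⟨0, 1, 262144⟩ ⟨98303, 1, 196608⟩ :=
  Cov.sz zR707 zR720 (by decide +kernel)
theorem zR722 : Cov (ix [0, 1, 2, 3, 4, 5, 6, 7, 8, 9, 10, 11, 12, 17]) ⟨131071, 1, 131072⟩ ⟨0, 1, 262144⟩ ⟨98303, 1, 196608⟩ :=
  Cov.sx zR706 zR721 (by decide +kernel)
theorem zR723 : Cov (ix [0, 1, 2, 3, 4, 5, 6, 7, 8, 9, 10, 11, 12, 16, 17]) ⟨131071, 1, 131072⟩ ⟨0, 1, 262144⟩ ⟨98303, 1, 196608⟩ :=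
  Cov.unI zR705 zR722 (by decide +kernel)
theorem zR727 : Cov (ix [9]) ⟨131071, 1, 131072⟩ ⟨1, 3, 262144⟩ ⟨98303, 1, 196608⟩ :=
  Cov.sx zR725 zR726 (by decide +kernel)
theorem zR728 : Cov (ix [0, 1, 2, 3, 4, 5, 6, 7, 8, 9, 10, 11, 12, 16, 17]) ⟨131071, 1, 131072⟩ ⟨1, 3, 262144⟩ ⟨98303, 1, 196608⟩ :=
  Cov.unI zR724 zR727 (by decide +kernel)
theorem zR729 : Cov (ix [0, 1, 2, 3, 4, 5, 6, 7, 8, 9, 10, 11, 12, 16, 17]) ⟨131071, 1, 131072⟩ ⟨0, 1, 65536⟩ ⟨98303, 1, 196608⟩ :=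
  Cov.sy zR723 zR728 (by decide +kernel)
theorem zR730 : Cov (ix [0, 1, 2, 3, 4, 5, 6, 7, 8, 9, 10, 11, 12, 13, 16, 17]) ⟨131071, 1, 131072⟩ ⟨0, 1, 65536⟩ ⟨98303, 1, 196608⟩ :=
  Cov.unI zR704 zR729 (by decide +kernel)
theorem zR731 : Cov (ix [0, 1, 2, 3, 4, 5, 6, 7, 8, 9, 10, 11, 12, 13, 16, 17]) ⟨131071, 1, 131072⟩ ⟨0, 1, 65536⟩ ⟨24575, 1, 49152⟩ :=
  Cov.sz zR703 zR730 (by decide +kernel)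
theorem zR732 : Cov (ix [0, 1, 2, 3, 4, 5, 6, 7, 8, 9, 10, 11, 12, 13, 16, 17]) ⟨32767, 1, 32768⟩ ⟨0, 1, 65536⟩ ⟨24575, 1, 49152⟩ :=
  Cov.sx zR686 zR731 (by decide +kernel)
theorem zR740 : Cov (ix [9]) ⟨524287, 1, 524288⟩ ⟨1, 3, 65536⟩ ⟨24575, 1, 49152⟩ :=
  Cov.sx zR738 zR739 (by decide +kernel)
theorem zR741 : Cov (ix [8, 9, 10]) ⟨524287, 1, 524288⟩ ⟨1, 3, 65536⟩ ⟨24575, 1, 49152⟩ :=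
  Cov.unI zR737 zR740 (by decide +kernel)
theorem zR742 : Cov (ix [8, 9, 10]) ⟨131071, 1, 131072⟩ ⟨1, 3, 65536⟩ ⟨24575, 1, 49152⟩ :=
  Cov.sx zR736 zR741 (by decide +kernel)
theorem zR743 : Cov (ix [6, 7, 8, 9, 10, 11]) ⟨131071, 1, 131072⟩ ⟨1, 3, 65536⟩ ⟨24575, 1, 49152⟩ :=
  Cov.unI zR735 zR742 (by decide +kernel)
theorem zR744 : Cov (ix [6, 7, 8, 9, 10, 11]) ⟨32767, 1, 32768⟩ ⟨1, 3, 65536⟩ ⟨24575, 1, 49152⟩ :=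
  Cov.sx zR734 zR743 (by decide +kernel)
theorem zR745 : Cov (ix [0, 1, 2, 3, 4, 5, 6, 7, 8, 9, 10, 11, 12, 13, 16, 17]) ⟨32767, 1, 32768⟩ ⟨1, 3, 65536⟩ ⟨24575, 1, 49152⟩ :=
  Cov.unI zR733 zR744 (by decide +kernel)
theorem zR746 : Cov (ix [0, 1, 2, 3, 4, 5, 6, 7, 8, 9, 10, 11, 12, 13, 16, 17]) ⟨32767, 1, 32768⟩ ⟨0, 1, 16384⟩ ⟨24575, 1, 49152⟩ :=
  Cov.sy zR732 zR745 (by decide +kernel)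
theorem zR747 : Cov (ix [0, 1, 2, 3, 4, 5, 6, 7, 8, 9, 10, 11, 12, 13, 16, 17]) ⟨32767, 1, 32768⟩ ⟨0, 1, 16384⟩ ⟨6143, 1, 12288⟩ :=
  Cov.sz zR681 zR746 (by decide +kernel)
theorem zR748 : Cov (ix [0, 1, 2, 3, 4, 5, 6, 7, 8, 9, 10, 11, 12, 13, 16, 17]) ⟨8191, 1, 8192⟩ ⟨0, 1, 16384⟩ ⟨6143, 1, 12288⟩ :=
  Cov.sx zR618 zR747 (by decide +kernel)
theorem zR759 : Cov (ix [9]) ⟨524287, 1, 524288⟩ ⟨1, 1, 16384⟩ ⟨6143, 1, 12288⟩ :=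
  Cov.sx zR757 zR758 (by decide +kernel)
theorem zR760 : Cov (ix [8, 9, 10]) ⟨524287, 1, 524288⟩ ⟨1, 1, 16384⟩ ⟨6143, 1, 12288⟩ :=
  Cov.unI zR756 zR759 (by decide +kernel)
theorem zR761 : Cov (ix [8, 9, 10]) ⟨131071, 1, 131072⟩ ⟨1, 1, 16384⟩ ⟨6143, 1, 12288⟩ :=
  Cov.sx zR755 zR760 (by decide +kernel)
theorem zR762 : Cov (ix [7, 8, 9, 10, 11]) ⟨131071, 1, 131072⟩ ⟨1, 1, 16384⟩ ⟨6143, 1, 12288⟩ :=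
  Cov.unI zR754 zR761 (by decide +kernel)
theorem zR766 : Cov (ix [9]) ⟨131071, 1, 131072⟩ ⟨1, 1, 8192⟩ ⟨6143, 1, 12288⟩ :=
  Cov.sx zR764 zR765 (by decide +kernel)
theorem zR767 : Cov (ix [7, 8, 9, 10, 11]) ⟨131071, 1, 131072⟩ ⟨1, 1, 8192⟩ ⟨6143, 1, 12288⟩ :=
  Cov.unI zR763 zR766 (by decide +kernel)
theorem zR768 : Cov (ix [7, 8, 9, 10, 11]) ⟨131071, 1, 131072⟩ ⟨1, 3, 16384⟩ ⟨6143, 1, 12288⟩ :=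
  Cov.sy zR762 zR767 (by decide +kernel)
theorem zR769 : Cov (ix [6, 7, 8, 9, 10, 11, 12]) ⟨131071, 1, 131072⟩ ⟨1, 3, 16384⟩ ⟨6143, 1, 12288⟩ :=
  Cov.unI zR753 zR768 (by decide +kernel)
theorem zR770 : Cov (ix [6, 7, 8, 9, 10, 11, 12]) ⟨32767, 1, 32768⟩ ⟨1, 3, 16384⟩ ⟨6143, 1, 12288⟩ :=
  Cov.sx zR752 zR769 (by decide +kernel)
theorem zR771 : Cov (ix [2, 3, 4, 5, 6, 7, 8, 9, 10, 11, 12]) ⟨32767, 1, 32768⟩ ⟨1, 3, 16384⟩ ⟨6143, 1, 12288⟩ :=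
  Cov.unI zR751 zR770 (by decide +kernel)
theorem zR772 : Cov (ix [2, 3, 4, 5, 6, 7, 8, 9, 10, 11, 12]) ⟨8191, 1, 8192⟩ ⟨1, 3, 16384⟩ ⟨6143, 1, 12288⟩ :=
  Cov.sx zR750 zR771 (by decide +kernel)
theorem zR773 : Cov (ix [0, 1, 2, 3, 4, 5, 6, 7, 8, 9, 10, 11, 12, 13, 16, 17]) ⟨8191, 1, 8192⟩ ⟨1, 3, 16384⟩ ⟨6143, 1, 12288⟩ :=
  Cov.unI zR749 zR772 (by decide +kernel)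
theorem zR774 : Cov (ix [0, 1, 2, 3, 4, 5, 6, 7, 8, 9, 10, 11, 12, 13, 16, 17]) ⟨8191, 1, 8192⟩ ⟨0, 1, 4096⟩ ⟨6143, 1, 12288⟩ :=
  Cov.sy zR748 zR773 (by decide +kernel)
theorem zR775 : Cov (ix [0, 1, 2, 3, 4, 5, 6, 7, 8, 9, 10, 11, 12, 13, 16, 17]) ⟨8191, 1, 8192⟩ ⟨0, 1, 4096⟩ ⟨1535, 1, 3072⟩ :=
  Cov.sz zR613 zR774 (by decide +kernel)
theorem zR776 : Cov (ix [0, 1, 2, 3, 4, 5, 6, 7, 8, 9, 10, 11, 12, 13, 16, 17]) ⟨2047, 1, 2048⟩ ⟨0, 1, 4096⟩ ⟨1535, 1, 3072⟩ :=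
  Cov.sx zR514 zR775 (by decide +kernel)
theorem zR787 : Cov (ix [9, 10]) ⟨131071, 1, 131072⟩ ⟨1, 1, 4096⟩ ⟨1535, 1, 3072⟩ :=
  Cov.sx zR785 zR786 (by decide +kernel)
theorem zR788 : Cov (ix [7, 8, 9, 10, 11, 12]) ⟨131071, 1, 131072⟩ ⟨1, 1, 4096⟩ ⟨1535, 1, 3072⟩ :=
  Cov.unI zR784 zR787 (by decide +kernel)
theorem zR789 : Cov (ix [7, 8, 9, 10, 11, 12]) ⟨32767, 1, 32768⟩ ⟨1, 1, 4096⟩ ⟨1535, 1, 3072⟩ :=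
  Cov.sx zR783 zR788 (by decide +kernel)
theorem zR790 : Cov (ix [6, 7, 8, 9, 10, 11, 12]) ⟨32767, 1, 32768⟩ ⟨1, 1, 4096⟩ ⟨1535, 1, 3072⟩ :=
  Cov.unI zR782 zR789 (by decide +kernel)
theorem zR794 : Cov (ix [9]) ⟨32767, 1, 32768⟩ ⟨1, 1, 2048⟩ ⟨1535, 1, 3072⟩ :=
  Cov.sx zR792 zR793 (by decide +kernel)
theorem zR795 : Cov (ix [6, 7, 8, 9, 10, 11, 12]) ⟨32767, 1, 32768⟩ ⟨1, 1, 2048⟩ ⟨1535, 1, 3072⟩ :=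
  Cov.unI zR791 zR794 (by decide +kernel)
theorem zR796 : Cov (ix [6, 7, 8, 9, 10, 11, 12]) ⟨32767, 1, 32768⟩ ⟨1, 3, 4096⟩ ⟨1535, 1, 3072⟩ :=
  Cov.sy zR790 zR795 (by decide +kernel)
theorem zR797 : Cov (ix [3, 4, 5, 6, 7, 8, 9, 10, 11, 12, 13]) ⟨32767, 1, 32768⟩ ⟨1, 3, 4096⟩ ⟨1535, 1, 3072⟩ :=
  Cov.unI zR781 zR796 (by decide +kernel)
theorem zR798 : Cov (ix [3, 4, 5, 6, 7, 8, 9, 10, 11, 12, 13]) ⟨8191, 1, 8192⟩ ⟨1, 3, 4096⟩ ⟨1535, 1, 3072⟩ :=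
  Cov.sx zR780 zR797 (by decide +kernel)
theorem zR799 : Cov (ix [0, 1, 2, 3, 4, 5, 6, 7, 8, 9, 10, 11, 12, 13, 17]) ⟨8191, 1, 8192⟩ ⟨1, 3, 4096⟩ ⟨1535, 1, 3072⟩ :=
  Cov.unI zR779 zR798 (by decide +kernel)
theorem zR800 : Cov (ix [0, 1, 2, 3, 4, 5, 6, 7, 8, 9, 10, 11, 12, 13, 17]) ⟨2047, 1, 2048⟩ ⟨1, 3, 4096⟩ ⟨1535, 1, 3072⟩ :=
  Cov.sx zR778 zR799 (by decide +kernel)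
theorem zR801 : Cov (ix [0, 1, 2, 3, 4, 5, 6, 7, 8, 9, 10, 11, 12, 13, 16, 17]) ⟨2047, 1, 2048⟩ ⟨1, 3, 4096⟩ ⟨1535, 1, 3072⟩ :=
  Cov.unI zR777 zR800 (by decide +kernel)
theorem zR802 : Cov (ix [0, 1, 2, 3, 4, 5, 6, 7, 8, 9, 10, 11, 12, 13, 16, 17]) ⟨2047, 1, 2048⟩ ⟨0, 1, 1024⟩ ⟨1535, 1, 3072⟩ :=
  Cov.sy zR776 zR801 (by decide +kernel)
theorem zR803 : Cov (ix [0, 1, 2, 3, 4, 5, 6, 7, 8, 9, 10, 11, 12, 13, 16, 17]) ⟨2047, 1, 2048⟩ ⟨0, 1, 1024⟩ ⟨383, 1, 768⟩ :=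
  Cov.sz zR509 zR802 (by decide +kernel)
theorem zR810 : Cov (ix [8, 9]) ⟨32764, 3, 32768⟩ ⟨1, 3, 1024⟩ ⟨383, 1, 768⟩ :=
  Cov.sy zR808 zR809 (by decide +kernel)
theorem zR811 : Cov (ix [3, 4, 5, 6, 7, 8, 9, 10, 11, 12, 13]) ⟨32764, 3, 32768⟩ ⟨1, 3, 1024⟩ ⟨383, 1, 768⟩ :=
  Cov.unI zR807 zR810 (by decide +kernel)
theorem zR816 : Cov (ix [8, 9, 10, 11]) ⟨32767, 1, 32768⟩ ⟨1, 1, 1024⟩ ⟨383, 1, 768⟩ :=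
  Cov.sx zR814 zR815 (by decide +kernel)
theorem zR817 : Cov (ix [5, 6, 7, 8, 9, 10, 11, 12]) ⟨32767, 1, 32768⟩ ⟨1, 1, 1024⟩ ⟨383, 1, 768⟩ :=
  Cov.unI zR813 zR816 (by decide +kernel)
theorem zR819 : Cov (ix [5, 6, 7, 8, 9, 10, 11, 12]) ⟨32767, 1, 32768⟩ ⟨1, 3, 1024⟩ ⟨383, 1, 768⟩ :=
  Cov.sy zR817 zR818 (by decide +kernel)
theorem zR820 : Cov (ix [3, 4, 5, 6, 7, 8, 9, 10, 11, 12, 13]) ⟨32767, 1, 32768⟩ ⟨1, 3, 1024⟩ ⟨383, 1, 768⟩ :=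
  Cov.unI zR812 zR819 (by decide +kernel)
theorem zR821 : Cov (ix [3, 4, 5, 6, 7, 8, 9, 10, 11, 12, 13]) ⟨8191, 1, 8192⟩ ⟨1, 3, 1024⟩ ⟨383, 1, 768⟩ :=
  Cov.sx zR811 zR820 (by decide +kernel)
theorem zR822 : Cov (ix [0, 1, 2, 3, 4, 5, 6, 7, 8, 9, 10, 11, 12, 13, 17]) ⟨8191, 1, 8192⟩ ⟨1, 3, 1024⟩ ⟨383, 1, 768⟩ :=
  Cov.unI zR806 zR821 (by decide +kernel)
theorem zR823 : Cov (ix [0, 1, 2, 3, 4, 5, 6, 7, 8, 9, 10, 11, 12, 13, 17]) ⟨2047, 1, 2048⟩ ⟨1, 3, 1024⟩ ⟨383, 1, 768⟩ :=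
  Cov.sx zR805 zR822 (by decide +kernel)
theorem zR824 : Cov (ix [0, 1, 2, 3, 4, 5, 6, 7, 8, 9, 10, 11, 12, 13, 16, 17]) ⟨2047, 1, 2048⟩ ⟨1, 3, 1024⟩ ⟨383, 1, 768⟩ :=
  Cov.unI zR804 zR823 (by decide +kernel)
theorem zR825 : Cov (ix [0, 1, 2, 3, 4, 5, 6, 7, 8, 9, 10, 11, 12, 13, 16, 17]) ⟨2047, 1, 2048⟩ ⟨0, 1, 256⟩ ⟨383, 1, 768⟩ :=
  Cov.sy zR803 zR824 (by decide +kernel)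
theorem zR826 : Cov (ix [0, 1, 2, 3, 4, 5, 6, 7, 8, 9, 10, 11, 12, 13, 16, 17]) ⟨511, 1, 512⟩ ⟨0, 1, 256⟩ ⟨383, 1, 768⟩ :=
  Cov.sx zR406 zR825 (by decide +kernel)
theorem zR827 : Cov (ix [0, 1, 2, 3, 4, 5, 6, 7, 8, 9, 10, 11, 12, 13, 16, 17]) ⟨511, 1, 512⟩ ⟨0, 1, 256⟩ ⟨95, 1, 192⟩ :=
  Cov.sz zR399 zR826 (by decide +kernel)
theorem zR831 : Cov (ix [9]) ⟨2044, 3, 2048⟩ ⟨1, 3, 256⟩ ⟨95, 1, 192⟩ :=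
  Cov.sx zR829 zR830 (by decide +kernel)
theorem zR832 : Cov (ix [0, 1, 2, 3, 4, 5, 6, 7, 8, 9, 10, 11, 12, 13, 16, 17]) ⟨2044, 3, 2048⟩ ⟨1, 3, 256⟩ ⟨95, 1, 192⟩ :=
  Cov.unI zR828 zR831 (by decide +kernel)
theorem zR837 : Cov (ix [7, 8, 9, 10, 11]) ⟨8188, 3, 8192⟩ ⟨1, 3, 256⟩ ⟨95, 1, 192⟩ :=
  Cov.sy zR835 zR836 (by decide +kernel)
theorem zR838 : Cov (ix [0, 1, 2, 3, 4, 5, 6, 7, 8, 9, 10, 11, 12, 13, 17]) ⟨8188, 3, 8192⟩ ⟨1, 3, 256⟩ ⟨95, 1, 192⟩ :=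
  Cov.unI zR834 zR837 (by decide +kernel)
theorem zR843 : Cov (ix [7, 8, 9, 10, 11]) ⟨32764, 3, 32768⟩ ⟨1, 3, 256⟩ ⟨95, 1, 192⟩ :=
  Cov.sy zR841 zR842 (by decide +kernel)
theorem zR844 : Cov (ix [1, 2, 3, 4, 5, 6, 7, 8, 9, 10, 11, 12, 13]) ⟨32764, 3, 32768⟩ ⟨1, 3, 256⟩ ⟨95, 1, 192⟩ :=
  Cov.unI zR840 zR843 (by decide +kernel)
theorem zR849 : Cov (ix [9, 10, 11, 12]) ⟨32767, 1, 32768⟩ ⟨1, 1, 256⟩ ⟨95, 1, 192⟩ :=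
  Cov.sx zR847 zR848 (by decide +kernel)
theorem zR850 : Cov (ix [4, 5, 6, 7, 8, 9, 10, 11, 12, 13]) ⟨32767, 1, 32768⟩ ⟨1, 1, 256⟩ ⟨95, 1, 192⟩ :=
  Cov.unI zR846 zR849 (by decide +kernel)
theorem zR854 : Cov (ix [12]) ⟨32767, 1, 32768⟩ ⟨1, 1, 128⟩ ⟨95, 1, 192⟩ :=
  Cov.sx zR852 zR853 (by decide +kernel)
theorem zR855 : Cov (ix [4, 5, 6, 7, 8, 9, 10, 11, 12, 13]) ⟨32767, 1, 32768⟩ ⟨1, 1, 128⟩ ⟨95, 1, 192⟩ :=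
  Cov.unI zR851 zR854 (by decide +kernel)
theorem zR856 : Cov (ix [4, 5, 6, 7, 8, 9, 10, 11, 12, 13]) ⟨32767, 1, 32768⟩ ⟨1, 3, 256⟩ ⟨95, 1, 192⟩ :=
  Cov.sy zR850 zR855 (by decide +kernel)
theorem zR857 : Cov (ix [1, 2, 3, 4, 5, 6, 7, 8, 9, 10, 11, 12, 13]) ⟨32767, 1, 32768⟩ ⟨1, 3, 256⟩ ⟨95, 1, 192⟩ :=
  Cov.unI zR845 zR856 (by decide +kernel)
theorem zR858 : Cov (ix [1, 2, 3, 4, 5, 6, 7, 8, 9, 10, 11, 12, 13]) ⟨8191, 1, 8192⟩ ⟨1, 3, 256⟩ ⟨95, 1, 192⟩ :=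
  Cov.sx zR844 zR857 (by decide +kernel)
theorem zR859 : Cov (ix [0, 1, 2, 3, 4, 5, 6, 7, 8, 9, 10, 11, 12, 13, 17]) ⟨8191, 1, 8192⟩ ⟨1, 3, 256⟩ ⟨95, 1, 192⟩ :=
  Cov.unI zR839 zR858 (by decide +kernel)
theorem zR860 : Cov (ix [0, 1, 2, 3, 4, 5, 6, 7, 8, 9, 10, 11, 12, 13, 17]) ⟨2047, 1, 2048⟩ ⟨1, 3, 256⟩ ⟨95, 1, 192⟩ :=
  Cov.sx zR838 zR859 (by decide +kernel)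
theorem zR861 : Cov (ix [0, 1, 2, 3, 4, 5, 6, 7, 8, 9, 10, 11, 12, 13, 16, 17]) ⟨2047, 1, 2048⟩ ⟨1, 3, 256⟩ ⟨95, 1, 192⟩ :=
  Cov.unI zR833 zR860 (by decide +kernel)
theorem zR862 : Cov (ix [0, 1, 2, 3, 4, 5, 6, 7, 8, 9, 10, 11, 12, 13, 16, 17]) ⟨511, 1, 512⟩ ⟨1, 3, 256⟩ ⟨95, 1, 192⟩ :=
  Cov.sx zR832 zR861 (by decide +kernel)
theorem zR863 : Cov (ix [0, 1, 2, 3, 4, 5, 6, 7, 8, 9, 10, 11, 12, 13, 16, 17]) ⟨511, 1, 512⟩ ⟨0, 1, 64⟩ ⟨95, 1, 192⟩ :=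
  Cov.sy zR827 zR862 (by decide +kernel)
theorem zR864 : Cov (ix [0, 1, 2, 3, 4, 5, 6, 7, 8, 9, 10, 11, 12, 13, 16, 17]) ⟨127, 1, 128⟩ ⟨0, 1, 64⟩ ⟨95, 1, 192⟩ :=
  Cov.sx zR314 zR863 (by decide +kernel)
theorem zR865 : Cov (ix [0, 1, 2, 3, 4, 5, 6, 7, 8, 9, 10, 11, 12, 13, 16, 17]) ⟨127, 1, 128⟩ ⟨0, 1, 64⟩ ⟨23, 1, 48⟩ :=
  Cov.sz zR307 zR864 (by decide +kernel)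
theorem zR869 : Cov (ix [0, 1, 2, 3, 4, 5, 6, 7, 8, 9, 10, 11, 12, 16, 17]) ⟨508, 3, 512⟩ ⟨1, 3, 64⟩ ⟨23, 1, 48⟩ :=
  Cov.sy zR867 zR868 (by decide +kernel)
theorem zR870 : Cov (ix [0, 1, 2, 3, 4, 5, 6, 7, 8, 9, 10, 11, 12, 13, 16, 17]) ⟨508, 3, 512⟩ ⟨1, 3, 64⟩ ⟨23, 1, 48⟩ :=
  Cov.unI zR866 zR869 (by decide +kernel)
theorem zR874 : Cov (ix [0, 1, 2, 3, 4, 5, 6, 7, 8, 9, 10, 11, 12, 16, 17]) ⟨2044, 3, 2048⟩ ⟨1, 3, 64⟩ ⟨23, 1, 48⟩ :=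
  Cov.sy zR872 zR873 (by decide +kernel)
theorem zR875 : Cov (ix [0, 1, 2, 3, 4, 5, 6, 7, 8, 9, 10, 11, 12, 13, 16, 17]) ⟨2044, 3, 2048⟩ ⟨1, 3, 64⟩ ⟨23, 1, 48⟩ :=
  Cov.unI zR871 zR874 (by decide +kernel)
theorem zR883 : Cov (ix [7, 8, 9, 10, 11, 12]) ⟨32767, 1, 32768⟩ ⟨1, 1, 64⟩ ⟨23, 1, 48⟩ :=
  Cov.sz zR881 zR882 (by decide +kernel)
theorem zR884 : Cov (ix [4, 5, 6, 7, 8, 9, 10, 11, 12, 13]) ⟨32767, 1, 32768⟩ ⟨1, 1, 64⟩ ⟨23, 1, 48⟩ :=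
  Cov.unI zR880 zR883 (by decide +kernel)
theorem zR885 : Cov (ix [4, 5, 6, 7, 8, 9, 10, 11, 12, 13]) ⟨8191, 1, 8192⟩ ⟨1, 1, 64⟩ ⟨23, 1, 48⟩ :=
  Cov.sx zR879 zR884 (by decide +kernel)
theorem zR886 : Cov (ix [0, 1, 2, 3, 4, 5, 6, 7, 8, 9, 10, 11, 12, 13, 17]) ⟨8191, 1, 8192⟩ ⟨1, 1, 64⟩ ⟨23, 1, 48⟩ :=
  Cov.unI zR878 zR885 (by decide +kernel)
theorem zR887 : Cov (ix [0, 1, 2, 3, 4, 5, 6, 7, 8, 9, 10, 11, 12, 13, 17]) ⟨2047, 1, 2048⟩ ⟨1, 1, 64⟩ ⟨23, 1, 48⟩ :=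
  Cov.sx zR877 zR886 (by decide +kernel)
theorem zR888 : Cov (ix [0, 1, 2, 3, 4, 5, 6, 7, 8, 9, 10, 11, 12, 13, 16, 17]) ⟨2047, 1, 2048⟩ ⟨1, 1, 64⟩ ⟨23, 1, 48⟩ :=
  Cov.unI zR876 zR887 (by decide +kernel)
theorem zR898 : Cov (ix [9, 10, 11, 12]) ⟨131071, 1, 131072⟩ ⟨1, 1, 32⟩ ⟨23, 1, 48⟩ :=
  Cov.sx zR896 zR897 (by decide +kernel)
theorem zR899 : Cov (ix [7, 8, 9, 10, 11, 12, 13]) ⟨131071, 1, 131072⟩ ⟨1, 1, 32⟩ ⟨23, 1, 48⟩ :=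
  Cov.unI zR895 zR898 (by decide +kernel)
theorem zR900 : Cov (ix [7, 8, 9, 10, 11, 12, 13]) ⟨32767, 1, 32768⟩ ⟨1, 1, 32⟩ ⟨23, 1, 48⟩ :=
  Cov.sx zR894 zR899 (by decide +kernel)
theorem zR901 : Cov (ix [4, 5, 6, 7, 8, 9, 10, 11, 12, 13]) ⟨32767, 1, 32768⟩ ⟨1, 1, 32⟩ ⟨23, 1, 48⟩ :=
  Cov.unI zR893 zR900 (by decide +kernel)
theorem zR902 : Cov (ix [4, 5, 6, 7, 8, 9, 10, 11, 12, 13]) ⟨8191, 1, 8192⟩ ⟨1, 1, 32⟩ ⟨23, 1, 48⟩ :=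
  Cov.sx zR892 zR901 (by decide +kernel)
theorem zR903 : Cov (ix [0, 1, 2, 3, 4, 5, 6, 7, 8, 9, 10, 11, 12, 13, 17]) ⟨8191, 1, 8192⟩ ⟨1, 1, 32⟩ ⟨23, 1, 48⟩ :=
  Cov.unI zR891 zR902 (by decide +kernel)
theorem zR904 : Cov (ix [0, 1, 2, 3, 4, 5, 6, 7, 8, 9, 10, 11, 12, 13, 17]) ⟨2047, 1, 2048⟩ ⟨1, 1, 32⟩ ⟨23, 1, 48⟩ :=
  Cov.sx zR890 zR903 (by decide +kernel)
theorem zR905 : Cov (ix [0, 1, 2, 3, 4, 5, 6, 7, 8, 9, 10, 11, 12, 13, 16, 17]) ⟨2047, 1, 2048⟩ ⟨1, 1, 32⟩ ⟨23, 1, 48⟩ :=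
  Cov.unI zR889 zR904 (by decide +kernel)
theorem zR906 : Cov (ix [0, 1, 2, 3, 4, 5, 6, 7, 8, 9, 10, 11, 12, 13, 16, 17]) ⟨2047, 1, 2048⟩ ⟨1, 3, 64⟩ ⟨23, 1, 48⟩ :=
  Cov.sy zR888 zR905 (by decide +kernel)
theorem zR907 : Cov (ix [0, 1, 2, 3, 4, 5, 6, 7, 8, 9, 10, 11, 12, 13, 16, 17]) ⟨511, 1, 512⟩ ⟨1, 3, 64⟩ ⟨23, 1, 48⟩ :=
  Cov.sx zR875 zR906 (by decide +kernel)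
theorem zR908 : Cov (ix [0, 1, 2, 3, 4, 5, 6, 7, 8, 9, 10, 11, 12, 13, 16, 17]) ⟨127, 1, 128⟩ ⟨1, 3, 64⟩ ⟨23, 1, 48⟩ :=
  Cov.sx zR870 zR907 (by decide +kernel)
theorem zR909 : Cov (ix [0, 1, 2, 3, 4, 5, 6, 7, 8, 9, 10, 11, 12, 13, 16, 17]) ⟨127, 1, 128⟩ ⟨0, 1, 16⟩ ⟨23, 1, 48⟩ :=
  Cov.sy zR865 zR908 (by decide +kernel)
theorem zR910 : Cov (ix [0, 1, 2, 3, 4, 5, 6, 7, 8, 9, 10, 11, 12, 13, 16, 17]) ⟨31, 1, 32⟩ ⟨0, 1, 16⟩ ⟨23, 1, 48⟩ :=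
  Cov.sx zR244 zR909 (by decide +kernel)
theorem zR911 : Cov (ix [0, 1, 2, 3, 4, 5, 6, 7, 8, 9, 10, 11, 12, 13, 16, 17]) ⟨31, 1, 32⟩ ⟨0, 1, 16⟩ ⟨5, 1, 12⟩ :=
  Cov.sz zR231 zR910 (by decide +kernel)
theorem zR912 : Cov (ix [0, 1, 2, 3, 4, 5, 6, 7, 8, 9, 10, 11, 12, 13, 16, 17]) ⟨31, 1, 32⟩ ⟨0, 1, 16⟩ ⟨2, 1, 6⟩ :=
  Cov.sz zR176 zR911 (by decide +kernel)
theorem zR917 : Cov (ix [0, 1, 2, 3, 4, 5, 6, 7, 8, 9, 10, 11, 12, 16, 17]) ⟨124, 3, 128⟩ ⟨1, 1, 16⟩ ⟨5, 1, 12⟩ :=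
  Cov.sz zR915 zR916 (by decide +kernel)
theorem zR918 : Cov (ix [0, 1, 2, 3, 4, 5, 6, 7, 8, 9, 10, 11, 12, 13, 16, 17]) ⟨124, 3, 128⟩ ⟨1, 1, 16⟩ ⟨5, 1, 12⟩ :=
  Cov.unI zR914 zR917 (by decide +kernel)
theorem zR922 : Cov (ix [4, 5, 6, 7, 8, 9, 10, 11]) ⟨124, 3, 128⟩ ⟨1, 1, 8⟩ ⟨5, 1, 12⟩ :=
  Cov.sy zR920 zR921 (by decide +kernel)
theorem zR923 : Cov (ix [0, 1, 2, 3, 4, 5, 6, 7, 8, 9, 10, 11, 12, 13, 16, 17]) ⟨124, 3, 128⟩ ⟨1, 1, 8⟩ ⟨5, 1, 12⟩ :=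
  Cov.unI zR919 zR922 (by decide +kernel)
theorem zR924 : Cov (ix [0, 1, 2, 3, 4, 5, 6, 7, 8, 9, 10, 11, 12, 13, 16, 17]) ⟨124, 3, 128⟩ ⟨1, 3, 16⟩ ⟨5, 1, 12⟩ :=
  Cov.sy zR918 zR923 (by decide +kernel)
theorem zR925 : Cov (ix [0, 1, 2, 3, 4, 5, 6, 7, 8, 9, 10, 11, 12, 13, 16, 17]) ⟨124, 3, 128⟩ ⟨1, 3, 16⟩ ⟨2, 1, 6⟩ :=
  Cov.sz zR913 zR924 (by decide +kernel)
theorem zR934 : Cov (ix [0, 1, 2, 3, 4, 5, 6, 7, 8, 9, 10, 11, 12, 17]) ⟨131071, 1, 131072⟩ ⟨1, 3, 16⟩ ⟨4, 1, 12⟩ :=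
  Cov.sx zR932 zR933 (by decide +kernel)
theorem zR935 : Cov (ix [0, 1, 2, 3, 4, 5, 6, 7, 8, 9, 10, 11, 12, 13, 16, 17]) ⟨131071, 1, 131072⟩ ⟨1, 3, 16⟩ ⟨4, 1, 12⟩ :=
  Cov.unI zR931 zR934 (by decide +kernel)
theorem zR936 : Cov (ix [0, 1, 2, 3, 4, 5, 6, 7, 8, 9, 10, 11, 12, 13, 16, 17]) ⟨32767, 1, 32768⟩ ⟨1, 3, 16⟩ ⟨4, 1, 12⟩ :=
  Cov.sx zR930 zR935 (by decide +kernel)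
theorem zR937 : Cov (ix [0, 1, 2, 3, 4, 5, 6, 7, 8, 9, 10, 11, 12, 13, 16, 17]) ⟨8191, 1, 8192⟩ ⟨1, 3, 16⟩ ⟨4, 1, 12⟩ :=
  Cov.sx zR929 zR936 (by decide +kernel)
theorem zR938 : Cov (ix [0, 1, 2, 3, 4, 5, 6, 7, 8, 9, 10, 11, 12, 13, 16, 17]) ⟨2047, 1, 2048⟩ ⟨1, 3, 16⟩ ⟨4, 1, 12⟩ :=
  Cov.sx zR928 zR937 (by decide +kernel)
theorem zR939 : Cov (ix [0, 1, 2, 3, 4, 5, 6, 7, 8, 9, 10, 11, 12, 13, 16, 17]) ⟨511, 1, 512⟩ ⟨1, 3, 16⟩ ⟨4, 1, 12⟩ :=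
  Cov.sx zR927 zR938 (by decide +kernel)
theorem zR940 : Cov (ix [0, 1, 2, 3, 4, 5, 6, 7, 8, 9, 10, 11, 12, 13, 16, 17]) ⟨127, 1, 128⟩ ⟨1, 3, 16⟩ ⟨4, 1, 12⟩ :=
  Cov.sx zR926 zR939 (by decide +kernel)
theorem zR944 : Cov (ix [0, 1, 2, 3, 4, 5, 6, 7, 8, 9, 10, 11, 12, 16, 17]) ⟨508, 3, 512⟩ ⟨1, 1, 16⟩ ⟨5, 1, 12⟩ :=
  Cov.sz zR942 zR943 (by decide +kernel)
theorem zR945 : Cov (ix [0, 1, 2, 3, 4, 5, 6, 7, 8, 9, 10, 11, 12, 13, 16, 17]) ⟨508, 3, 512⟩ ⟨1, 1, 16⟩ ⟨5, 1, 12⟩ :=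
  Cov.unI zR941 zR944 (by decide +kernel)
theorem zR949 : Cov (ix [7, 9, 10]) ⟨508, 3, 512⟩ ⟨1, 1, 8⟩ ⟨5, 1, 12⟩ :=
  Cov.sy zR947 zR948 (by decide +kernel)
theorem zR950 : Cov (ix [0, 1, 2, 3, 4, 5, 6, 7, 8, 9, 10, 11, 12, 13, 16, 17]) ⟨508, 3, 512⟩ ⟨1, 1, 8⟩ ⟨5, 1, 12⟩ :=
  Cov.unI zR946 zR949 (by decide +kernel)
theorem zR951 : Cov (ix [0, 1, 2, 3, 4, 5, 6, 7, 8, 9, 10, 11, 12, 13, 16, 17]) ⟨508, 3, 512⟩ ⟨1, 3, 16⟩ ⟨5, 1, 12⟩ :=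
  Cov.sy zR945 zR950 (by decide +kernel)
theorem zR955 : Cov (ix [0, 1, 2, 3, 4, 5, 6, 7, 8, 9, 10, 11, 16, 17]) ⟨2044, 3, 2048⟩ ⟨1, 1, 16⟩ ⟨5, 1, 12⟩ :=
  Cov.sz zR953 zR954 (by decide +kernel)
theorem zR956 : Cov (ix [0, 1, 2, 3, 4, 5, 6, 7, 8, 9, 10, 11, 12, 13, 16, 17]) ⟨2044, 3, 2048⟩ ⟨1, 1, 16⟩ ⟨5, 1, 12⟩ :=
  Cov.unI zR952 zR955 (by decide +kernel)
theorem zR958 : Cov (ix [0, 1, 2, 3, 4, 5, 6, 7, 8, 9, 10, 11, 12, 13, 16, 17]) ⟨2044, 3, 2048⟩ ⟨1, 3, 16⟩ ⟨5, 1, 12⟩ :=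
  Cov.sy zR956 zR957 (by decide +kernel)
theorem zR962 : Cov (ix [0, 1, 2, 3, 4, 5, 6, 7, 8, 9, 10, 11, 16, 17]) ⟨8188, 3, 8192⟩ ⟨1, 1, 16⟩ ⟨5, 1, 12⟩ :=
  Cov.sz zR960 zR961 (by decide +kernel)
theorem zR963 : Cov (ix [0, 1, 2, 3, 4, 5, 6, 7, 8, 9, 10, 11, 12, 13, 16, 17]) ⟨8188, 3, 8192⟩ ⟨1, 1, 16⟩ ⟨5, 1, 12⟩ :=
  Cov.unI zR959 zR962 (by decide +kernel)
theorem zR969 : Cov (ix [7, 8, 9, 10, 11, 12]) ⟨32767, 1, 32768⟩ ⟨1, 1, 16⟩ ⟨20, 3, 48⟩ :=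
  Cov.sx zR967 zR968 (by decide +kernel)
theorem zR970 : Cov (ix [0, 1, 2, 3, 4, 5, 6, 7, 8, 9, 10, 11, 12, 13, 17]) ⟨32767, 1, 32768⟩ ⟨1, 1, 16⟩ ⟨20, 3, 48⟩ :=
  Cov.unI zR966 zR969 (by decide +kernel)
theorem zR971 : Cov (ix [0, 1, 2, 3, 4, 5, 6, 7, 8, 9, 10, 11, 12, 13, 17]) ⟨8191, 1, 8192⟩ ⟨1, 1, 16⟩ ⟨20, 3, 48⟩ :=
  Cov.sx zR965 zR970 (by decide +kernel)
theorem zR972 : Cov (ix [0, 1, 2, 3, 4, 5, 6, 7, 8, 9, 10, 11, 12, 13, 16, 17]) ⟨8191, 1, 8192⟩ ⟨1, 1, 16⟩ ⟨20, 3, 48⟩ :=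
  Cov.unI zR964 zR971 (by decide +kernel)
theorem zR980 : Cov (ix [7, 8, 9, 10, 11, 12]) ⟨131071, 1, 131072⟩ ⟨1, 1, 16⟩ ⟨23, 1, 48⟩ :=
  Cov.sx zR978 zR979 (by decide +kernel)
theorem zR981 : Cov (ix [5, 6, 7, 8, 9, 10, 11, 12, 13]) ⟨131071, 1, 131072⟩ ⟨1, 1, 16⟩ ⟨23, 1, 48⟩ :=
  Cov.unI zR977 zR980 (by decide +kernel)
theorem zR982 : Cov (ix [5, 6, 7, 8, 9, 10, 11, 12, 13]) ⟨32767, 1, 32768⟩ ⟨1, 1, 16⟩ ⟨23, 1, 48⟩ :=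
  Cov.sx zR976 zR981 (by decide +kernel)
theorem zR983 : Cov (ix [0, 1, 2, 3, 4, 5, 6, 7, 8, 9, 10, 11, 12, 13, 17]) ⟨32767, 1, 32768⟩ ⟨1, 1, 16⟩ ⟨23, 1, 48⟩ :=
  Cov.unI zR975 zR982 (by decide +kernel)
theorem zR984 : Cov (ix [0, 1, 2, 3, 4, 5, 6, 7, 8, 9, 10, 11, 12, 13, 17]) ⟨8191, 1, 8192⟩ ⟨1, 1, 16⟩ ⟨23, 1, 48⟩ :=
  Cov.sx zR974 zR983 (by decide +kernel)
theorem zR985 : Cov (ix [0, 1, 2, 3, 4, 5, 6, 7, 8, 9, 10, 11, 12, 13, 16, 17]) ⟨8191, 1, 8192⟩ ⟨1, 1, 16⟩ ⟨23, 1, 48⟩ :=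
  Cov.unI zR973 zR984 (by decide +kernel)
theorem zR986 : Cov (ix [0, 1, 2, 3, 4, 5, 6, 7, 8, 9, 10, 11, 12, 13, 16, 17]) ⟨8191, 1, 8192⟩ ⟨1, 1, 16⟩ ⟨5, 1, 12⟩ :=
  Cov.sz zR972 zR985 (by decide +kernel)
theorem zR987 : Cov (ix [0, 1, 2, 3, 4, 5, 6, 7, 8, 9, 10, 11, 12, 13, 16, 17]) ⟨2047, 1, 2048⟩ ⟨1, 1, 16⟩ ⟨5, 1, 12⟩ :=
  Cov.sx zR963 zR986 (by decide +kernel)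
theorem zR996 : Cov (ix [9]) ⟨524287, 1, 524288⟩ ⟨1, 1, 8⟩ ⟨20, 3, 48⟩ :=
  Cov.sx zR994 zR995 (by decide +kernel)
theorem zR997 : Cov (ix [0, 1, 2, 3, 4, 5, 6, 7, 8, 9, 10, 11, 12]) ⟨524287, 1, 524288⟩ ⟨1, 1, 8⟩ ⟨20, 3, 48⟩ :=
  Cov.unI zR993 zR996 (by decide +kernel)
theorem zR1003 : Cov (ix [9]) ⟨2097151, 1, 2097152⟩ ⟨1, 1, 8⟩ ⟨23, 1, 48⟩ :=
  Cov.sx zR1001 zR1002 (by decide +kernel)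
theorem zR1004 : Cov (ix [7, 8, 9, 10, 11]) ⟨2097151, 1, 2097152⟩ ⟨1, 1, 8⟩ ⟨23, 1, 48⟩ :=
  Cov.unI zR1000 zR1003 (by decide +kernel)
theorem zR1005 : Cov (ix [7, 8, 9, 10, 11]) ⟨524287, 1, 524288⟩ ⟨1, 1, 8⟩ ⟨23, 1, 48⟩ :=
  Cov.sx zR999 zR1004 (by decide +kernel)
theorem zR1006 : Cov (ix [0, 1, 2, 3, 4, 5, 6, 7, 8, 9, 10, 11, 12]) ⟨524287, 1, 524288⟩ ⟨1, 1, 8⟩ ⟨23, 1, 48⟩ :=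
  Cov.unI zR998 zR1005 (by decide +kernel)
theorem zR1007 : Cov (ix [0, 1, 2, 3, 4, 5, 6, 7, 8, 9, 10, 11, 12]) ⟨524287, 1, 524288⟩ ⟨1, 1, 8⟩ ⟨5, 1, 12⟩ :=
  Cov.sz zR997 zR1006 (by decide +kernel)
theorem zR1008 : Cov (ix [0, 1, 2, 3, 4, 5, 6, 7, 8, 9, 10, 11, 12, 13, 16, 17]) ⟨524287, 1, 524288⟩ ⟨1, 1, 8⟩ ⟨5, 1, 12⟩ :=
  Cov.unI zR992 zR1007 (by decide +kernel)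
theorem zR1009 : Cov (ix [0, 1, 2, 3, 4, 5, 6, 7, 8, 9, 10, 11, 12, 13, 16, 17]) ⟨131071, 1, 131072⟩ ⟨1, 1, 8⟩ ⟨5, 1, 12⟩ :=
  Cov.sx zR991 zR1008 (by decide +kernel)
theorem zR1010 : Cov (ix [0, 1, 2, 3, 4, 5, 6, 7, 8, 9, 10, 11, 12, 13, 16, 17]) ⟨32767, 1, 32768⟩ ⟨1, 1, 8⟩ ⟨5, 1, 12⟩ :=
  Cov.sx zR990 zR1009 (by decide +kernel)
theorem zR1011 : Cov (ix [0, 1, 2, 3, 4, 5, 6, 7, 8, 9, 10, 11, 12, 13, 16, 17]) ⟨8191, 1, 8192⟩ ⟨1, 1, 8⟩ ⟨5, 1, 12⟩ :=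
  Cov.sx zR989 zR1010 (by decide +kernel)
theorem zR1012 : Cov (ix [0, 1, 2, 3, 4, 5, 6, 7, 8, 9, 10, 11, 12, 13, 16, 17]) ⟨2047, 1, 2048⟩ ⟨1, 1, 8⟩ ⟨5, 1, 12⟩ :=
  Cov.sx zR988 zR1011 (by decide +kernel)
theorem zR1013 : Cov (ix [0, 1, 2, 3, 4, 5, 6, 7, 8, 9, 10, 11, 12, 13, 16, 17]) ⟨2047, 1, 2048⟩ ⟨1, 3, 16⟩ ⟨5, 1, 12⟩ :=
  Cov.sy zR987 zR1012 (by decide +kernel)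
theorem zR1014 : Cov (ix [0, 1, 2, 3, 4, 5, 6, 7, 8, 9, 10, 11, 12, 13, 16, 17]) ⟨511, 1, 512⟩ ⟨1, 3, 16⟩ ⟨5, 1, 12⟩ :=
  Cov.sx zR958 zR1013 (by decide +kernel)
theorem zR1015 : Cov (ix [0, 1, 2, 3, 4, 5, 6, 7, 8, 9, 10, 11, 12, 13, 16, 17]) ⟨127, 1, 128⟩ ⟨1, 3, 16⟩ ⟨5, 1, 12⟩ :=
  Cov.sx zR951 zR1014 (by decide +kernel)
theorem zR1016 : Cov (ix [0, 1, 2, 3, 4, 5, 6, 7, 8, 9, 10, 11, 12, 13, 16, 17]) ⟨127, 1, 128⟩ ⟨1, 3, 16⟩ ⟨2, 1, 6⟩ :=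
  Cov.sz zR940 zR1015 (by decide +kernel)
theorem zR1017 : Cov (ix [0, 1, 2, 3, 4, 5, 6, 7, 8, 9, 10, 11, 12, 13, 16, 17]) ⟨31, 1, 32⟩ ⟨1, 3, 16⟩ ⟨2, 1, 6⟩ :=
  Cov.sx zR925 zR1016 (by decide +kernel)
theorem zR1018 : Cov (ix [0, 1, 2, 3, 4, 5, 6, 7, 8, 9, 10, 11, 12, 13, 16, 17]) ⟨31, 1, 32⟩ ⟨0, 1, 4⟩ ⟨2, 1, 6⟩ :=
  Cov.sy zR912 zR1017 (by decide +kernel)
theorem zR1019 : Cov (ix [0, 1, 2, 3, 4, 5, 6, 7, 8, 9, 10, 11, 12, 13, 16, 17]) ⟨7, 1, 8⟩ ⟨0, 1, 4⟩ ⟨2, 1, 6⟩ :=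
  Cov.sx zR147 zR1018 (by decide +kernel)
theorem zR1024 : Cov (ix [0, 1, 2, 3, 4, 5, 9, 16, 17]) ⟨14, 1, 16⟩ ⟨1, 1, 4⟩ ⟨2, 1, 6⟩ :=
  Cov.sy zR1022 zR1023 (by decide +kernel)
theorem zR1025 : Cov (ix [0, 1, 2, 3, 4, 5, 6, 7, 8, 9, 10, 11, 12, 16, 17]) ⟨14, 1, 16⟩ ⟨1, 1, 4⟩ ⟨2, 1, 6⟩ :=
  Cov.unI zR1021 zR1024 (by decide +kernel)
theorem zR1029 : Cov (ix [0, 1, 2, 3, 4, 5, 6, 7, 9, 16, 17]) ⟨30, 1, 32⟩ ⟨1, 1, 4⟩ ⟨2, 1, 6⟩ :=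
  Cov.sy zR1027 zR1028 (by decide +kernel)
theorem zR1030 : Cov (ix [0, 1, 2, 3, 4, 5, 6, 7, 8, 9, 10, 11, 12, 16, 17]) ⟨30, 1, 32⟩ ⟨1, 1, 4⟩ ⟨2, 1, 6⟩ :=
  Cov.unI zR1026 zR1029 (by decide +kernel)
theorem zR1031 : Cov (ix [0, 1, 2, 3, 4, 5, 6, 7, 8, 9, 10, 11, 12, 16, 17]) ⟨28, 3, 32⟩ ⟨1, 1, 4⟩ ⟨2, 1, 6⟩ :=
  Cov.sx zR1025 zR1030 (by decide +kernel)
theorem zR1032 : Cov (ix [0, 1, 2, 3, 4, 5, 6, 7, 8, 9, 10, 11, 12, 13, 16, 17]) ⟨28, 3, 32⟩ ⟨1, 1, 4⟩ ⟨2, 1, 6⟩ :=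
  Cov.unI zR1020 zR1031 (by decide +kernel)
theorem zR1036 : Cov (ix [0, 1, 2, 16, 17]) ⟨14, 1, 16⟩ ⟨1, 1, 2⟩ ⟨2, 1, 6⟩ :=
  Cov.sy zR1034 zR1035 (by decide +kernel)
theorem zR1037 : Cov (ix [0, 1, 2, 3, 4, 5, 6, 7, 8, 9, 10, 11, 12, 13, 16, 17]) ⟨14, 1, 16⟩ ⟨1, 1, 2⟩ ⟨2, 1, 6⟩ :=
  Cov.unI zR1033 zR1036 (by decide +kernel)
theorem zR1041 : Cov (ix [0, 1, 2, 3, 9, 16, 17]) ⟨30, 1, 32⟩ ⟨1, 1, 2⟩ ⟨2, 1, 6⟩ :=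
  Cov.sy zR1039 zR1040 (by decide +kernel)
theorem zR1042 : Cov (ix [0, 1, 2, 3, 4, 5, 6, 7, 8, 9, 10, 11, 12, 13, 16, 17]) ⟨30, 1, 32⟩ ⟨1, 1, 2⟩ ⟨2, 1, 6⟩ :=
  Cov.unI zR1038 zR1041 (by decide +kernel)
theorem zR1043 : Cov (ix [0, 1, 2, 3, 4, 5, 6, 7, 8, 9, 10, 11, 12, 13, 16, 17]) ⟨28, 3, 32⟩ ⟨1, 1, 2⟩ ⟨2, 1, 6⟩ :=
  Cov.sx zR1037 zR1042 (by decide +kernel)
theorem zR1044 : Cov (ix [0, 1, 2, 3, 4, 5, 6, 7, 8, 9, 10, 11, 12, 13, 16, 17]) ⟨28, 3, 32⟩ ⟨1, 3, 4⟩ ⟨2, 1, 6⟩ :=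
  Cov.sy zR1032 zR1043 (by decide +kernel)
theorem zR1049 : Cov (ix [0, 1, 2, 3, 5, 6, 7, 9, 10, 17]) ⟨124, 3, 128⟩ ⟨2, 1, 8⟩ ⟨2, 1, 6⟩ :=
  Cov.sx zR1047 zR1048 (by decide +kernel)
theorem zR1050 : Cov (ix [0, 1, 2, 3, 4, 5, 6, 7, 8, 9, 10, 11, 16, 17]) ⟨124, 3, 128⟩ ⟨2, 1, 8⟩ ⟨2, 1, 6⟩ :=
  Cov.unI zR1046 zR1049 (by decide +kernel)
theorem zR1054 : Cov (ix [9]) ⟨124, 3, 128⟩ ⟨3, 1, 8⟩ ⟨2, 1, 6⟩ :=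
  Cov.sx zR1052 zR1053 (by decide +kernel)
theorem zR1055 : Cov (ix [0, 1, 2, 3, 4, 5, 6, 7, 8, 9, 10, 11, 16, 17]) ⟨124, 3, 128⟩ ⟨3, 1, 8⟩ ⟨2, 1, 6⟩ :=
  Cov.unI zR1051 zR1054 (by decide +kernel)
theorem zR1056 : Cov (ix [0, 1, 2, 3, 4, 5, 6, 7, 8, 9, 10, 11, 16, 17]) ⟨124, 3, 128⟩ ⟨1, 1, 4⟩ ⟨2, 1, 6⟩ :=
  Cov.sy zR1050 zR1055 (by decide +kernel)
theorem zR1057 : Cov (ix [0, 1, 2, 3, 4, 5, 6, 7, 8, 9, 10, 11, 12, 13, 16, 17]) ⟨124, 3, 128⟩ ⟨1, 1, 4⟩ ⟨2, 1, 6⟩ :=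
  Cov.unI zR1045 zR1056 (by decide +kernel)
theorem zR1062 : Cov (ix [0, 1, 2, 3, 9, 10, 16, 17]) ⟨62, 1, 64⟩ ⟨1, 1, 2⟩ ⟨2, 1, 6⟩ :=
  Cov.sy zR1060 zR1061 (by decide +kernel)
theorem zR1063 : Cov (ix [0, 1, 2, 3, 4, 5, 6, 7, 8, 9, 10, 11, 12, 16, 17]) ⟨62, 1, 64⟩ ⟨1, 1, 2⟩ ⟨2, 1, 6⟩ :=
  Cov.unI zR1059 zR1062 (by decide +kernel)
theorem zR1067 : Cov (ix [0, 1, 2, 3, 9, 10, 16, 17]) ⟨126, 1, 128⟩ ⟨1, 1, 2⟩ ⟨2, 1, 6⟩ :=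
  Cov.sy zR1065 zR1066 (by decide +kernel)
theorem zR1068 : Cov (ix [0, 1, 2, 3, 4, 5, 6, 7, 8, 9, 10, 11, 12, 16, 17]) ⟨126, 1, 128⟩ ⟨1, 1, 2⟩ ⟨2, 1, 6⟩ :=
  Cov.unI zR1064 zR1067 (by decide +kernel)
theorem zR1069 : Cov (ix [0, 1, 2, 3, 4, 5, 6, 7, 8, 9, 10, 11, 12, 16, 17]) ⟨124, 3, 128⟩ ⟨1, 1, 2⟩ ⟨2, 1, 6⟩ :=
  Cov.sx zR1063 zR1068 (by decide +kernel)
theorem zR1070 : Cov (ix [0, 1, 2, 3, 4, 5, 6, 7, 8, 9, 10, 11, 12, 13, 16, 17]) ⟨124, 3, 128⟩ ⟨1, 1, 2⟩ ⟨2, 1, 6⟩ :=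
  Cov.unI zR1058 zR1069 (by decide +kernel)
theorem zR1071 : Cov (ix [0, 1, 2, 3, 4, 5, 6, 7, 8, 9, 10, 11, 12, 13, 16, 17]) ⟨124, 3, 128⟩ ⟨1, 3, 4⟩ ⟨2, 1, 6⟩ :=
  Cov.sy zR1057 zR1070 (by decide +kernel)
theorem zR1077 : Cov (ix [9]) ⟨508, 3, 512⟩ ⟨1, 1, 4⟩ ⟨5, 1, 12⟩ :=
  Cov.sx zR1075 zR1076 (by decide +kernel)
theorem zR1078 : Cov (ix [0, 1, 2, 3, 4, 5, 6, 7, 8, 9, 10, 11, 16, 17]) ⟨508, 3, 512⟩ ⟨1, 1, 4⟩ ⟨5, 1, 12⟩ :=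
  Cov.unI zR1074 zR1077 (by decide +kernel)
theorem zR1079 : Cov (ix [0, 1, 2, 3, 4, 5, 6, 7, 8, 9, 10, 11, 16, 17]) ⟨508, 3, 512⟩ ⟨1, 1, 4⟩ ⟨2, 1, 6⟩ :=
  Cov.sz zR1073 zR1078 (by decide +kernel)
theorem zR1080 : Cov (ix [0, 1, 2, 3, 4, 5, 6, 7, 8, 9, 10, 11, 12, 13, 16, 17]) ⟨508, 3, 512⟩ ⟨1, 1, 4⟩ ⟨2, 1, 6⟩ :=
  Cov.unI zR1072 zR1079 (by decide +kernel)
theorem zR1085 : Cov (ix [0, 1, 16, 17]) ⟨254, 1, 256⟩ ⟨1, 1, 2⟩ ⟨2, 1, 6⟩ :=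
  Cov.sy zR1083 zR1084 (by decide +kernel)
theorem zR1086 : Cov (ix [0, 1, 2, 3, 4, 5, 6, 9, 10, 11, 12, 16, 17]) ⟨254, 1, 256⟩ ⟨1, 1, 2⟩ ⟨2, 1, 6⟩ :=
  Cov.unI zR1082 zR1085 (by decide +kernel)
theorem zR1088 : Cov (ix [0, 1, 2, 3, 4, 5, 6, 9, 10, 11, 12, 16, 17]) ⟨508, 3, 512⟩ ⟨1, 1, 2⟩ ⟨2, 1, 6⟩ :=
  Cov.sx zR1086 zR1087 (by decide +kernel)
theorem zR1089 : Cov (ix [0, 1, 2, 3, 4, 5, 6, 7, 8, 9, 10, 11, 12, 13, 16, 17]) ⟨508, 3, 512⟩ ⟨1, 1, 2⟩ ⟨2, 1, 6⟩ :=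
  Cov.unI zR1081 zR1088 (by decide +kernel)
theorem zR1090 : Cov (ix [0, 1, 2, 3, 4, 5, 6, 7, 8, 9, 10, 11, 12, 13, 16, 17]) ⟨508, 3, 512⟩ ⟨1, 3, 4⟩ ⟨2, 1, 6⟩ :=
  Cov.sy zR1080 zR1089 (by decide +kernel)
theorem zR1094 : Cov (ix [0, 1, 2, 3, 4, 5, 6, 16, 17]) ⟨2044, 3, 2048⟩ ⟨1, 1, 4⟩ ⟨2, 1, 6⟩ :=
  Cov.sy zR1092 zR1093 (by decide +kernel)
theorem zR1095 : Cov (ix [0, 1, 2, 3, 4, 5, 6, 7, 8, 9, 10, 11, 12, 13, 16, 17]) ⟨2044, 3, 2048⟩ ⟨1, 1, 4⟩ ⟨2, 1, 6⟩ :=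
  Cov.unI zR1091 zR1094 (by decide +kernel)
theorem zR1097 : Cov (ix [0, 1, 2, 3, 4, 5, 6, 7, 8, 9, 10, 11, 12, 13, 16, 17]) ⟨2044, 3, 2048⟩ ⟨1, 3, 4⟩ ⟨2, 1, 6⟩ :=
  Cov.sy zR1095 zR1096 (by decide +kernel)
theorem zR1101 : Cov (ix [0, 1, 2, 16, 17]) ⟨8188, 3, 8192⟩ ⟨1, 1, 4⟩ ⟨2, 1, 6⟩ :=
  Cov.sy zR1099 zR1100 (by decide +kernel)
theorem zR1102 : Cov (ix [0, 1, 2, 3, 4, 5, 6, 7, 8, 9, 10, 11, 12, 13, 16, 17]) ⟨8188, 3, 8192⟩ ⟨1, 1, 4⟩ ⟨2, 1, 6⟩ :=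
  Cov.unI zR1098 zR1101 (by decide +kernel)
theorem zR1104 : Cov (ix [0, 1, 2, 3, 4, 5, 6, 7, 8, 9, 10, 11, 12, 13, 16, 17]) ⟨8188, 3, 8192⟩ ⟨1, 3, 4⟩ ⟨2, 1, 6⟩ :=
  Cov.sy zR1102 zR1103 (by decide +kernel)
theorem zR1107 : Cov (ix [0, 1, 2, 3, 4, 5, 6, 7, 8, 9, 10, 11, 12, 13, 16, 17]) ⟨32764, 3, 32768⟩ ⟨1, 3, 4⟩ ⟨2, 1, 6⟩ :=
  Cov.sy zR1105 zR1106 (by decide +kernel)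
theorem zR1111 : Cov (ix [0, 1, 16, 17]) ⟨131068, 3, 131072⟩ ⟨1, 1, 4⟩ ⟨2, 1, 6⟩ :=
  Cov.sy zR1109 zR1110 (by decide +kernel)
theorem zR1112 : Cov (ix [0, 1, 2, 3, 4, 5, 6, 7, 8, 9, 10, 11, 12, 13, 16, 17]) ⟨131068, 3, 131072⟩ ⟨1, 1, 4⟩ ⟨2, 1, 6⟩ :=
  Cov.unI zR1108 zR1111 (by decide +kernel)
theorem zR1116 : Cov (ix [0, 1, 2, 3, 16, 17]) ⟨524284, 3, 524288⟩ ⟨1, 1, 4⟩ ⟨2, 1, 6⟩ :=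
  Cov.sy zR1114 zR1115 (by decide +kernel)
theorem zR1117 : Cov (ix [0, 1, 2, 3, 4, 5, 6, 7, 8, 9, 10, 11, 12, 13, 16, 17]) ⟨524284, 3, 524288⟩ ⟨1, 1, 4⟩ ⟨2, 1, 6⟩ :=
  Cov.unI zR1113 zR1116 (by decide +kernel)
theorem zR1121 : Cov (ix [0, 1, 2, 3, 4, 5, 16, 17]) ⟨2097148, 3, 2097152⟩ ⟨1, 1, 4⟩ ⟨2, 1, 6⟩ :=
  Cov.sy zR1119 zR1120 (by decide +kernel)
theorem zR1122 : Cov (ix [0, 1, 2, 3, 4, 5, 6, 7, 8, 9, 10, 11, 12, 13, 16, 17]) ⟨2097148, 3, 2097152⟩ ⟨1, 1, 4⟩ ⟨2, 1, 6⟩ :=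
  Cov.unI zR1118 zR1121 (by decide +kernel)
theorem zR1127 : Cov (ix [0, 1, 2, 3, 4, 5, 6, 9, 10, 17]) ⟨2097151, 1, 2097152⟩ ⟨1, 1, 4⟩ ⟨4, 1, 12⟩ :=
  Cov.sx zR1125 zR1126 (by decide +kernel)
theorem zR1128 : Cov (ix [0, 1, 2, 3, 4, 5, 6, 7, 8, 9, 10, 11, 12, 16, 17]) ⟨2097151, 1, 2097152⟩ ⟨1, 1, 4⟩ ⟨4, 1, 12⟩ :=
  Cov.unI zR1124 zR1127 (by decide +kernel)
theorem zR1135 : Cov (ix [9]) ⟨8388607, 1, 8388608⟩ ⟨3, 1, 8⟩ ⟨5, 1, 12⟩ :=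
  Cov.sx zR1133 zR1134 (by decide +kernel)
theorem zR1136 : Cov (ix [1, 2, 3, 4, 9, 10]) ⟨8388607, 1, 8388608⟩ ⟨3, 1, 8⟩ ⟨5, 1, 12⟩ :=
  Cov.unI zR1132 zR1135 (by decide +kernel)
theorem zR1137 : Cov (ix [1, 2, 3, 4, 9, 10]) ⟨8388607, 1, 8388608⟩ ⟨1, 1, 4⟩ ⟨5, 1, 12⟩ :=
  Cov.sy zR1131 zR1136 (by decide +kernel)
theorem zR1138 : Cov (ix [0, 1, 2, 3, 4, 5, 6, 7, 8, 9, 10, 11, 12, 16, 17]) ⟨8388607, 1, 8388608⟩ ⟨1, 1, 4⟩ ⟨5, 1, 12⟩ :=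
  Cov.unI zR1130 zR1137 (by decide +kernel)
theorem zR1139 : Cov (ix [0, 1, 2, 3, 4, 5, 6, 7, 8, 9, 10, 11, 12, 16, 17]) ⟨2097151, 1, 2097152⟩ ⟨1, 1, 4⟩ ⟨5, 1, 12⟩ :=
  Cov.sx zR1129 zR1138 (by decide +kernel)
theorem zR1140 : Cov (ix [0, 1, 2, 3, 4, 5, 6, 7, 8, 9, 10, 11, 12, 16, 17]) ⟨2097151, 1, 2097152⟩ ⟨1, 1, 4⟩ ⟨2, 1, 6⟩ :=
  Cov.sz zR1128 zR1139 (by decide +kernel)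
theorem zR1141 : Cov (ix [0, 1, 2, 3, 4, 5, 6, 7, 8, 9, 10, 11, 12, 13, 16, 17]) ⟨2097151, 1, 2097152⟩ ⟨1, 1, 4⟩ ⟨2, 1, 6⟩ :=
  Cov.unI zR1123 zR1140 (by decide +kernel)
theorem zR1142 : Cov (ix [0, 1, 2, 3, 4, 5, 6, 7, 8, 9, 10, 11, 12, 13, 16, 17]) ⟨524287, 1, 524288⟩ ⟨1, 1, 4⟩ ⟨2, 1, 6⟩ :=
  Cov.sx zR1122 zR1141 (by decide +kernel)
theorem zR1143 : Cov (ix [0, 1, 2, 3, 4, 5, 6, 7, 8, 9, 10, 11, 12, 13, 16, 17]) ⟨131071, 1, 131072⟩ ⟨1, 1, 4⟩ ⟨2, 1, 6⟩ :=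
  Cov.sx zR1117 zR1142 (by decide +kernel)
theorem zR1144 : Cov (ix [0, 1, 2, 3, 4, 5, 6, 7, 8, 9, 10, 11, 12, 13, 16, 17]) ⟨32767, 1, 32768⟩ ⟨1, 1, 4⟩ ⟨2, 1, 6⟩ :=
  Cov.sx zR1112 zR1143 (by decide +kernel)
theorem zR1153 : Cov (ix [16]) ⟨33554428, 3, 33554432⟩ ⟨1, 1, 2⟩ ⟨2, 1, 6⟩ :=
  Cov.sy zR1151 zR1152 (by decide +kernel)
theorem zR1154 : Cov (ix [0, 1, 2, 3, 4, 5, 6, 7, 8, 9, 10, 11, 12, 16, 17]) ⟨33554428, 3, 33554432⟩ ⟨1, 1, 2⟩ ⟨2, 1, 6⟩ :=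
  Cov.unI zR1150 zR1153 (by decide +kernel)
theorem zR1158 : Cov (ix [16]) ⟨134217724, 3, 134217728⟩ ⟨1, 1, 2⟩ ⟨2, 1, 6⟩ :=
  Cov.sy zR1156 zR1157 (by decide +kernel)
theorem zR1159 : Cov (ix [0, 1, 2, 3, 4, 5, 6, 7, 8, 9, 10, 11, 12, 16, 17]) ⟨134217724, 3, 134217728⟩ ⟨1, 1, 2⟩ ⟨2, 1, 6⟩ :=
  Cov.unI zR1155 zR1158 (by decide +kernel)
theorem zR1165 : Cov (ix [0, 1, 2, 9, 10, 11, 16, 17]) ⟨134217727, 1, 134217728⟩ ⟨3, 1, 4⟩ ⟨2, 1, 6⟩ :=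
  Cov.sx zR1163 zR1164 (by decide +kernel)
theorem zR1166 : Cov (ix [0, 1, 2, 3, 4, 5, 6, 9, 10, 11, 12, 16, 17]) ⟨134217727, 1, 134217728⟩ ⟨3, 1, 4⟩ ⟨2, 1, 6⟩ :=
  Cov.unI zR1162 zR1165 (by decide +kernel)
theorem zR1167 : Cov (ix [0, 1, 2, 3, 4, 5, 6, 9, 10, 11, 12, 16, 17]) ⟨134217727, 1, 134217728⟩ ⟨1, 1, 2⟩ ⟨2, 1, 6⟩ :=
  Cov.sy zR1161 zR1166 (by decide +kernel)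
theorem zR1168 : Cov (ix [0, 1, 2, 3, 4, 5, 6, 7, 8, 9, 10, 11, 12, 16, 17]) ⟨134217727, 1, 134217728⟩ ⟨1, 1, 2⟩ ⟨2, 1, 6⟩ :=
  Cov.unI zR1160 zR1167 (by decide +kernel)
theorem zR1169 : Cov (ix [0, 1, 2, 3, 4, 5, 6, 7, 8, 9, 10, 11, 12, 16, 17]) ⟨33554431, 1, 33554432⟩ ⟨1, 1, 2⟩ ⟨2, 1, 6⟩ :=
  Cov.sx zR1159 zR1168 (by decide +kernel)
theorem zR1170 : Cov (ix [0, 1, 2, 3, 4, 5, 6, 7, 8, 9, 10, 11, 12, 16, 17]) ⟨8388607, 1, 8388608⟩ ⟨1, 1, 2⟩ ⟨2, 1, 6⟩ :=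
  Cov.sx zR1154 zR1169 (by decide +kernel)
theorem zR1171 : Cov (ix [0, 1, 2, 3, 4, 5, 6, 7, 8, 9, 10, 11, 12, 13, 16, 17]) ⟨8388607, 1, 8388608⟩ ⟨1, 1, 2⟩ ⟨2, 1, 6⟩ :=
  Cov.unI zR1149 zR1170 (by decide +kernel)
theorem zR1172 : Cov (ix [0, 1, 2, 3, 4, 5, 6, 7, 8, 9, 10, 11, 12, 13, 16, 17]) ⟨2097151, 1, 2097152⟩ ⟨1, 1, 2⟩ ⟨2, 1, 6⟩ :=
  Cov.sx zR1148 zR1171 (by decide +kernel)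
theorem zR1173 : Cov (ix [0, 1, 2, 3, 4, 5, 6, 7, 8, 9, 10, 11, 12, 13, 16, 17]) ⟨524287, 1, 524288⟩ ⟨1, 1, 2⟩ ⟨2, 1, 6⟩ :=
  Cov.sx zR1147 zR1172 (by decide +kernel)
theorem zR1174 : Cov (ix [0, 1, 2, 3, 4, 5, 6, 7, 8, 9, 10, 11, 12, 13, 16, 17]) ⟨131071, 1, 131072⟩ ⟨1, 1, 2⟩ ⟨2, 1, 6⟩ :=
  Cov.sx zR1146 zR1173 (by decide +kernel)
theorem zR1175 : Cov (ix [0, 1, 2, 3, 4, 5, 6, 7, 8, 9, 10, 11, 12, 13, 16, 17]) ⟨32767, 1, 32768⟩ ⟨1, 1, 2⟩ ⟨2, 1, 6⟩ :=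
  Cov.sx zR1145 zR1174 (by decide +kernel)
theorem zR1176 : Cov (ix [0, 1, 2, 3, 4, 5, 6, 7, 8, 9, 10, 11, 12, 13, 16, 17]) ⟨32767, 1, 32768⟩ ⟨1, 3, 4⟩ ⟨2, 1, 6⟩ :=
  Cov.sy zR1144 zR1175 (by decide +kernel)
theorem zR1177 : Cov (ix [0, 1, 2, 3, 4, 5, 6, 7, 8, 9, 10, 11, 12, 13, 16, 17]) ⟨8191, 1, 8192⟩ ⟨1, 3, 4⟩ ⟨2, 1, 6⟩ :=
  Cov.sx zR1107 zR1176 (by decide +kernel)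
theorem zR1178 : Cov (ix [0, 1, 2, 3, 4, 5, 6, 7, 8, 9, 10, 11, 12, 13, 16, 17]) ⟨2047, 1, 2048⟩ ⟨1, 3, 4⟩ ⟨2, 1, 6⟩ :=
  Cov.sx zR1104 zR1177 (by decide +kernel)
theorem zR1179 : Cov (ix [0, 1, 2, 3, 4, 5, 6, 7, 8, 9, 10, 11, 12, 13, 16, 17]) ⟨511, 1, 512⟩ ⟨1, 3, 4⟩ ⟨2, 1, 6⟩ :=
  Cov.sx zR1097 zR1178 (by decide +kernel)
theorem zR1180 : Cov (ix [0, 1, 2, 3, 4, 5, 6, 7, 8, 9, 10, 11, 12, 13, 16, 17]) ⟨127, 1, 128⟩ ⟨1, 3, 4⟩ ⟨2, 1, 6⟩ :=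
  Cov.sx zR1090 zR1179 (by decide +kernel)
theorem zR1181 : Cov (ix [0, 1, 2, 3, 4, 5, 6, 7, 8, 9, 10, 11, 12, 13, 16, 17]) ⟨31, 1, 32⟩ ⟨1, 3, 4⟩ ⟨2, 1, 6⟩ :=
  Cov.sx zR1071 zR1180 (by decide +kernel)
theorem zR1182 : Cov (ix [0, 1, 2, 3, 4, 5, 6, 7, 8, 9, 10, 11, 12, 13, 16, 17]) ⟨7, 1, 8⟩ ⟨1, 3, 4⟩ ⟨2, 1, 6⟩ :=
  Cov.sx zR1044 zR1181 (by decide +kernel)
theorem zR1183 : Cov (ix [0, 1, 2, 3, 4, 5, 6, 7, 8, 9, 10, 11, 12, 13, 16, 17]) ⟨7, 1, 8⟩ ⟨0, 1, 1⟩ ⟨2, 1, 6⟩ :=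
  Cov.sy zR1019 zR1182 (by decide +kernel)
theorem zR1184 : Cov (ix [0, 1, 2, 3, 4, 5, 6, 7, 8, 9, 10, 11, 12, 13, 16, 17]) ⟨1, 1, 2⟩ ⟨0, 1, 1⟩ ⟨2, 1, 6⟩ :=
  Cov.sx zR92 zR1183 (by decide +kernel)

end Crest.Agent.R163.Bx
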