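import Crest.Agent.R163.O4Sym

/-!
# Row 163, orbit inequality for `q = 4`: symmetrised monomials
-/

set_option autoImplicit false
set_option linter.unusedSimpArgs false

namespace Crest.Agent.R163.O4

open Finset

/-- symmetrised monomial -/
noncomputable def M (p q r s : ℕ) (w : Fin 4 → ℝ) : ℝ :=
  ∑ τ : Equiv.Perm (Fin 4), w (τ 0) ^ p * w (τ 1) ^ q * w (τ 2) ^ r * w (τ 3) ^ s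

theorem M_mul (p q r s : ℕ) (y z : Fin 4 → ℝ) :
    ∑ σ : Equiv.Perm (Fin 4), M p q r s (fun a => y a * z (σ a)) = M p q r s y * M p q r s z := by
  unfold M
  rw [Finset.sum_comm, Finset.sum_mul]
  refine Finset.sum_congr rfl fun τ _ => ?_
  have h : ∑ σ : Equiv.Perm (Fin 4), z (σ 0) ^ p * z (σ 1) ^ q * z (σ 2) ^ r * z (σ 3) ^ s =
      ∑ σ : Equiv.Perm (Fin 4), z (σ (τ 0)) ^ p * z (σ (τ 1)) ^ q * z (σ (τ 2)) ^ r *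
        z (σ (τ 3)) ^ s :=
    (Equiv.sum_comp (Equiv.mulRight τ)
      (fun σ : Equiv.Perm (Fin 4) => z (σ 0) ^ p * z (σ 1) ^ q * z (σ 2) ^ r * z (σ 3) ^ s)).symm
  rw [h, Finset.mul_sum]
  refine Finset.sum_congr rfl fun σ _ => ?_
  simp only [mul_pow]
  ring

theorem perms4 : (Finset.univ : Finset (Equiv.Perm (Fin 4))).val.map
    (fun τ => (τ 0, τ 1, τ 2, τ 3)) = (([(0, 1, 2, 3), (0, 1, 3, 2), (0, 2, 1, 3), (0, 2, 3, 1), (0, 3, 1, 2), (0, 3, 2, 1), (1, 0, 2, 3), (1, 0, 3, 2), (1, 2, 0, 3), (1, 2, 3, 0), (1, 3, 0, 2), (1, 3, 2, 0), (2, 0, 1, 3), (2, 0, 3, 1), (2, 1, 0, 3), (2, 1, 3, 0), (2, 3, 0, 1), (2, 3, 1, 0), (3, 0, 1, 2), (3, 0, 2, 1), (3, 1, 0, 2), (3, 1, 2, 0), (3, 2, 0, 1), (3, 2, 1, 0)] : List (Fin 4 × Fin 4 × Fin 4 × Fin 4)) :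
      Multiset (Fin 4 × Fin 4 × Fin 4 × Fin 4)) := by
  decide +kernel

theorem sum_perm4 (f : Fin 4 × Fin 4 × Fin 4 × Fin 4 → ℝ) :
    ∑ τ : Equiv.Perm (Fin 4), f (τ 0, τ 1, τ 2, τ 3) =
    f (0, 1, 2, 3) + f (0, 1, 3, 2) + f (0, 2, 1, 3) + f (0, 2, 3, 1) + f (0, 3, 1, 2) + f (0, 3, 2, 1) + f (1, 0, 2, 3) + f (1, 0, 3, 2) + f (1, 2, 0, 3) + f (1, 2, 3, 0) + f (1, 3, 0, 2) + f (1, 3, 2, 0) + f (2, 0, 1, 3) + f (2, 0, 3, 1) + f (2, 1, 0, 3) + f (2, 1, 3, 0) + f (2, 3, 0, 1) + f (2, 3, 1, 0) + f (3, 0, 1, 2) + f (3, 0, 2, 1) + f (3, 1, 0, 2) + f (3, 1, 2, 0) + f (3, 2, 0, 1) + f (3, 2, 1, 0) := by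
  have h : ∑ τ : Equiv.Perm (Fin 4), f (τ 0, τ 1, τ 2, τ 3) =
      (((Finset.univ : Finset (Equiv.Perm (Fin 4))).val.map
        (fun τ => (τ 0, τ 1, τ 2, τ 3))).map f).sum := by
    rw [Multiset.map_map]; rfl
  rw [h, perms4]
  simp only [Multiset.map_coe, Multiset.sum_coe, List.map_cons, List.map_nil, List.sum_cons,
    List.sum_nil]
  ring

theorem M_expand (p q r s : ℕ) (w : Fin 4 → ℝ) : M p q r s w =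
    w 0 ^ p * w 1 ^ q * w 2 ^ r * w 3 ^ s + w 0 ^ p * w 1 ^ q * w 3 ^ r * w 2 ^ s + w 0 ^ p * w 2 ^ q * w 1 ^ r * w 3 ^ s + w 0 ^ p * w 2 ^ q * w 3 ^ r * w 1 ^ s + w 0 ^ p * w 3 ^ q * w 1 ^ r * w 2 ^ s + w 0 ^ p * w 3 ^ q * w 2 ^ r * w 1 ^ s + w 1 ^ p * w 0 ^ q * w 2 ^ r * w 3 ^ s + w 1 ^ p * w 0 ^ q * w 3 ^ r * w 2 ^ s + w 1 ^ p * w 2 ^ q * w 0 ^ r * w 3 ^ s + w 1 ^ p * w 2 ^ q * w 3 ^ r * w 0 ^ s + w 1 ^ p * w 3 ^ q * w 0 ^ r * w 2 ^ s + w 1 ^ p * w 3 ^ q * w 2 ^ r * w 0 ^ s + w 2 ^ p * w 0 ^ q * w 1 ^ r * w 3 ^ s + w 2 ^ p * w 0 ^ q * w 3 ^ r * w 1 ^ s + w 2 ^ p * w 1 ^ q * w 0 ^ r * w 3 ^ s + w 2 ^ p * w 1 ^ q * w 3 ^ r * w 0 ^ s + w 2 ^ p * w 3 ^ q * w 0 ^ r * w 1 ^ s + w 2 ^ p * w 3 ^ q * w 1 ^ r * w 0 ^ s + w 3 ^ p * w 0 ^ q * w 1 ^ r * w 2 ^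 s + w 3 ^ p * w 0 ^ q * w 2 ^ r * w 1 ^ s + w 3 ^ p * w 1 ^ q * w 0 ^ r * w 2 ^ s + w 3 ^ p * w 1 ^ q * w 2 ^ r * w 0 ^ s + w 3 ^ p * w 2 ^ q * w 0 ^ r * w 1 ^ s + w 3 ^ p * w 2 ^ q * w 1 ^ r * w 0 ^ s := by
  unfold M
  exact sum_perm4 (fun t => w t.1 ^ p * w t.2.1 ^ q * w t.2.2.1 ^ r * w t.2.2.2 ^ s)

theorem M0000 (w : Fin 4 → ℝ) : M 0 0 0 0 w =
    (24) := by
  rw [M_expand]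
  ring

theorem M1000 (w : Fin 4 → ℝ) : M 1 0 0 0 w =
    (6)*(s1 w) := by
  simp only [M_expand, s1_eq, s2_eq, s3_eq, s4_eq]
  ring

theorem M1100 (w : Fin 4 → ℝ) : M 1 1 0 0 w =
    (4)*(s2 w) := by
  simp only [M_expand, s1_eq, s2_eq, s3_eq, s4_eq]
  ring

theorem M2000 (w : Fin 4 → ℝ) : M 2 0 0 0 w =
    (6)*(s1 w)^2 + (-12)*(s2 w) := by
  simp only [M_expand, s1_eq, s2_eq, s3_eq, s4_eq]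
  ring

theorem M1110 (w : Fin 4 → ℝ) : M 1 1 1 0 w =
    (6)*(s3 w) := by
  simp only [M_expand, s1_eq, s2_eq, s3_eq, s4_eq]
  ring

theorem M2100 (w : Fin 4 → ℝ) : M 2 1 0 0 w =
    (2)*(s1 w)*(s2 w) + (-6)*(s3 w) := by
  simp only [M_expand, s1_eq, s2_eq, s3_eq, s4_eq]
  ring

theorem M3000 (w : Fin 4 → ℝ) : M 3 0 0 0 w =
    (6)*(s1 w)^3 + (-18)*(s1 w)*(s2 w) + (18)*(s3 w) := by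
  simp only [M_expand, s1_eq, s2_eq, s3_eq, s4_eq]
  ring

theorem M1111 (w : Fin 4 → ℝ) : M 1 1 1 1 w =
    (24)*(s4 w) := by
  simp only [M_expand, s1_eq, s2_eq, s3_eq, s4_eq]
  ring

theorem M2110 (w : Fin 4 → ℝ) : M 2 1 1 0 w =
    (2)*(s1 w)*(s3 w) + (-8)*(s4 w) := by
  simp only [M_expand, s1_eq, s2_eq, s3_eq, s4_eq]
  ring

theorem M2200 (w : Fin 4 → ℝ) : M 2 2 0 0 w =
    (-8)*(s1 w)*(s3 w) + (4)*(s2 w)^2 + (8)*(s4 w) := by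
  simp only [M_expand, s1_eq, s2_eq, s3_eq, s4_eq]
  ring

theorem M3100 (w : Fin 4 → ℝ) : M 3 1 0 0 w =
    (2)*(s1 w)^2*(s2 w) + (-2)*(s1 w)*(s3 w) + (-4)*(s2 w)^2 + (8)*(s4 w) := by
  simp only [M_expand, s1_eq, s2_eq, s3_eq, s4_eq]
  ring

theorem M4000 (w : Fin 4 → ℝ) : M 4 0 0 0 w =
    (6)*(s1 w)^4 + (-24)*(s1 w)^2*(s2 w) + (24)*(s1 w)*(s3 w) + (12)*(s2 w)^2 + (-24)*(s4 w) := by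
  simp only [M_expand, s1_eq, s2_eq, s3_eq, s4_eq]
  ring

theorem M2111 (w : Fin 4 → ℝ) : M 2 1 1 1 w =
    (6)*(s1 w)*(s4 w) := by
  simp only [M_expand, s1_eq, s2_eq, s3_eq, s4_eq]
  ring

theorem M2210 (w : Fin 4 → ℝ) : M 2 2 1 0 w =
    (-6)*(s1 w)*(s4 w) + (2)*(s2 w)*(s3 w) := by
  simp only [M_expand, s1_eq, s2_eq, s3_eq, s4_eq]
  ring

theorem M3110 (w : Fin 4 → ℝ) : M 3 1 1 0 w =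
    (2)*(s1 w)^2*(s3 w) + (-2)*(s1 w)*(s4 w) + (-4)*(s2 w)*(s3 w) := by
  simp only [M_expand, s1_eq, s2_eq, s3_eq, s4_eq]
  ring

theorem M3200 (w : Fin 4 → ℝ) : M 3 2 0 0 w =
    (-4)*(s1 w)^2*(s3 w) + (2)*(s1 w)*(s2 w)^2 + (10)*(s1 w)*(s4 w) + (-2)*(s2 w)*(s3 w) := by
  simp only [M_expand, s1_eq, s2_eq, s3_eq, s4_eq]
  ring

theorem M4100 (w : Fin 4 → ℝ) : M 4 1 0 0 w =
    (2)*(s1 w)^3*(s2 w) + (-2)*(s1 w)^2*(s3 w) + (-6)*(s1 w)*(s2 w)^2 + (2)*(s1 w)*(s4 w) + (10)*(s2 w)*(s3 w) := by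
  simp only [M_expand, s1_eq, s2_eq, s3_eq, s4_eq]
  ring

theorem M5000 (w : Fin 4 → ℝ) : M 5 0 0 0 w =
    (6)*(s1 w)^5 + (-30)*(s1 w)^3*(s2 w) + (30)*(s1 w)^2*(s3 w) + (30)*(s1 w)*(s2 w)^2 + (-30)*(s1 w)*(s4 w) + (-30)*(s2 w)*(s3 w) := by
  simp only [M_expand, s1_eq, s2_eq, s3_eq, s4_eq]
  ring

theorem M2211 (w : Fin 4 → ℝ) : M 2 2 1 1 w =
    (4)*(s2 w)*(s4 w) := by
  simp only [M_expand, s1_eq, s2_eq, s3_eq, s4_eq]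
  ring

theorem M2220 (w : Fin 4 → ℝ) : M 2 2 2 0 w =
    (-12)*(s2 w)*(s4 w) + (6)*(s3 w)^2 := by
  simp only [M_expand, s1_eq, s2_eq, s3_eq, s4_eq]
  ring

theorem M3111 (w : Fin 4 → ℝ) : M 3 1 1 1 w =
    (6)*(s1 w)^2*(s4 w) + (-12)*(s2 w)*(s4 w) := by
  simp only [M_expand, s1_eq, s2_eq, s3_eq, s4_eq]
  ring

theorem M3210 (w : Fin 4 → ℝ) : M 3 2 1 0 w =
    (-3)*(s1 w)^2*(s4 w) + (1)*(s1 w)*(s2 w)*(s3 w) + (4)*(s2 w)*(s4 w) + (-3)*(s3 w)^2 := by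
  simp only [M_expand, s1_eq, s2_eq, s3_eq, s4_eq]
  ring

theorem M3300 (w : Fin 4 → ℝ) : M 3 3 0 0 w =
    (12)*(s1 w)^2*(s4 w) + (-12)*(s1 w)*(s2 w)*(s3 w) + (4)*(s2 w)^3 + (-12)*(s2 w)*(s4 w) + (12)*(s3 w)^2 := by
  simp only [M_expand, s1_eq, s2_eq, s3_eq, s4_eq]
  ring

theorem M4110 (w : Fin 4 → ℝ) : M 4 1 1 0 w =
    (2)*(s1 w)^3*(s3 w) + (-2)*(s1 w)^2*(s4 w) + (-6)*(s1 w)*(s2 w)*(s3 w) + (4)*(s2 w)*(s4 w) + (6)*(s3 w)^2 := by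
  simp only [M_expand, s1_eq, s2_eq, s3_eq, s4_eq]
  ring

theorem M4200 (w : Fin 4 → ℝ) : M 4 2 0 0 w =
    (-4)*(s1 w)^3*(s3 w) + (2)*(s1 w)^2*(s2 w)^2 + (4)*(s1 w)^2*(s4 w) + (8)*(s1 w)*(s2 w)*(s3 w) + (-4)*(s2 w)^3 + (4)*(s2 w)*(s4 w) + (-6)*(s3 w)^2 := by
  simp only [M_expand, s1_eq, s2_eq, s3_eq, s4_eq]
  ring

theorem M5100 (w : Fin 4 → ℝ) : M 5 1 0 0 w =
    (2)*(s1 w)^4*(s2 w) + (-2)*(s1 w)^3*(s3 w) + (-8)*(s1 w)^2*(s2 w)^2 + (2)*(s1 w)^2*(s4 w) + (14)*(s1 w)*(s2 w)*(s3 w) + (4)*(s2 w)^3 + (-12)*(s2 w)*(s4 w) + (-6)*(s3 w)^2 := by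
  simp only [M_expand, s1_eq, s2_eq, s3_eq, s4_eq]
  ring

theorem M6000 (w : Fin 4 → ℝ) : M 6 0 0 0 w =
    (6)*(s1 w)^6 + (-36)*(s1 w)^4*(s2 w) + (36)*(s1 w)^3*(s3 w) + (54)*(s1 w)^2*(s2 w)^2 + (-36)*(s1 w)^2*(s4 w) + (-72)*(s1 w)*(s2 w)*(s3 w) + (-12)*(s2 w)^3 + (36)*(s2 w)*(s4 w) + (18)*(s3 w)^2 := by
  simp only [M_expand, s1_eq, s2_eq, s3_eq, s4_eq]
  ring

theorem M2221 (w : Fin 4 → ℝ) : M 2 2 2 1 w =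
    (6)*(s3 w)*(s4 w) := by
  simp only [M_expand, s1_eq, s2_eq, s3_eq, s4_eq]
  ring

theorem M3211 (w : Fin 4 → ℝ) : M 3 2 1 1 w =
    (2)*(s1 w)*(s2 w)*(s4 w) + (-6)*(s3 w)*(s4 w) := by
  simp only [M_expand, s1_eq, s2_eq, s3_eq, s4_eq]
  ring

theorem M3220 (w : Fin 4 → ℝ) : M 3 2 2 0 w =
    (-4)*(s1 w)*(s2 w)*(s4 w) + (2)*(s1 w)*(s3 w)^2 + (-2)*(s3 w)*(s4 w) := by
  simp only [M_expand, s1_eq, s2_eq, s3_eq, s4_eq]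
  ring

theorem M3310 (w : Fin 4 → ℝ) : M 3 3 1 0 w =
    (-2)*(s1 w)*(s2 w)*(s4 w) + (-4)*(s1 w)*(s3 w)^2 + (2)*(s2 w)^2*(s3 w) + (10)*(s3 w)*(s4 w) := by
  simp only [M_expand, s1_eq, s2_eq, s3_eq, s4_eq]
  ring

theorem M4111 (w : Fin 4 → ℝ) : M 4 1 1 1 w =
    (6)*(s1 w)^3*(s4 w) + (-18)*(s1 w)*(s2 w)*(s4 w) + (18)*(s3 w)*(s4 w) := by
  simp only [M_expand, s1_eq, s2_eq, s3_eq, s4_eq]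
  ring

theorem M4210 (w : Fin 4 → ℝ) : M 4 2 1 0 w =
    (-3)*(s1 w)^3*(s4 w) + (1)*(s1 w)^2*(s2 w)*(s3 w) + (8)*(s1 w)*(s2 w)*(s4 w) + (-1)*(s1 w)*(s3 w)^2 + (-2)*(s2 w)^2*(s3 w) + (-2)*(s3 w)*(s4 w) := by
  simp only [M_expand, s1_eq, s2_eq, s3_eq, s4_eq]
  ring

theorem M4300 (w : Fin 4 → ℝ) : M 4 3 0 0 w =
    (6)*(s1 w)^3*(s4 w) + (-6)*(s1 w)^2*(s2 w)*(s3 w) + (2)*(s1 w)*(s2 w)^3 + (-4)*(s1 w)*(s2 w)*(s4 w) + (10)*(s1 w)*(s3 w)^2 + (-2)*(s2 w)^2*(s3 w) + (-10)*(s3 w)*(s4 w) := by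
  simp only [M_expand, s1_eq, s2_eq, s3_eq, s4_eq]
  ring

theorem M5110 (w : Fin 4 → ℝ) : M 5 1 1 0 w =
    (2)*(s1 w)^4*(s3 w) + (-2)*(s1 w)^3*(s4 w) + (-8)*(s1 w)^2*(s2 w)*(s3 w) + (6)*(s1 w)*(s2 w)*(s4 w) + (8)*(s1 w)*(s3 w)^2 + (4)*(s2 w)^2*(s3 w) + (-14)*(s3 w)*(s4 w) := by
  simp only [M_expand, s1_eq, s2_eq, s3_eq, s4_eq]
  ring

theorem M5200 (w : Fin 4 → ℝ) : M 5 2 0 0 w =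
    (-4)*(s1 w)^4*(s3 w) + (2)*(s1 w)^3*(s2 w)^2 + (4)*(s1 w)^3*(s4 w) + (12)*(s1 w)^2*(s2 w)*(s3 w) + (-6)*(s1 w)*(s2 w)^3 + (-8)*(s1 w)*(s2 w)*(s4 w) + (-14)*(s1 w)*(s3 w)^2 + (6)*(s2 w)^2*(s3 w) + (14)*(s3 w)*(s4 w) := by
  simp only [M_expand, s1_eq, s2_eq, s3_eq, s4_eq]
  ring

theorem M6100 (w : Fin 4 → ℝ) : M 6 1 0 0 w =
    (2)*(s1 w)^5*(s2 w) + (-2)*(s1 w)^4*(s3 w) + (-10)*(s1 w)^3*(s2 w)^2 + (2)*(s1 w)^3*(s4 w) + (18)*(s1 w)^2*(s2 w)*(s3 w) + (10)*(s1 w)*(s2 w)^3 + (-16)*(s1 w)*(s2 w)*(s4 w) + (-8)*(s1 w)*(s3 w)^2 + (-14)*(s2 w)^2*(s3 w) + (14)*(s3 w)*(s4 w) := by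
  simp only [M_expand, s1_eq, s2_eq, s3_eq, s4_eq]
  ring

theorem M7000 (w : Fin 4 → ℝ) : M 7 0 0 0 w =
    (6)*(s1 w)^7 + (-42)*(s1 w)^5*(s2 w) + (42)*(s1 w)^4*(s3 w) + (84)*(s1 w)^3*(s2 w)^2 + (-42)*(s1 w)^3*(s4 w) + (-126)*(s1 w)^2*(s2 w)*(s3 w) + (-42)*(s1 w)*(s2 w)^3 + (84)*(s1 w)*(s2 w)*(s4 w) + (42)*(s1 w)*(s3 w)^2 + (42)*(s2 w)^2*(s3 w) + (-42)*(s3 w)*(s4 w) := by
  simp only [M_expand, s1_eq, s2_eq, s3_eq, s4_eq]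
  ring

theorem M2222 (w : Fin 4 → ℝ) : M 2 2 2 2 w =
    (24)*(s4 w)^2 := by
  simp only [M_expand, s1_eq, s2_eq, s3_eq, s4_eq]
  ring

theorem M3221 (w : Fin 4 → ℝ) : M 3 2 2 1 w =
    (2)*(s1 w)*(s3 w)*(s4 w) + (-8)*(s4 w)^2 := by
  simp only [M_expand, s1_eq, s2_eq, s3_eq, s4_eq]
  ring

theorem M3311 (w : Fin 4 → ℝ) : M 3 3 1 1 w =
    (-8)*(s1 w)*(s3 w)*(s4 w) + (4)*(s2 w)^2*(s4 w) + (8)*(s4 w)^2 := by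
  simp only [M_expand, s1_eq, s2_eq, s3_eq, s4_eq]
  ring

theorem M3320 (w : Fin 4 → ℝ) : M 3 3 2 0 w =
    (-2)*(s1 w)*(s3 w)*(s4 w) + (-4)*(s2 w)^2*(s4 w) + (2)*(s2 w)*(s3 w)^2 + (8)*(s4 w)^2 := by
  simp only [M_expand, s1_eq, s2_eq, s3_eq, s4_eq]
  ring

theorem M4211 (w : Fin 4 → ℝ) : M 4 2 1 1 w =
    (2)*(s1 w)^2*(s2 w)*(s4 w) + (-2)*(s1 w)*(s3 w)*(s4 w) + (-4)*(s2 w)^2*(s4 w) + (8)*(s4 w)^2 := by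
  simp only [M_expand, s1_eq, s2_eq, s3_eq, s4_eq]
  ring

theorem M4220 (w : Fin 4 → ℝ) : M 4 2 2 0 w =
    (-4)*(s1 w)^2*(s2 w)*(s4 w) + (2)*(s1 w)^2*(s3 w)^2 + (8)*(s2 w)^2*(s4 w) + (-4)*(s2 w)*(s3 w)^2 + (-8)*(s4 w)^2 := by
  simp only [M_expand, s1_eq, s2_eq, s3_eq, s4_eq]
  ring

theorem M4310 (w : Fin 4 → ℝ) : M 4 3 1 0 w =
    (-1)*(s1 w)^2*(s2 w)*(s4 w) + (-2)*(s1 w)^2*(s3 w)^2 + (1)*(s1 w)*(s2 w)^2*(s3 w) + (10)*(s1 w)*(s3 w)*(s4 w) + (-1)*(s2 w)*(s3 w)^2 + (-8)*(s4 w)^2 := by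
  simp only [M_expand, s1_eq, s2_eq, s3_eq, s4_eq]
  ring

theorem M4400 (w : Fin 4 → ℝ) : M 4 4 0 0 w =
    (16)*(s1 w)^2*(s2 w)*(s4 w) + (8)*(s1 w)^2*(s3 w)^2 + (-16)*(s1 w)*(s2 w)^2*(s3 w) + (-32)*(s1 w)*(s3 w)*(s4 w) + (4)*(s2 w)^4 + (-16)*(s2 w)^2*(s4 w) + (16)*(s2 w)*(s3 w)^2 + (24)*(s4 w)^2 := by
  simp only [M_expand, s1_eq, s2_eq, s3_eq, s4_eq]
  ring

theorem M5111 (w : Fin 4 → ℝ) : M 5 1 1 1 w =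
    (6)*(s1 w)^4*(s4 w) + (-24)*(s1 w)^2*(s2 w)*(s4 w) + (24)*(s1 w)*(s3 w)*(s4 w) + (12)*(s2 w)^2*(s4 w) + (-24)*(s4 w)^2 := by
  simp only [M_expand, s1_eq, s2_eq, s3_eq, s4_eq]
  ring

theorem M5210 (w : Fin 4 → ℝ) : M 5 2 1 0 w =
    (-3)*(s1 w)^4*(s4 w) + (1)*(s1 w)^3*(s2 w)*(s3 w) + (11)*(s1 w)^2*(s2 w)*(s4 w) + (-1)*(s1 w)^2*(s3 w)^2 + (-3)*(s1 w)*(s2 w)^2*(s3 w) + (-10)*(s1 w)*(s3 w)*(s4 w) + (-4)*(s2 w)^2*(s4 w) + (5)*(s2 w)*(s3 w)^2 + (8)*(s4 w)^2 := by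
  simp only [M_expand, s1_eq, s2_eq, s3_eq, s4_eq]
  ring

theorem M5300 (w : Fin 4 → ℝ) : M 5 3 0 0 w =
    (6)*(s1 w)^4*(s4 w) + (-6)*(s1 w)^3*(s2 w)*(s3 w) + (2)*(s1 w)^2*(s2 w)^3 + (-18)*(s1 w)^2*(s2 w)*(s4 w) + (6)*(s1 w)^2*(s3 w)^2 + (12)*(s1 w)*(s2 w)^2*(s3 w) + (2)*(s1 w)*(s3 w)*(s4 w) + (-4)*(s2 w)^4 + (16)*(s2 w)^2*(s4 w) + (-14)*(s2 w)*(s3 w)^2 + (-8)*(s4 w)^2 := by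
  simp only [M_expand, s1_eq, s2_eq, s3_eq, s4_eq]
  ring

theorem M6110 (w : Fin 4 → ℝ) : M 6 1 1 0 w =
    (2)*(s1 w)^5*(s3 w) + (-2)*(s1 w)^4*(s4 w) + (-10)*(s1 w)^3*(s2 w)*(s3 w) + (8)*(s1 w)^2*(s2 w)*(s4 w) + (10)*(s1 w)^2*(s3 w)^2 + (10)*(s1 w)*(s2 w)^2*(s3 w) + (-18)*(s1 w)*(s3 w)*(s4 w) + (-4)*(s2 w)^2*(s4 w) + (-10)*(s2 w)*(s3 w)^2 + (8)*(s4 w)^2 := by
  simp only [M_expand, s1_eq, s2_eq, s3_eq, s4_eq]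
  ring

theorem M6200 (w : Fin 4 → ℝ) : M 6 2 0 0 w =
    (-4)*(s1 w)^5*(s3 w) + (2)*(s1 w)^4*(s2 w)^2 + (4)*(s1 w)^4*(s4 w) + (16)*(s1 w)^3*(s2 w)*(s3 w) + (-8)*(s1 w)^2*(s2 w)^3 + (-12)*(s1 w)^2*(s2 w)*(s4 w) + (-18)*(s1 w)^2*(s3 w)^2 + (32)*(s1 w)*(s3 w)*(s4 w) + (4)*(s2 w)^4 + (-8)*(s2 w)^2*(s4 w) + (4)*(s2 w)*(s3 w)^2 + (-8)*(s4 w)^2 := by
  simp only [M_expand, s1_eq, s2_eq, s3_eq, s4_eq]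
  ring

theorem M7100 (w : Fin 4 → ℝ) : M 7 1 0 0 w =
    (2)*(s1 w)^6*(s2 w) + (-2)*(s1 w)^5*(s3 w) + (-12)*(s1 w)^4*(s2 w)^2 + (2)*(s1 w)^4*(s4 w) + (22)*(s1 w)^3*(s2 w)*(s3 w) + (18)*(s1 w)^2*(s2 w)^3 + (-20)*(s1 w)^2*(s2 w)*(s4 w) + (-10)*(s1 w)^2*(s3 w)^2 + (-34)*(s1 w)*(s2 w)^2*(s3 w) + (18)*(s1 w)*(s3 w)*(s4 w) + (-4)*(s2 w)^4 + (16)*(s2 w)^2*(s4 w) + (16)*(s2 w)*(s3 w)^2 + (-8)*(s4 w)^2 := by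
  simp only [M_expand, s1_eq, s2_eq, s3_eq, s4_eq]
  ring

theorem M8000 (w : Fin 4 → ℝ) : M 8 0 0 0 w =
    (6)*(s1 w)^8 + (-48)*(s1 w)^6*(s2 w) + (48)*(s1 w)^5*(s3 w) + (120)*(s1 w)^4*(s2 w)^2 + (-48)*(s1 w)^4*(s4 w) + (-192)*(s1 w)^3*(s2 w)*(s3 w) + (-96)*(s1 w)^2*(s2 w)^3 + (144)*(s1 w)^2*(s2 w)*(s4 w) + (72)*(s1 w)^2*(s3 w)^2 + (144)*(s1 w)*(s2 w)^2*(s3 w) + (-96)*(s1 w)*(s3 w)*(s4 w) + (12)*(s2 w)^4 + (-48)*(s2 w)^2*(s4 w) + (-48)*(s2 w)*(s3 w)^2 + (24)*(s4 w)^2 := by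
  simp only [M_expand, s1_eq, s2_eq, s3_eq, s4_eq]
  ring

end Crest.Agent.R163.O4
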